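import Mathlib

/-! The translation ring of `ℤ^d` acting on functions. -/

namespace Vale.Agent.P043

open Finset

/-- Points of the lattice. -/
abbrev Pt (d : ℕ) := Fin d → ℤ

/-- The translation ring. -/
abbrev TR (d : ℕ) := AddMonoidAlgebra ℤ (Pt d)

/-- The translation operators. -/
def shiftHom (d : ℕ) (V : Type*) [AddCommGroup V] :
    Multiplicative (Pt d) →* Module.End ℤ (Pt d → V) where
  toFun v := LinearMap.funLeft ℤ V fun x => x - v.toAdd
  map_one' := by ext φ x; simp
  map_mul' v w := by ext φ x; simp [sub_sub]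

/-- The action of the translation ring. -/
noncomputable def act {d : ℕ} {V : Type*} [AddCommGroup V] (P : TR d) (φ : Pt d → V) :
    Pt d → V :=
  AddMonoidAlgebra.lift ℤ (Module.End ℤ (Pt d → V)) (Pt d) (shiftHom d V) P φ

/-- A monomial. -/
noncomputable def mono {d : ℕ} (v : Pt d) : TR d := AddMonoidAlgebra.single v 1

variable {d : ℕ} {V : Type*} [AddCommGroup V]

theorem act_mono (v : Pt d) (φ : Pt d → V) (x : Pt d) : act (mono v) φ x = φ (x - v) := by
  simp [act, mono, shiftHom]

theorem act_mul (P Q : TR d) (φ : Pt d → V) : act (P * Q) φ = act P (act Q φ) := by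
  simp [act]

theorem act_add (P Q : TR d) (φ : Pt d → V) : act (P + Q) φ = act P φ + act Q φ := by
  simp [act]

theorem act_sub (P Q : TR d) (φ : Pt d → V) : act (P - Q) φ = act P φ - act Q φ := by
  simp [act]

theorem act_one (φ : Pt d → V) : act 1 φ = φ := by simp [act]

theorem act_natCast (n : ℕ) (φ : Pt d → V) : act (n : TR d) φ = (n : ℤ) • φ := by
  simp [act]

theorem act_zero (φ : Pt d → V) : act 0 φ = 0 := by simp [act]

theorem act_apply_zero (P : TR d) : act P (0 : Pt d → V) = 0 := by simp [act]

theorem act_sub_right (P : TR d) (φ ψ : Pt d → V) : act P (φ - ψ) = act P φ - act P ψ := by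
  simp [act]

theorem act_sum {ι : Type*} (s : Finset ι) (P : ι → TR d) (φ : Pt d → V) :
    act (∑ i ∈ s, P i) φ = ∑ i ∈ s, act (P i) φ := by
  simp [act]

theorem mono_add (v w : Pt d) : mono (v + w) = mono v * mono w := by
  simp [mono]

theorem mono_zero : mono (0 : Pt d) = 1 := rfl

theorem mono_nsmul (n : ℕ) (v : Pt d) : mono v ^ n = mono (n • v) := by
  simp [mono]

theorem act_sum_mono {ι : Type*} [Fintype ι] (e : ι → Pt d) (φ : Pt d → V) (x : Pt d) :
    act (∑ i, mono (e i)) φ x = ∑ i, φ (x - e i) := by
  simp [act_sum, Finset.sum_apply, act_mono]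

/-- The annihilator of a function. -/
def ann (φ : Pt d → V) : Ideal (TR d) where
  carrier := {P | act P φ = 0}
  add_mem' := by intro P Q hP hQ; simp_all [act_add]
  zero_mem' := act_zero φ
  smul_mem' := by intro c P hP; simp_all [act_mul, act_apply_zero]

theorem mem_ann {φ : Pt d → V} {P : TR d} : P ∈ ann φ ↔ act P φ = 0 := Iff.rfl

/-- A bounded integer function killed by a power of a difference is killed by the difference. -/
theorem diff_of_pow {φ : Pt d → ℤ} {B : ℤ} (hB : ∀ x, |φ x| ≤ B) (w : Pt d) :
    ∀ {m : ℕ}, act ((mono w - 1) ^ m) φ = 0 → act (mono w - 1) φ = 0 := by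
  intro m
  induction m generalizing φ B with
  | zero => intro h; rw [pow_zero, act_one] at h; rw [h]; exact act_apply_zero _
  | succ m ih =>
    intro h
    rw [pow_succ, act_mul] at h
    set ψ := act (mono w - 1) φ with hψ
    have hψB : ∀ x, |ψ x| ≤ B + B := fun x => by
      rw [hψ, act_sub, Pi.sub_apply, act_one, act_mono]
      exact (abs_sub _ _).trans (add_le_add (hB _) (hB _))
    have h2 := ih hψB h
    have hper : ∀ x, ψ (x - w) = ψ x := fun x => by
      have := congrFun h2 x
      rw [act_sub, Pi.sub_apply, act_one, act_mono, Pi.zero_apply] at this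
      linarith
    funext x
    have hn : ∀ n : ℕ, φ (x - n • w) = φ x + n * ψ x ∧ ψ (x - n • w) = ψ x := by
      intro n
      induction n with
      | zero => simp
      | succ n ihn =>
        have e : x - (n + 1) • w = x - n • w - w := by rw [succ_nsmul]; abel
        refine ⟨?_, by rw [e, hper, ihn.2]⟩
        have := congrFun hψ (x - n • w)
        rw [act_sub, Pi.sub_apply, act_one, act_mono, ihn.2, ihn.1, ← e] at this
        push_cast
        linarith
    by_contra hne
    have hne' : 1 ≤ |ψ x| := Int.one_le_abs hne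
    have hB0 : 0 ≤ B := (abs_nonneg _).trans (hB x)
    obtain ⟨n, hn'⟩ : ∃ n : ℕ, B + B + 1 = n :=
      ⟨(B + B + 1).toNat, (Int.toNat_of_nonneg (by omega)).symm⟩
    have h3 := (hn n).1
    have h4 : |(n : ℤ) * ψ x| ≤ B + B := by
      rw [show (n : ℤ) * ψ x = φ (x - n • w) - φ x by linarith]
      exact (abs_sub _ _).trans (add_le_add (hB _) (hB _))
    rw [abs_mul, Nat.abs_cast] at h4
    nlinarith

end Vale.Agent.P043
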