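import Vale.Agent.P043.Kinds

/-! Decomposition of a killed function along the forms. -/

namespace Vale.Agent.P043

open Finset

variable {d n : ℕ}

theorem Bdd.actProd {ι : Type*} (v : ι → Pt d) (s : Finset ι) {f : Pt d → ℝ} (hf : Bdd f) :
    Bdd (act (∏ i ∈ s, (mono (v i) - 1)) f) := by
  classical
  induction s using Finset.induction with
  | empty => simpa [act_one] using hf
  | insert i t hi ih =>
    rw [prod_insert hi, act_mul, act_sub, act_one]
    have : act (mono (v i)) (act (∏ j ∈ t, (mono (v j) - 1)) f)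
        = fun x => act (∏ j ∈ t, (mono (v j) - 1)) f (x - v i) := funext fun x => act_mono _ _ _
    rw [this]
    exact (ih.comp _).sub ih

theorem actProd_slice {ι : Type*} (v : ι → Pt d) (s : Finset ι) (P : PForm d) {f : Pt d → ℝ}
    (hf : Bdd f) :
    act (∏ i ∈ s, (mono (v i) - 1)) (fun y => slice P f (P.l y))
      = fun y => slice P (act (∏ i ∈ s, (mono (v i) - 1)) f) (P.l y) := by
  classical
  induction s using Finset.induction with
  | empty => simp [act_one]
  | insert i t hi ih =>
    set g := act (∏ j ∈ t, (mono (v j) - 1)) f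
    have hg : Bdd g := Bdd.actProd v t hf
    rw [prod_insert hi, act_mul, act_mul, ih]
    funext y
    have e : act (mono (v i) - 1) g = fun x => g (x + -v i) - g x := funext fun x => by
      rw [act_sub, Pi.sub_apply, act_one, act_mono, sub_eq_add_neg x]
    rw [act_sub, Pi.sub_apply, act_one, act_mono, e]
    simp only [slice]
    rw [mean_sub (hg.comp _) (hg.comp _)]
    have h2 := slice_translate P hg (-v i) (P.l y)
    simp only [slice] at h2
    rw [h2, map_sub, map_neg, sub_eq_add_neg (P.l y)]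

theorem exists_decomp {P : Fin n → PForm d} :
    ∀ (s : Finset (Fin n)) (f : Pt d → ℝ), Bdd f →
      (∀ v : Fin n → Pt d, (∀ i, (P i).l (v i) = 0) → act (∏ i ∈ s, (mono (v i) - 1)) f = 0) →
      ∃ g : Fin n → ℤ → ℝ, (∀ i, Bdd (g i)) ∧ ∀ y, f y = ∑ i ∈ s, g i ((P i).l y) := by
  intro s
  induction s using Finset.induction with
  | empty =>
    intro f _ h
    have h0 := h 0 (fun i => map_zero _)
    rw [prod_empty, act_one] at h0
    exact ⟨fun _ _ => 0, fun _ => Bdd.const 0, fun y => by simp [h0]⟩
  | insert p t hp ih =>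
    intro f hf hkill
    set Φ := fun y => slice (P p) f ((P p).l y) with hΦ
    have hΦb : Bdd Φ := (bdd_slice _ hf).comp _
    have hsub : ∀ v : Fin n → Pt d, (∀ i, (P i).l (v i) = 0) →
        act (∏ i ∈ t, (mono (v i) - 1)) (fun y => f y - Φ y) = 0 := by
      intro v hv
      set u := act (∏ i ∈ t, (mono (v i) - 1)) f
      have hu : ∀ w, (P p).l w = 0 → ∀ y, u (y + w) = u y := by
        intro w hw y
        have h1 := congrFun (hkill (Function.update v p w) fun i => by
          rcases eq_or_ne i p with rfl | hi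
          · simpa using hw
          · simpa [hi] using hv i) (y + w)
        have hrest : ∏ i ∈ t, (mono (Function.update v p w i) - 1)
            = ∏ i ∈ t, (mono (v i) - 1) :=
          prod_congr rfl fun i hi => by rw [Function.update_of_ne (fun e => hp (by rwa [e] at hi))]
        rw [prod_insert hp, hrest, Function.update_self, act_mul, act_sub, Pi.sub_apply, act_one,
          act_mono, add_sub_cancel_right, Pi.zero_apply] at h1
        linarith
      have e : (fun y => f y - Φ y) = f - Φ := rfl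
      rw [e, act_sub_right, hΦ, actProd_slice v t (P p) hf]
      funext y
      rw [Pi.sub_apply, Pi.zero_apply, slice_l _ (Bdd.actProd v t hf)]
      have : (fun z => act (∏ i ∈ t, (mono (v i) - 1)) f (y + (P p).proj z)) = fun _ => u y :=
        funext fun z => hu _ ((P p).l_proj z) y
      rw [this, mean_const, sub_self]
    obtain ⟨g, hgb, hg⟩ := ih _ (hf.sub hΦb) hsub
    refine ⟨Function.update g p (slice (P p) f), fun i => ?_, fun y => ?_⟩
    · rcases eq_or_ne i p with rfl | hi
      · simpa using bdd_slice _ hf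
      · simpa [hi] using hgb i
    · rw [sum_insert hp, Function.update_self,
        sum_congr rfl fun i hi => by rw [Function.update_of_ne (fun e => hp (by rwa [e] at hi))], ← hg y]
      simp [Φ]

theorem actProd_cong {ι : Type*} (v : ι → Pt d) (s : Finset ι) {f : Pt d → ℝ}
    (hf : ∀ x, Cong (f x) 0) : ∀ x, Cong (act (∏ i ∈ s, (mono (v i) - 1)) f x) 0 := by
  classical
  induction s using Finset.induction with
  | empty => simpa [act_one] using hf
  | insert i t hi ih =>
    intro x
    rw [prod_insert hi, act_mul, act_sub, Pi.sub_apply, act_one, act_mono]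
    simpa using (ih (x - v i)).sub (ih x)

theorem actProd_comp (P : PForm d) {ι : Type*} (v : ι → Pt d) (t : ℤ) (s : Finset ι)
    (hv : ∀ i ∈ s, P.l (v i) = -t) (g : ℤ → ℝ) :
    act (∏ i ∈ s, (mono (v i) - 1)) (fun y => g (P.l y))
      = fun y => (fwdDiff t)^[s.card] g (P.l y) := by
  classical
  induction s using Finset.induction with
  | empty => simp [act_one]
  | insert i r hi ih =>
    rw [prod_insert hi, act_mul, ih fun j hj => hv j (mem_insert_of_mem hj)]
    funext y
    rw [act_sub, Pi.sub_apply, act_one, act_mono, card_insert_of_notMem hi,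
      Function.iterate_succ_apply', map_sub, hv i (mem_insert_self _ _), sub_neg_eq_add]
    rfl

theorem exists_common_step {P : Fin n → PForm d} (hP : Distinct P) (i : Fin n) :
    ∃ t : ℕ, 0 < t ∧ ∃ w : Fin n → Pt d, ∀ j, j ≠ i → (P j).l (w j) = 0 ∧ (P i).l (w j) = -t := by
  have h : ∀ j, ∃ v, j ≠ i → (P j).l v = 0 ∧ (P i).l v ≠ 0 := fun j => by
    rcases eq_or_ne j i with rfl | hj
    · exact ⟨0, fun h => absurd rfl h⟩
    · obtain ⟨v, hv⟩ := hP i j hj.symm; exact ⟨v, fun _ => hv⟩
  choose v hv using h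
  refine ⟨∏ j ∈ univ.erase i, ((P i).l (v j)).natAbs,
    prod_pos fun j hj => Int.natAbs_pos.2 (hv j (ne_of_mem_erase hj)).2, ?_⟩
  have h2 : ∀ j, ∃ c : ℤ, j ≠ i →
      c * (P i).l (v j) = -((∏ k ∈ univ.erase i, ((P i).l (v k)).natAbs : ℕ) : ℤ) := fun j => by
    rcases eq_or_ne j i with rfl | hj
    · exact ⟨0, fun h => absurd rfl h⟩
    · have : (P i).l (v j) ∣ ((∏ k ∈ univ.erase i, ((P i).l (v k)).natAbs : ℕ) : ℤ) :=
        Int.dvd_natCast.2 (dvd_prod_of_mem (fun k => ((P i).l (v k)).natAbs)
          (mem_erase.2 ⟨hj, mem_univ j⟩))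
      obtain ⟨c, hc⟩ := this
      exact ⟨-c, fun _ => by rw [hc]; ring⟩
  choose c hc using h2
  exact ⟨fun j => c j • v j, fun j hj => ⟨by rw [map_zsmul, (hv j hj).1, smul_zero],
    by rw [map_zsmul, smul_eq_mul]; exact hc j hj⟩⟩

theorem initial_form {P : Fin n → PForm d} (hP : Distinct P) {f : Pt d → ℝ}
    (h01 : ∀ y, f y = 0 ∨ f y = 1)
    (hkill : ∀ v : Fin n → Pt d, (∀ i, (P i).l (v i) = 0) → act (∏ i, (mono (v i) - 1)) f = 0) :
    ∃ T : ℕ, 0 < T ∧ ∀ r, Form P (fun y => f (r + T • y)) univ := by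
  have hf : Bdd f := ⟨1, fun y => by rcases h01 y with h | h <;> simp [h]⟩
  have hfI : ∀ y, f y ∈ Set.Icc (0 : ℝ) 1 := fun y => by rcases h01 y with h | h <;> simp [h]
  obtain ⟨g, hgb, hg⟩ := exists_decomp univ f hf hkill
  choose t ht w hw using exists_common_step hP
  set T0 := ∏ i, t i with hT0
  have hT0pos : 0 < T0 := prod_pos fun i _ => ht i
  set G : Fin n → ℤ → ℝ := fun i m =>
    ∑ j ∈ univ.erase i, slice (P i) (fun y => g j ((P j).l y)) m with hG
  have hslice : ∀ i m, slice (P i) f m = g i m + G i m := by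
    intro i m
    have e : f = fun y => g i ((P i).l y) + ∑ j ∈ univ.erase i, g j ((P j).l y) := funext fun y => by
      rw [hg y, add_sum_erase _ (fun j => g j ((P j).l y)) (mem_univ i)]
    conv_lhs => rw [e]
    rw [slice_add _ ((hgb i).comp _) (Bdd.sum _ fun j _ => (hgb j).comp _), slice_comp_l,
      slice_sum _ _ fun j _ => (hgb j).comp _]
  have hper : ∀ (i : Fin n) (z m : ℤ), G i (m + T0 * z) = G i m := by
    intro i z m
    refine sum_congr rfl fun j hj => ?_
    obtain ⟨hj0, hjt⟩ := hw i j (ne_of_mem_erase hj)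
    obtain ⟨c, hc⟩ : (t i : ℤ) ∣ (T0 : ℤ) := Int.natCast_dvd_natCast.2 (dvd_prod_of_mem t (mem_univ i))
    have h1 := slice_period (P i) (f := fun y => g j ((P j).l y)) ((hgb j).comp _)
      (v := (-(c * z)) • w i j) (fun y => by rw [map_add, map_zsmul, hj0, smul_zero, add_zero]) m
    rw [map_zsmul, hjt, smul_eq_mul] at h1
    rw [← h1, hc]
    congr 1
    ring
  have hstep : ∀ (i : Fin n) (r m : ℤ),
      Cong ((fwdDiff (1 : ℤ))^[n] (fun m => slice (P i) f (r + T0 * m)) m) 0 := by
    intro i r m
    have h1 : ∀ m, Cong ((fwdDiff (t i : ℤ))^[(univ.erase i).card] (g i) m) 0 := by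
      intro m
      have h2 := actProd_cong (w i) (univ.erase i) (f := f)
        (fun y => by
          rcases h01 y with h | h
          · exact ⟨0, by simp [h]⟩
          · exact ⟨1, by simp [h]⟩) (m • (P i).u)
      have h3 : act (∏ j ∈ univ.erase i, (mono (w i j) - 1)) f
          = fun y => (fwdDiff (t i : ℤ))^[(univ.erase i).card] (g i) ((P i).l y) := by
        have e : f = (fun y => g i ((P i).l y))
            + fun y => ∑ j ∈ univ.erase i, g j ((P j).l y) := funext fun y => by
          rw [Pi.add_apply, hg y, add_sum_erase _ (fun j => g j ((P j).l y)) (mem_univ i)]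
        have hadd : ∀ (Q : TR d) (a b : Pt d → ℝ), act Q (a + b) = act Q a + act Q b :=
          fun Q a b => by simp [act]
        conv_lhs => rw [e]
        rw [hadd, actProd_comp (P i) (w i) (t i) _ (fun j hj => (hw i j (ne_of_mem_erase hj)).2)]
        have hsum : act (∏ j ∈ univ.erase i, (mono (w i j) - 1))
            (fun y => ∑ j ∈ univ.erase i, g j ((P j).l y)) = 0 := by
          have : (fun y => ∑ j ∈ univ.erase i, g j ((P j).l y))
              = ∑ j ∈ univ.erase i, fun y => g j ((P j).l y) := funext fun y => by simp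
          rw [this]
          simp only [act, map_sum]
          refine sum_eq_zero fun j hj => ?_
          show act _ _ = 0
          rw [← prod_erase_mul _ _ hj, act_mul]
          have hz : act (mono (w i j) - 1) (fun y => g j ((P j).l y)) = 0 := funext fun y => by
            simp [act_sub, act_one, act_mono, (hw i j (ne_of_mem_erase hj)).1]
          rw [hz, act_apply_zero]
        rw [hsum, add_zero]
      rw [h3] at h2
      simpa only [map_zsmul, (P i).hu, smul_eq_mul, mul_one] using h2
    have hcard : (univ.erase i).card + 1 = n := by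
      rw [card_erase_of_mem (mem_univ i), card_univ, Fintype.card_fin, Nat.sub_add_cancel i.pos]
    obtain ⟨c, hc⟩ : t i ∣ T0 := dvd_prod_of_mem t (mem_univ i)
    have e2 : (fun m => slice (P i) f (r + T0 * m))
        = fun m => g i (r + T0 * m) + G i r := funext fun m => by rw [hslice, hper]
    rw [e2, ← hcard]
    set h : ℤ → ℝ := fun m => g i (r + t i * m) with hh
    have h4 : ∀ m, Cong ((fwdDiff (1 : ℤ))^[(univ.erase i).card] h m) 0 := fun m => by
      rw [hh, fwdDiff_comp_affine]; exact h1 _
    have e3 : ∀ m, g i (r + T0 * m) = h (0 + c * m) := fun m => by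
      rw [hh, hc]; push_cast; congr 1; ring
    have h5 : ∀ m, Cong ((fwdDiff (1 : ℤ))^[(univ.erase i).card] (fun m => g i (r + T0 * m)) m) 0 :=
      fun m => by
        simp only [e3]
        simpa using cong_comp_affine h4 0 c m
    rw [Function.iterate_succ_apply]
    have e4 : fwdDiff (1 : ℤ) (fun m => g i (r + T0 * m) + G i r)
        = fwdDiff (1 : ℤ) (fun m => g i (r + T0 * m)) := funext fun x => by simp [fwdDiff]
    rw [e4, ← Function.iterate_succ_apply]
    exact cong_fwdDiff_one_succ h5 m
  choose N hN hdesc using fun (i : Fin n) (ρ : Fin T0) => descend n _ (hstep i (ρ.val : ℤ))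
  set Q := ∏ i, ∏ ρ, N i ρ
  have hQ : 0 < Q := prod_pos fun i _ => prod_pos fun ρ _ => hN i ρ
  refine ⟨T0 * Q, Nat.mul_pos hT0pos hQ, fun r => ?_⟩
  refine ⟨-∑ i, G i ((P i).l r), fun i m => slice (P i) f ((P i).l r + ((T0 * Q : ℕ) : ℤ) * m),
    fun y => ?_, fun i => ⟨fun m => ?_, ?_⟩⟩
  · have e : ∀ i, slice (P i) f ((P i).l r + ((T0 * Q : ℕ) : ℤ) * (P i).l y)
        = g i ((P i).l (r + (T0 * Q) • y)) + G i ((P i).l r) := fun i => by
      rw [hslice, map_add, map_nsmul, nsmul_eq_mul]
      congr 1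
      push_cast
      rw [mul_assoc, hper]
    simp only [e, sum_add_distrib]
    rw [hg]
    ring
  · refine ⟨mean_nonneg (hf.comp _) fun z => (hfI _).1, ?_⟩
    calc _ ≤ mean (fun _ : Pt d => (1 : ℝ)) := mean_mono (hf.comp _) (Bdd.const _) fun z => (hfI _).2
      _ = 1 := mean_const _
  · have hT0' : (T0 : ℤ) ≠ 0 := by exact_mod_cast hT0pos.ne'
    set R := (P i).l r
    set ρ : Fin T0 := ⟨(R % T0).toNat, by
      have := Int.emod_lt_of_pos R (Int.natCast_pos.2 hT0pos)
      have := Int.emod_nonneg R hT0'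
      omega⟩
    have hρ : R = (ρ.val : ℤ) + T0 * (R / T0) := by
      rw [show ((ρ.val : ℤ)) = R % T0 from Int.toNat_of_nonneg (Int.emod_nonneg R hT0'),
        add_comm, Int.mul_ediv_add_emod]
    obtain ⟨c, hc⟩ : N i ρ ∣ Q := dvd_trans (dvd_prod_of_mem (N i) (mem_univ ρ))
      (dvd_prod_of_mem (fun i => ∏ ρ, N i ρ) (mem_univ i))
    have hc0 : c ≠ 0 := by rintro rfl; omega
    have e : ∀ m : ℤ, R + ((T0 * Q : ℕ) : ℤ) * m
        = (ρ.val : ℤ) + T0 * (R / T0 + N i ρ * (c * m)) := fun m => by
      rw [hc]; push_cast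
      conv_lhs => rw [hρ]
      ring
    have e5 : (fun m => slice (P i) f (R + ((T0 * Q : ℕ) : ℤ) * m))
        = fun m => slice (P i) f ((ρ.val : ℤ) + T0 * (R / T0 + N i ρ * (c * m))) :=
      funext fun m => by rw [e]
    beta_reduce
    rw [e5]
    rcases hdesc i ρ (R / T0) with h6 | h6
    · refine (isConst_or_isBin (fun m => ⟨mean_nonneg (hf.comp _) fun z => (hfI _).1, ?_⟩)
        fun m m' => h6 (c * m) (c * m')).elim Or.inl fun h7 => Or.inr (Or.inr ⟨mem_univ i, h7⟩)
      calc _ ≤ mean (fun _ : Pt d => (1 : ℝ)) :=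
            mean_mono (hf.comp _) (Bdd.const _) fun z => (hfI _).2
        _ = 1 := mean_const _
    · exact Or.inr (Or.inl (by simpa using IsIrr.comp h6 0 hc0))

end Vale.Agent.P043
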