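import Vale.Agent.P043.Action

/-! A shift invariant mean on bounded functions on `ℤ^d`, and means over hyperplanes. -/

namespace Vale.Agent.P043

open Finset Filter Topology

variable {d : ℕ}

/-- A bounded real function. -/
def Bdd {α : Type*} (f : α → ℝ) : Prop := ∃ C, ∀ x, |f x| ≤ C

theorem Bdd.const {α : Type*} (c : ℝ) : Bdd fun _ : α => c := ⟨|c|, fun _ => le_rfl⟩

theorem Bdd.add {α : Type*} {f g : α → ℝ} (hf : Bdd f) (hg : Bdd g) : Bdd fun x => f x + g x := by
  obtain ⟨C, hC⟩ := hf; obtain ⟨D, hD⟩ := hg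
  exact ⟨C + D, fun x => (abs_add_le _ _).trans (add_le_add (hC x) (hD x))⟩

theorem Bdd.sub {α : Type*} {f g : α → ℝ} (hf : Bdd f) (hg : Bdd g) : Bdd fun x => f x - g x := by
  obtain ⟨C, hC⟩ := hf; obtain ⟨D, hD⟩ := hg
  exact ⟨C + D, fun x => (abs_sub _ _).trans (add_le_add (hC x) (hD x))⟩

theorem Bdd.smul {α : Type*} {f : α → ℝ} (c : ℝ) (hf : Bdd f) : Bdd fun x => c * f x := by
  obtain ⟨C, hC⟩ := hf
  exact ⟨|c| * C, fun x => by rw [abs_mul]; gcongr; exact hC x⟩

theorem Bdd.mul {α : Type*} {f g : α → ℝ} (hf : Bdd f) (hg : Bdd g) : Bdd fun x => f x * g x := by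
  obtain ⟨C, hC⟩ := hf; obtain ⟨D, hD⟩ := hg
  refine ⟨C * D, fun x => ?_⟩
  rw [abs_mul]
  exact mul_le_mul (hC x) (hD x) (abs_nonneg _) ((abs_nonneg _).trans (hC x))

theorem Bdd.sum {α ι : Type*} (s : Finset ι) {f : ι → α → ℝ} (hf : ∀ i ∈ s, Bdd (f i)) :
    Bdd fun x => ∑ i ∈ s, f i x := by
  classical
  induction s using Finset.induction with
  | empty => exact ⟨0, fun x => by simp⟩
  | insert i t hi ih =>
    simp only [sum_insert hi]
    exact (hf i (mem_insert_self _ _)).add (ih fun j hj => hf j (mem_insert_of_mem hj))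

theorem Bdd.comp {α β : Type*} {f : α → ℝ} (hf : Bdd f) (g : β → α) : Bdd fun x => f (g x) := by
  obtain ⟨C, hC⟩ := hf; exact ⟨C, fun x => hC _⟩

/-- Limit along a fixed nonprincipal ultrafilter. -/
noncomputable def ulim (s : ℕ → ℝ) : ℝ := limUnder (hyperfilter ℕ : Filter ℕ) s

theorem tendsto_ulim {s : ℕ → ℝ} (hs : Bdd s) :
    Tendsto s (hyperfilter ℕ : Filter ℕ) (𝓝 (ulim s)) := by
  obtain ⟨C, hC⟩ := hs
  obtain ⟨x, -, hx⟩ := (isCompact_Icc : IsCompact (Set.Icc (-C) C)).ultrafilter_le_nhds
    ((hyperfilter ℕ).map s) (by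
      rw [Ultrafilter.coe_map, le_principal_iff]
      exact Filter.mem_map.2 (univ_mem' fun n => abs_le.1 (hC n)))
  exact tendsto_nhds_limUnder ⟨x, hx⟩

theorem ulim_eq {s : ℕ → ℝ} {x : ℝ} (h : Tendsto s (hyperfilter ℕ : Filter ℕ) (𝓝 x)) :
    ulim s = x := h.limUnder_eq

/-- The sum of the monomials of a cube of side `n`, over the coordinates in `s`. -/
noncomputable def cubeP (s : Finset (Fin d)) (n : ℕ) : TR d :=
  ∏ i ∈ s, ∑ j ∈ range n, mono (j • (Pi.single i (-1) : Pt d))

theorem act_cube_bound {f : Pt d → ℝ} {C : ℝ} (hf : ∀ x, |f x| ≤ C) (s : Finset (Fin d)) (n : ℕ) :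
    ∀ x, |act (cubeP s n) f x| ≤ (n : ℝ) ^ s.card * C := by
  induction s using Finset.induction with
  | empty => intro x; simpa [cubeP, act_one] using hf x
  | insert i t hi ih =>
    intro x
    rw [cubeP, prod_insert hi, act_mul, act_sum, Finset.sum_apply]
    refine (abs_sum_le_sum_abs _ _).trans ?_
    calc ∑ j ∈ range n, |act (mono (j • (Pi.single i (-1) : Pt d))) (act (cubeP t n) f) x|
        ≤ ∑ _j ∈ range n, (n : ℝ) ^ t.card * C :=
          sum_le_sum fun j _ => by rw [act_mono]; exact ih _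
      _ = _ := by rw [sum_const, card_range, card_insert_of_notMem hi, nsmul_eq_mul]; ring

/-- Averages over cubes. -/
noncomputable def cubeAvg (f : Pt d → ℝ) (n : ℕ) : ℝ :=
  act (cubeP univ n) f 0 / (n : ℝ) ^ d

theorem bdd_cubeAvg {f : Pt d → ℝ} (hf : Bdd f) : Bdd (cubeAvg f) := by
  obtain ⟨C, hC⟩ := hf
  have hC0 : 0 ≤ C := (abs_nonneg _).trans (hC 0)
  refine ⟨C, fun n => ?_⟩
  rw [cubeAvg, abs_div, abs_pow, Nat.abs_cast]
  refine div_le_of_le_mul₀ (by positivity) hC0 ?_
  simpa [mul_comm] using act_cube_bound hC univ n 0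

/-- The mean. -/
noncomputable def mean (f : Pt d → ℝ) : ℝ := ulim (cubeAvg f)

theorem mean_add {f g : Pt d → ℝ} (hf : Bdd f) (hg : Bdd g) :
    mean (fun x => f x + g x) = mean f + mean g := by
  refine ulim_eq ?_
  unfold mean
  convert (tendsto_ulim (bdd_cubeAvg hf)).add (tendsto_ulim (bdd_cubeAvg hg)) using 1
  funext n
  have : (fun x => f x + g x) = f + g := rfl
  rw [cubeAvg, cubeAvg, cubeAvg, this]
  simp [act, map_add, add_div]

theorem act_smul_real (P : TR d) (c : ℝ) (f : Pt d → ℝ) :
    act P (fun x => c * f x) = fun x => c * act P f x := by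
  induction P using AddMonoidAlgebra.induction_on with
  | of g => funext x; exact (act_mono g _ x).trans (congrArg (c * ·) (act_mono g f x).symm)
  | add P Q hP hQ => funext x; rw [act_add, act_add, Pi.add_apply, hP, hQ, Pi.add_apply]; ring
  | smul r P hP =>
    funext x
    have : ∀ φ : Pt d → ℝ, act (r • P) φ = r • act P φ := fun φ => by simp [act]
    rw [this, this, Pi.smul_apply, hP, Pi.smul_apply]
    simp [zsmul_eq_mul]; ring

theorem mean_smul {f : Pt d → ℝ} (c : ℝ) (hf : Bdd f) :
    mean (fun x => c * f x) = c * mean f := by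
  refine ulim_eq ?_
  unfold mean
  convert (tendsto_ulim (bdd_cubeAvg hf)).const_mul c using 1
  funext n
  rw [cubeAvg, cubeAvg, act_smul_real]
  ring

theorem mean_sub {f g : Pt d → ℝ} (hf : Bdd f) (hg : Bdd g) :
    mean (fun x => f x - g x) = mean f - mean g := by
  have := mean_add hf (hg.smul (-1))
  rw [mean_smul _ hg] at this
  convert this using 1
  · exact congrArg mean (funext fun x => by ring)
  · ring

theorem act_cube_const (c : ℝ) (s : Finset (Fin d)) (n : ℕ) :
    act (cubeP s n) (fun _ => c) = fun _ => (n : ℝ) ^ s.card * c := by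
  induction s using Finset.induction with
  | empty => simp [cubeP, act_one]
  | insert i t hi ih =>
    rw [cubeP, prod_insert hi, act_mul, ← cubeP, ih]
    funext x
    rw [act_sum, Finset.sum_apply, card_insert_of_notMem hi]
    simp [act_mono]
    ring

theorem mean_const (c : ℝ) : mean (fun _ : Pt d => c) = c := by
  refine ulim_eq (tendsto_const_nhds.congr' ?_)
  refine Eventually.filter_mono Nat.hyperfilter_le_atTop ?_
  filter_upwards [eventually_ne_atTop 0] with n hn
  rw [cubeAvg, act_cube_const, card_univ, Fintype.card_fin]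
  field_simp

theorem act_cube_nonneg {f : Pt d → ℝ} (hf : ∀ x, 0 ≤ f x) (s : Finset (Fin d)) (n : ℕ) :
    ∀ x, 0 ≤ act (cubeP s n) f x := by
  induction s using Finset.induction with
  | empty => intro x; simpa [cubeP, act_one] using hf x
  | insert i t hi ih =>
    intro x
    rw [cubeP, prod_insert hi, act_mul, act_sum, Finset.sum_apply]
    exact sum_nonneg fun j _ => by rw [act_mono]; exact ih _

theorem mean_nonneg {f : Pt d → ℝ} (hf : Bdd f) (h : ∀ x, 0 ≤ f x) : 0 ≤ mean f :=
  ge_of_tendsto (tendsto_ulim (bdd_cubeAvg hf))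
    (Eventually.of_forall fun n => div_nonneg (act_cube_nonneg h _ _ _) (by positivity))

theorem mean_mono {f g : Pt d → ℝ} (hf : Bdd f) (hg : Bdd g) (h : ∀ x, f x ≤ g x) :
    mean f ≤ mean g := by
  have := mean_nonneg (hg.sub hf) fun x => sub_nonneg.2 (h x)
  rw [mean_sub hg hf] at this
  linarith

theorem mean_zero : mean (fun _ : Pt d => (0 : ℝ)) = 0 := mean_const 0

theorem mean_sum {ι : Type*} (s : Finset ι) {f : ι → Pt d → ℝ} (hf : ∀ i ∈ s, Bdd (f i)) :
    mean (fun x => ∑ i ∈ s, f i x) = ∑ i ∈ s, mean (f i) := by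
  classical
  induction s using Finset.induction with
  | empty => simp [mean_const]
  | insert i t hi ih =>
    simp only [sum_insert hi]
    rw [mean_add (hf i (mem_insert_self _ _))
      (Bdd.sum t fun j hj => hf j (mem_insert_of_mem hj)), ih fun j hj => hf j (mem_insert_of_mem hj)]

theorem mean_shift_single {f : Pt d → ℝ} (hf : Bdd f) (i : Fin d) :
    mean (fun x => f (x + Pi.single i 1)) = mean f := by
  have hz : mean (fun x => f (x + Pi.single i 1) - f x) = 0 := by
    refine ulim_eq ?_
    obtain ⟨C, hC⟩ := hf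
    refine Tendsto.mono_left ?_ Nat.hyperfilter_le_atTop
    refine squeeze_zero_norm' (a := fun n : ℕ => 2 * C / n) ?_
      (tendsto_const_div_atTop_nhds_zero_nat _)
    filter_upwards [eventually_gt_atTop 0] with n hn
    set e : Pt d := Pi.single i (-1) with he
    have h1 : (fun x => f (x + Pi.single i 1) - f x) = act (mono e - 1) f := by
      funext x
      rw [act_sub, Pi.sub_apply, act_one, act_mono, he, Pi.single_neg, sub_neg_eq_add]
    have h2 : cubeP univ n * (mono e - 1) = (mono (n • e) - 1) * cubeP (univ.erase i) n := by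
      have hg : (∑ j ∈ range n, mono (j • e)) * (mono e - 1) = mono (n • e) - 1 := by
        simp only [← mono_nsmul]
        exact geom_sum_mul _ _
      rw [cubeP, cubeP, ← mul_prod_erase univ _ (mem_univ i), ← hg, ← he]
      ring
    rw [cubeAvg, h1, ← act_mul, h2, act_mul, act_sub, Pi.sub_apply, act_one, act_mono,
      Real.norm_eq_abs, abs_div, abs_pow, Nat.abs_cast]
    have hb := act_cube_bound hC (univ.erase i) n
    rw [card_erase_of_mem (mem_univ i), card_univ, Fintype.card_fin] at hb
    have hd : d - 1 + 1 = d := Nat.sub_add_cancel i.pos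
    calc _ ≤ 2 * ((n : ℝ) ^ (d - 1) * C) / (n : ℝ) ^ d := by
          gcongr
          exact (abs_sub _ _).trans (by linarith [hb (0 - n • e), hb 0])
      _ = _ := by
          conv_lhs => rw [← hd, Nat.add_sub_cancel, pow_succ]
          field_simp
  rw [mean_sub (hf.comp _) hf] at hz
  linarith

theorem mean_shift {f : Pt d → ℝ} (hf : Bdd f) (v : Pt d) :
    mean (fun x => f (x + v)) = mean f := by
  let H : AddSubgroup (Pt d) :=
    { carrier := {v | ∀ g : Pt d → ℝ, Bdd g → mean (fun x => g (x + v)) = mean g}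
      zero_mem' := fun g _ => by simp
      add_mem' := fun {a b} ha hb g hg => by
        have := ha _ (hg.comp (· + b))
        simp only [add_assoc] at this
        rw [this, hb g hg]
      neg_mem' := fun {a} ha g hg => by
        have := ha _ (hg.comp (· - a))
        simpa [sub_eq_add_neg] using this.symm }
  suffices hH : v ∈ H from hH f hf
  rw [← Finset.univ_sum_single v]
  refine sum_mem fun i _ => ?_
  have h1 : (Pi.single i 1 : Pt d) ∈ H := fun g hg => mean_shift_single hg i
  have : (Pi.single i (v i) : Pt d) = v i • Pi.single i 1 := by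
    rw [← Pi.single_smul, smul_eq_mul, mul_one]
  rw [this]
  exact H.zsmul_mem h1 _

/-- An integer linear form on `ℤ^d` together with a point where it is one. -/
structure PForm (d : ℕ) where
  /-- The form. -/
  l : Pt d →+ ℤ
  /-- A point where it is one. -/
  u : Pt d
  hu : l u = 1

/-- The projection on the kernel. -/
def PForm.proj (P : PForm d) (z : Pt d) : Pt d := z - P.l z • P.u

theorem PForm.l_proj (P : PForm d) (z : Pt d) : P.l (P.proj z) = 0 := by
  rw [PForm.proj, map_sub, map_zsmul, P.hu, smul_eq_mul, mul_one, sub_self]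

theorem PForm.proj_add (P : PForm d) (z w : Pt d) : P.proj (z + w) = P.proj z + P.proj w := by
  simp only [PForm.proj, map_add, add_smul]; abel

theorem PForm.proj_eq (P : PForm d) {k : Pt d} (hk : P.l k = 0) : P.proj k = k := by
  simp [PForm.proj, hk]

/-- The mean over the slice `P.l = m`. -/
noncomputable def slice (P : PForm d) (f : Pt d → ℝ) (m : ℤ) : ℝ :=
  mean fun z => f (m • P.u + P.proj z)

theorem slice_l (P : PForm d) {f : Pt d → ℝ} (hf : Bdd f) (y : Pt d) :
    slice P f (P.l y) = mean fun z => f (y + P.proj z) := by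
  have h := mean_shift (f := fun z => f (P.l y • P.u + P.proj z)) (hf.comp _) (P.proj y)
  rw [slice, ← h]
  refine congrArg mean (funext fun z => ?_)
  rw [P.proj_add, P.proj_eq (P.l_proj y)]
  congr 1
  simp only [PForm.proj]
  abel

theorem slice_add (P : PForm d) {f g : Pt d → ℝ} (hf : Bdd f) (hg : Bdd g) (m : ℤ) :
    slice P (fun y => f y + g y) m = slice P f m + slice P g m :=
  mean_add (hf.comp _) (hg.comp _)

theorem slice_sum (P : PForm d) {ι : Type*} (s : Finset ι) {f : ι → Pt d → ℝ}
    (hf : ∀ i ∈ s, Bdd (f i)) (m : ℤ) :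
    slice P (fun y => ∑ i ∈ s, f i y) m = ∑ i ∈ s, slice P (f i) m :=
  mean_sum s fun i hi => (hf i hi).comp _

theorem slice_const (P : PForm d) (c : ℝ) (m : ℤ) : slice P (fun _ => c) m = c := mean_const c

theorem slice_comp_l (P : PForm d) (θ : ℤ → ℝ) (m : ℤ) : slice P (fun y => θ (P.l y)) m = θ m := by
  simp only [slice, map_add, map_zsmul, P.hu, P.l_proj, add_zero, smul_eq_mul, mul_one, mean_const]

theorem slice_translate (P : PForm d) {f : Pt d → ℝ} (hf : Bdd f) (v : Pt d) (m : ℤ) :
    slice P (fun y => f (y + v)) m = slice P f (m + P.l v) := by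
  have h1 := slice_l P (hf.comp (· + v)) (m • P.u)
  have h2 := slice_l P hf (m • P.u + v)
  simp only [map_add, map_zsmul, P.hu, smul_eq_mul, mul_one] at h1 h2
  rw [h1, h2]
  exact congrArg mean (funext fun z => by congr 1; abel)

theorem slice_period (P : PForm d) {f : Pt d → ℝ} (hf : Bdd f) {v : Pt d}
    (hv : ∀ y, f (y + v) = f y) (m : ℤ) : slice P f (m + P.l v) = slice P f m := by
  rw [← slice_translate P hf v m, funext hv]

theorem bdd_slice (P : PForm d) {f : Pt d → ℝ} (hf : Bdd f) : Bdd (slice P f) := by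
  obtain ⟨C, hC⟩ := hf
  refine ⟨C, fun m => abs_le.2 ⟨?_, ?_⟩⟩
  · calc -C = mean (fun _ : Pt d => -C) := (mean_const _).symm
      _ ≤ _ := mean_mono (Bdd.const _) ⟨C, fun _ => hC _⟩ fun x => (abs_le.1 (hC _)).1
  · calc _ ≤ mean (fun _ : Pt d => C) :=
          mean_mono ⟨C, fun _ => hC _⟩ (Bdd.const _) fun x => (abs_le.1 (hC _)).2
      _ = C := mean_const _

end Vale.Agent.P043
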