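import Vale.Agent.P043.Rigid
import Vale.Agent.P043.Mean

/-! Definitions for the periodic tiling theorem. -/

namespace Vale.Agent.P043

variable {d : ℕ}

/-- However each element of `F` is paired with another element, the differences of the pairs
span a space of dimension at least `d - 1`. -/
def AlmostRigid (F : Finset (Pt d)) : Prop :=
  ∀ σ : F → F, (∀ f, σ f ≠ f) →
    d - 1 ≤ Module.finrank ℚ
      (Submodule.span ℚ (Set.range fun f : F => toRat ((f : Pt d) - (σ f : Pt d))))

open Classical in
/-- The indicator of `A` on the class of `c` modulo `M`. -/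
noncomputable def clsFn (A : Set (Pt d)) (M : ℕ) (c : Pt d) : Pt d → ℝ :=
  fun y => if c + M • y ∈ A then 1 else 0

/-- A family of forms with pairwise different kernels. -/
def Distinct {n : ℕ} (P : Fin n → PForm d) : Prop :=
  ∀ i j, i ≠ j → ∃ v, (P j).l v = 0 ∧ (P i).l v ≠ 0

/-- Every product of differences along the kernels kills the classes of all tilings. -/
def Killed {n : ℕ} (P : Fin n → PForm d) (M : ℕ) (F : Finset (Pt d)) : Prop :=
  ∀ A, IsTiling A F → ∀ c, ∀ v : Fin n → Pt d, (∀ i, (P i).l (v i) = 0) →
    act (∏ i, (mono (v i) - 1)) (clsFn A M c) = 0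

end Vale.Agent.P043
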