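import Vale.Agent.P043.Rigid

/-! Generic tuples of at least `2 d - 1` points are rigid, and some of them tile. -/

namespace Vale.Agent.P043

open Finset

variable {d k : ℕ}

/-- The vector `e_f - e_g`. -/
def pairVec (σ : Fin k → Fin k) (f : Fin k) : Fin k → ℚ := Pi.single f 1 - Pi.single (σ f) 1

theorem finrank_pairVec (σ : Fin k → Fin k) (hσ : ∀ f, σ f ≠ f) :
    k ≤ 2 * Module.finrank ℚ (Submodule.span ℚ (Set.range (pairVec σ))) := by
  classical
  set W := Submodule.span ℚ (Set.range (pairVec σ))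
  let S : Setoid (Fin k) := Relation.EqvGen.setoid fun a b => σ a = b
  let q : Fin k → Quotient S := Quotient.mk S
  have hrel : ∀ a b, Relation.EqvGen (fun a b => σ a = b) a b →
      (Pi.single a 1 - Pi.single b 1 : Fin k → ℚ) ∈ W := by
    intro a b h
    induction h with
    | rel a b h => subst h; exact Submodule.subset_span ⟨a, rfl⟩
    | refl a => simp
    | symm a b _ ih => simpa using W.neg_mem ih
    | trans a b c _ _ h1 h2 => simpa using W.add_mem h1 h2
  have hfib : ∀ c : Quotient S, 2 ≤ (univ.filter fun a => q a = c).card := by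
    intro c
    induction c using Quotient.inductionOn with
    | _ a =>
      refine le_trans (le_of_eq (card_pair (hσ a).symm).symm) (card_le_card ?_)
      intro b hb
      rw [mem_insert, mem_singleton] at hb
      refine mem_filter.2 ⟨mem_univ _, ?_⟩
      rcases hb with rfl | rfl
      · rfl
      · exact Quotient.sound (Relation.EqvGen.symm _ _ (Relation.EqvGen.rel _ _ rfl))
  have hcard : 2 * Fintype.card (Quotient S) ≤ k := by
    have := card_eq_sum_card_fiberwise (f := q) (s := univ) (t := univ) (by intro a _; simp)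
    simp only [card_univ, Fintype.card_fin] at this
    calc 2 * Fintype.card (Quotient S) = ∑ _c : Quotient S, 2 := by simp [mul_comm]
      _ ≤ _ := sum_le_sum fun c _ => hfib c
      _ = k := this.symm
  have htop : (⊤ : Submodule ℚ (Fin k → ℚ)) ≤ W ⊔ Submodule.span ℚ
      (Set.range fun c : Quotient S => (Pi.single c.out 1 : Fin k → ℚ)) := by
    intro v _
    rw [pi_eq_sum_univ' v]
    refine sum_mem fun a _ => Submodule.smul_mem _ _ ?_
    have h1 := hrel a (q a).out (Quotient.exact (Quotient.out_eq (q a)).symm)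
    have := Submodule.add_mem_sup (T := Submodule.span ℚ
      (Set.range fun c : Quotient S => (Pi.single c.out 1 : Fin k → ℚ))) h1
      (Submodule.subset_span ⟨q a, rfl⟩)
    simpa using this
  have h2 := (Submodule.finrank_mono htop).trans (Submodule.finrank_add_le_finrank_add_finrank W _)
  have h3 := finrank_range_le_card (R := ℚ) fun c : Quotient S => (Pi.single c.out 1 : Fin k → ℚ)
  rw [finrank_top, Module.finrank_fin_fun] at h2
  rw [Set.finrank] at h3
  omega

/-- The difference of two generic points in one coordinate. -/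
noncomputable def diffPoly (a b : Fin k) (i : Fin d) : MvPolynomial (Fin k × Fin d) ℤ :=
  MvPolynomial.X (a, i) - MvPolynomial.X (b, i)

theorem eval_diffPoly (x : Fin k → Pt d) (a b : Fin k) (i : Fin d) :
    MvPolynomial.eval (fun p => x p.1 p.2) (diffPoly a b i) = x a i - x b i := by
  simp [diffPoly]

theorem exists_pair_poly (hk : 2 * d - 1 ≤ k) (σ : Fin k → Fin k) (hσ : ∀ f, σ f ≠ f) :
    ∃ P : MvPolynomial (Fin k × Fin d) ℤ, P ≠ 0 ∧ ∀ x : Fin k → Pt d,
      MvPolynomial.eval (fun p => x p.1 p.2) P ≠ 0 →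
        Submodule.span ℚ (Set.range fun f => toRat (x f - x (σ f))) = ⊤ := by
  classical
  have hd : d ≤ Module.finrank ℚ (Submodule.span ℚ (Set.range (pairVec σ))) := by
    have := finrank_pairVec σ hσ
    omega
  obtain ⟨u, hu, -, hind⟩ := Submodule.exists_fun_fin_finrank_span_eq ℚ (Set.range (pairVec σ))
  choose s hs using hu
  set t : Fin d → Fin k := fun j => s (Fin.castLE hd j)
  have hind' : LinearIndependent ℚ fun j => pairVec σ (t j) := by
    simpa [t, hs, Function.comp_def] using hind.comp _ (Fin.castLE_injective hd)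
  set L : (Fin d → ℚ) →ₗ[ℚ] (Fin k → ℚ) := Fintype.linearCombination ℚ fun j => pairVec σ (t j)
  obtain ⟨M, hM⟩ := L.exists_leftInverse_of_injective
    (LinearMap.ker_eq_bot.2 hind'.fintypeLinearCombination_injective)
  set P := (Matrix.of fun j i : Fin d => diffPoly (t j) (σ (t j)) i).det with hP
  refine ⟨P, fun h0 => ?_, fun x hx => ?_⟩
  · have h1 : MvPolynomial.aeval (fun p : Fin k × Fin d => M (Pi.single p.1 1) p.2) P = 0 := by
      rw [h0, map_zero]
    rw [hP, AlgHom.map_det] at h1
    have h2 : (MvPolynomial.aeval fun p : Fin k × Fin d => M (Pi.single p.1 1) p.2).mapMatrix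
        (Matrix.of fun j i : Fin d => diffPoly (t j) (σ (t j)) i) = 1 := by
      ext j i
      have h3 := congrFun (LinearMap.congr_fun hM (Pi.single j 1)) i
      simp [L, Fintype.linearCombination_apply_single, pairVec] at h3
      simp [diffPoly, h3, Matrix.one_apply, Pi.single_apply, eq_comm]
    rw [h2, Matrix.det_one] at h1
    exact one_ne_zero h1
  · set r : Fin d → Fin d → ℚ := fun j => toRat (x (t j) - x (σ (t j))) with hr
    have hdet : (Matrix.of r).det ≠ 0 := by
      have e : MvPolynomial.aeval (fun p : Fin k × Fin d => ((x p.1 p.2 : ℤ) : ℚ)) P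
          = (Matrix.of r).det := by
        rw [hP, AlgHom.map_det]
        congr 1
        ext j i
        simp [diffPoly, r, toRat]
      rw [← e]
      have e2 : MvPolynomial.aeval (fun p : Fin k × Fin d => ((x p.1 p.2 : ℤ) : ℚ)) P
          = ((MvPolynomial.eval (fun p => x p.1 p.2) P : ℤ) : ℚ) :=
        MvPolynomial.aeval_algebraMap_apply (B := ℚ) (fun p : Fin k × Fin d => x p.1 p.2) P
      rw [e2]
      exact_mod_cast hx
    have hli : LinearIndependent ℚ r := Matrix.linearIndependent_rows_of_det_ne_zero hdet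
    refine eq_top_iff.2 (le_trans (ge_of_eq ?_) (Submodule.span_mono
      (Set.range_subset_range_iff_exists_comp.2 ⟨t, rfl⟩ : Set.range r ⊆ _)))
    exact hli.span_eq_top_of_card_eq_finrank' (by simp)

theorem rigid_image {x : Fin k → Pt d}
    (h : ∀ σ : Fin k → Fin k, (∀ f, σ f ≠ f) →
      Submodule.span ℚ (Set.range fun f => toRat (x f - x (σ f))) = ⊤) :
    Rigid (univ.image x) := by
  classical
  intro σ hσ
  let e : Fin k → ↥(univ.image x) := fun f => ⟨x f, mem_image_of_mem _ (mem_univ f)⟩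
  have hσ' : ∀ f, ∃ g, x g = (σ (e f) : Pt d) := fun f => by
    obtain ⟨g, -, hg⟩ := mem_image.1 (σ (e f)).2
    exact ⟨g, hg⟩
  choose τ hτ using hσ'
  have hτne : ∀ f, τ f ≠ f := fun f hf =>
    hσ (e f) (Subtype.ext (by rw [← hτ f, hf]))
  refine eq_top_iff.2 (le_trans (ge_of_eq (h τ hτne)) (Submodule.span_mono ?_))
  rintro _ ⟨f, rfl⟩
  exact ⟨e f, by simp [e, hτ]⟩

theorem generic_rigid (hd : 1 ≤ d) (hk : 2 * d - 1 ≤ k) :
    ∃ P : MvPolynomial (Fin k × Fin d) ℤ, P ≠ 0 ∧ ∀ x : Fin k → Pt d,
      MvPolynomial.eval (fun p => x p.1 p.2) P ≠ 0 →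
        Function.Injective x ∧ Rigid (univ.image x) := by
  classical
  have h1 := fun σ : {σ : Fin k → Fin k // ∀ f, σ f ≠ f} => exists_pair_poly (d := d) hk σ.1 σ.2
  choose Q hQ hQx using h1
  set i0 : Fin d := ⟨0, hd⟩
  refine ⟨(∏ p : {p : Fin k × Fin k // p.1 ≠ p.2}, diffPoly p.1.1 p.1.2 i0) * ∏ σ, Q σ,
    mul_ne_zero (prod_ne_zero_iff.2 fun p _ => ?_) (prod_ne_zero_iff.2 fun σ _ => hQ σ),
    fun x hx => ?_⟩
  · rw [diffPoly, sub_ne_zero]
    exact fun h => p.2 (congrArg Prod.fst (MvPolynomial.X_injective h))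
  · rw [map_mul, map_prod, map_prod, mul_ne_zero_iff, prod_ne_zero_iff, prod_ne_zero_iff] at hx
    have hinj : Function.Injective x := by
      intro a b hab
      by_contra hne
      apply hx.1 ⟨(a, b), hne⟩ (mem_univ _)
      simp [eval_diffPoly, hab]
    exact ⟨hinj, rigid_image fun σ hσ => hQx ⟨σ, hσ⟩ x (hx.2 _ (mem_univ _))⟩

theorem exists_rigid_tile (hd : 1 ≤ d) (hk : 2 * d - 1 ≤ k) :
    ∃ F : Finset (Pt d), F.card = k ∧ Rigid F ∧ ∃ A, IsTiling A F := by
  classical
  obtain ⟨P, hP, hPx⟩ := generic_rigid hd hk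
  set i0 : Fin d := ⟨0, hd⟩
  have hk0 : 0 < k := by omega
  set c : Fin k × Fin d → ℤ := fun p => if p.2 = i0 then (p.1 : ℤ) else 0
  obtain ⟨y, hy, hyP⟩ : ∃ y ∈ Set.pi Set.univ fun p => Set.range fun u : ℤ => c p + k * u,
      MvPolynomial.eval y P ≠ 0 := by
    by_contra hcon
    push Not at hcon
    refine hP (MvPolynomial.funext_set _ (fun p => Set.infinite_range_of_injective ?_)
      fun y hy => by rw [map_zero]; exact hcon y hy)
    intro u v huv
    simpa [hk0.ne'] using huv
  set x : Fin k → Pt d := fun f i => y (f, i) with hxdef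
  obtain ⟨hinj, hrig⟩ := hPx x hyP
  have hmod : ∀ f : Fin k, x f i0 % (k : ℤ) = f := fun f => by
    obtain ⟨u, hu⟩ := hy (f, i0) (Set.mem_univ _)
    simp only [c, if_true] at hu
    rw [hxdef]
    simp only [← hu, Int.add_mul_emod_self_left]
    exact Int.emod_eq_of_lt (by positivity) (by exact_mod_cast f.2)
  refine ⟨univ.image x, by rw [card_image_of_injective _ hinj]; simp, hrig,
    {a | (k : ℤ) ∣ a i0}, fun g => ?_⟩
  have hk' : (0 : ℤ) < k := by exact_mod_cast hk0
  set f : Fin k := ⟨(g i0 % k).toNat, by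
    have := Int.emod_lt_of_pos (g i0) hk'
    have := Int.emod_nonneg (g i0) hk'.ne'
    omega⟩
  have hf : x f i0 % (k : ℤ) = g i0 % k := by
    rw [hmod]; exact Int.toNat_of_nonneg (Int.emod_nonneg _ hk'.ne')
  refine ⟨(g - x f, x f), ⟨?_, mem_image_of_mem _ (mem_univ f), by simp⟩, ?_⟩
  · exact Int.dvd_of_emod_eq_zero (Int.emod_eq_emod_iff_emod_sub_eq_zero.1 hf.symm)
  · rintro ⟨a, b⟩ ⟨ha, hb, hab⟩
    obtain ⟨f', -, rfl⟩ := mem_image.1 hb
    have h2 : a i0 = g i0 - x f' i0 := by
      have := congrFun hab i0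
      simp only [Pi.add_apply] at this
      linarith
    have h3 : g i0 % k = x f' i0 % k := by
      refine Int.emod_eq_emod_iff_emod_sub_eq_zero.2 (Int.emod_eq_zero_of_dvd ?_)
      rw [← h2]; exact ha
    have : f' = f := by
      apply Fin.ext
      have := hmod f'
      rw [← h3, ← hf, hmod] at this
      exact_mod_cast this.symm
    subst this
    exact Prod.ext (eq_sub_of_add_eq hab) rfl

end Vale.Agent.P043
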