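import Vale.Agent.P043.Kinds

/-!
Irregular components of a decomposition: they are equidistributed, pairwise uncorrelated, and a
zero-one sum of them has mean one half.
-/

namespace Vale.Agent.P043

open Finset Complex

variable {d n : ℕ}

theorem not_isConst_of_isIrr {ψ : ℤ → ℝ} (h : IsIrr ψ) : ¬ IsConst ψ := by
  obtain ⟨D, a, hD, ha, hd⟩ := h
  intro hc
  obtain ⟨E, rfl⟩ : ∃ E, D = E + 1 := ⟨D - 1, by omega⟩
  have h0 : fwdDiff (1 : ℤ) ψ = fun _ => 0 := funext fun m => by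
    simp [fwdDiff, hc (m + 1), hc m]
  have hz : ∀ k : ℕ, (fwdDiff (1 : ℤ))^[k] (fun _ : ℤ => (0 : ℝ)) = fun _ => 0 := by
    intro k
    induction k with
    | zero => rfl
    | succ k ih => rw [Function.iterate_succ_apply', ih]; funext m; simp [fwdDiff]
  obtain ⟨z, hzz⟩ := hd 0
  rw [Function.iterate_succ_apply, h0, hz] at hzz
  exact ha.ne_int (-z) (by push_cast; linarith)

theorem Bdd.of_mem_Icc {α : Type*} {g : α → ℝ} (h : ∀ x, g x ∈ Set.Icc (0 : ℝ) 1) : Bdd g :=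
  ⟨1, fun x => abs_le.2 ⟨by linarith [(h x).1], (h x).2⟩⟩

theorem exists_pos_dir (L : Pt d →+ ℤ) {v : Pt d} (hv : L v ≠ 0) :
    ∃ (w : Pt d) (t : ℕ), t ≠ 0 ∧ L w = (t : ℤ) ∧ (w = v ∨ w = -v) := by
  rcases le_or_gt 0 (L v) with h | h
  · exact ⟨v, (L v).toNat, by omega, (Int.toNat_of_nonneg h).symm, Or.inl rfl⟩
  · refine ⟨-v, (-L v).toNat, by omega, ?_, Or.inr rfl⟩
    rw [map_neg, Int.toNat_of_nonneg (by omega)]

theorem cong_diff_affine {ψ : ℤ → ℝ} {D : ℕ} {a : ℝ} (hD : 1 ≤ D)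
    (h : ∀ m, Cong ((fwdDiff (1 : ℤ))^[D] ψ m) a) (L : Pt d →+ ℤ) (c : ℤ) {w : Pt d} {t : ℕ}
    (hw : L w = (t : ℤ)) {g : Pt d → ℝ} (hg : ∀ x, g (x + w) = g x) (k : ℤ) (x : Pt d) :
    Cong ((fwdDiff w)^[D] (fun y => k * ψ (c + L y) + g y) x) (k * ((t : ℝ) ^ D * a)) := by
  have h1 : ∀ (E : ℕ) (φ : ℤ → ℝ), (fwdDiff w)^[E] (fun y => φ (c + L y))
      = fun y => (fwdDiff (t : ℤ))^[E] φ (c + L y) := by
    intro E
    induction E with
    | zero => intro φ; rfl
    | succ E ih =>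
      intro φ
      rw [Function.iterate_succ_apply', ih, Function.iterate_succ_apply']
      funext y
      simp only [fwdDiff, map_add, hw, ← add_assoc]
  have h2 : fwdDiff w (fun y => (k : ℝ) * ψ (c + L y) + g y)
      = fwdDiff w (fun y => (k : ℝ) * ψ (c + L y)) := funext fun y => by
    simp only [fwdDiff, hg]; ring
  obtain ⟨E, rfl⟩ : ∃ E, D = E + 1 := ⟨D - 1, by omega⟩
  rw [Function.iterate_succ_apply, h2, ← Function.iterate_succ_apply]
  have h3 : (fwdDiff w)^[E + 1] (fun y => (k : ℝ) * ψ (c + L y))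
      = (k : ℝ) • (fwdDiff w)^[E + 1] (fun y => ψ (c + L y)) :=
    fwdDiff_iter_const_smul w (k : ℝ) (fun y => ψ (c + L y)) (E + 1)
  rw [h3, Pi.smul_apply, smul_eq_mul, h1]
  exact (cong_fwdDiff_nat _ _ _ h t _).intMul k

theorem meanC_ev_affine {ψ : ℤ → ℝ} (h : IsIrr ψ) (L : Pt d →+ ℤ) (c : ℤ) {v : Pt d}
    (hv : L v ≠ 0) {g : Pt d → ℝ} (hg : ∀ x, g (x + v) = g x) {k : ℤ} (hk : k ≠ 0) :
    meanC (fun x => ev (k * ψ (c + L x) + g x)) = 0 := by
  obtain ⟨D, a, hD, ha, hd⟩ := h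
  obtain ⟨w, t, ht, hw, hwv⟩ := exists_pos_dir L hv
  have hgw : ∀ x, g (x + w) = g x := by
    rcases hwv with rfl | rfl
    · exact hg
    · intro x
      have := hg (x + -v)
      rw [neg_add_cancel_right] at this
      exact this.symm
  refine weyl_one D _ w _ hD ?_ fun x => cong_diff_affine hD hd L c hw hgw k x
  rw [show ((t : ℝ) ^ D) = ((t ^ D : ℕ) : ℝ) by push_cast; rfl]
  exact (ha.natCast_mul (pow_ne_zero _ ht)).intCast_mul hk

theorem mean_affine {ψ : ℤ → ℝ} (h : IsIrr ψ) (h01 : ∀ m, ψ m ∈ Set.Icc (0 : ℝ) 1)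
    (L : Pt d →+ ℤ) (c : ℤ) {v : Pt d} (hv : L v ≠ 0) (j : ℕ) :
    mean (fun x => ψ (c + L x) ^ (j + 1)) = 1 / (j + 2) := by
  have h1 : ∀ k : ℤ, k ≠ 0 → meanC (fun x => ev (k * ψ (c + L x))) = 0 := fun k hk => by
    have := meanC_ev_affine h L c hv (g := fun _ => 0) (fun _ => rfl) hk
    simpa using this
  have := mean_equidist (ψ := fun x => ψ (c + L x)) (w := fun _ => (1 : ℝ)) (Bdd.const 1)
    (fun k hk => by simpa using h1 k hk) h1 (fun x => h01 _) j
  simpa [mean_const] using this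

theorem mean_mul_affine {ψ χ : ℤ → ℝ} (hψ : IsIrr ψ) (hχ : IsIrr χ)
    (hψ01 : ∀ m, ψ m ∈ Set.Icc (0 : ℝ) 1) (hχ01 : ∀ m, χ m ∈ Set.Icc (0 : ℝ) 1)
    (L L' : Pt d →+ ℤ) {v : Pt d} (hv : L v ≠ 0) (hv' : L' v = 0) {v' : Pt d}
    (hw : L' v' ≠ 0) :
    mean (fun x => ψ (L x) * χ (L' x)) = 1 / 4 := by
  set F : Pt d → ℝ := fun x => ψ (L x) with hF
  set G : Pt d → ℝ := fun x => χ (L' x) with hG
  have hFb : Bdd F := Bdd.of_mem_Icc fun x => hψ01 _
  have hF1 : ∀ k : ℤ, k ≠ 0 → meanC (fun x => ev (k * F x)) = 0 := fun k hk => by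
    simpa [F] using meanC_ev_affine hψ L 0 hv (g := fun _ => 0) (fun _ => rfl) hk
  have hG1 : ∀ k : ℤ, k ≠ 0 → meanC (fun x => ev (k * G x)) = 0 := fun k hk => by
    simpa [G] using meanC_ev_affine hχ L' 0 hw (g := fun _ => 0) (fun _ => rfl) hk
  have hFG : ∀ k : ℤ, k ≠ 0 → ∀ m : ℤ, meanC (fun x => ev (k * F x) * ev (m * G x)) = 0 :=
    fun k hk m => by
    simpa [F, G, ev_add] using meanC_ev_affine hψ L 0 hv (g := fun x => m * χ (L' x))
      (fun x => by simp [map_add, hv']) hk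
  have hcross : ∀ m : ℤ, m ≠ 0 → meanC (fun x => (F x : ℂ) * ev (m * G x)) = 0 := by
    intro m hm
    have hbE : ∀ r : ℤ, BddC fun x => ev (r * G x) := fun r => bddC_ev _
    have hbFG : ∀ k r : ℤ, BddC fun x => ev (k * F x) * ev (r * G x) := fun k r =>
      ⟨1, fun x => by rw [norm_mul, norm_ev, norm_ev, one_mul]⟩
    have hre : ∀ x, (((ev (m * G x)).re : ℝ) : ℂ) =
        (1 / 2 : ℂ) * (ev (m * G x) + ev ((-m : ℤ) * G x)) := fun x => by
      rw [Complex.re_eq_add_conj, conj_ev]; push_cast; ring_nf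
    have him : ∀ x, (((ev (m * G x)).im : ℝ) : ℂ) =
        (1 / (2 * Complex.I) : ℂ) * ev (m * G x) +
          (-1 / (2 * Complex.I) : ℂ) * ev ((-m : ℤ) * G x) := fun x => by
      rw [Complex.im_eq_sub_conj, conj_ev]; push_cast; ring_nf
    have hWre : Bdd fun x => (ev (m * G x)).re := (hbE m).re
    have hWim : Bdd fun x => (ev (m * G x)).im := (hbE m).im
    have e1 : mean (fun x => (ev (m * G x)).re * F x) = 0 := by
      have h := mean_equidist hWre (ψ := F) (fun k hk => by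
        have : (fun x => (((ev (m * G x)).re : ℝ) : ℂ) * ev (k * F x)) = fun x =>
            (1 / 2 : ℂ) * (ev (k * F x) * ev (m * G x)) +
              (1 / 2 : ℂ) * (ev (k * F x) * ev ((-m : ℤ) * G x)) := funext fun x => by
          rw [hre]; ring
        rw [this, meanC_add (BddC.const_mul _ (hbFG _ _)) (BddC.const_mul _ (hbFG _ _)),
          meanC_const_mul _ (hbFG _ _), meanC_const_mul _ (hbFG _ _), hFG k hk, hFG k hk]
        simp) hF1 (fun x => hψ01 _) 0
      rw [← meanC_re, hG1 m hm] at h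
      simpa using h
    have e2 : mean (fun x => (ev (m * G x)).im * F x) = 0 := by
      have h := mean_equidist hWim (ψ := F) (fun k hk => by
        have : (fun x => (((ev (m * G x)).im : ℝ) : ℂ) * ev (k * F x)) = fun x =>
            (1 / (2 * Complex.I) : ℂ) * (ev (k * F x) * ev (m * G x)) +
              (-1 / (2 * Complex.I) : ℂ) * (ev (k * F x) * ev ((-m : ℤ) * G x)) := funext fun x => by
          rw [him]; ring
        rw [this, meanC_add (BddC.const_mul _ (hbFG _ _)) (BddC.const_mul _ (hbFG _ _)),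
          meanC_const_mul _ (hbFG _ _), meanC_const_mul _ (hbFG _ _), hFG k hk, hFG k hk]
        simp) hF1 (fun x => hψ01 _) 0
      rw [← meanC_im, hG1 m hm] at h
      simpa using h
    refine Complex.ext ?_ ?_
    · rw [meanC_re, Complex.zero_re, ← e1]
      exact congrArg mean (funext fun x => by simp [mul_comm])
    · rw [meanC_im, Complex.zero_im, ← e2]
      exact congrArg mean (funext fun x => by simp [mul_comm])
  have h := mean_equidist hFb (ψ := G) hcross hG1 (fun x => hχ01 _) 0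
  have hm : mean F = 1 / 2 := by simpa [F] using mean_affine hψ hψ01 L 0 hv 0
  rw [hm] at h
  norm_num at h ⊢
  exact h

variable {P : Fin n → PForm d} {f : Pt d → ℝ} {K : ℝ} {ψ : Fin n → ℤ → ℝ}

theorem slice_eq (hP : Distinct P) (hf : ∀ y, f y = K + ∑ i, ψ i ((P i).l y))
    (hk : ∀ i, (∀ m, ψ i m ∈ Set.Icc (0 : ℝ) 1) ∧ (IsConst (ψ i) ∨ IsIrr (ψ i))) (p : Fin n) :
    ∃ C : ℝ, ∀ m, slice (P p) f m = C + ψ p m := by
  classical
  have hb : ∀ i, Bdd fun y => ψ i ((P i).l y) := fun i => Bdd.of_mem_Icc fun y => (hk i).1 _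
  have hother : ∀ i, i ≠ p → ∃ c : ℝ, ∀ m, slice (P p) (fun y => ψ i ((P i).l y)) m = c := by
    intro i hi
    rcases (hk i).2 with hc | hc
    · refine ⟨ψ i 0, fun m => ?_⟩
      rw [funext fun y => hc ((P i).l y)]
      exact slice_const _ _ _
    · obtain ⟨v, hv, hv'⟩ := hP i p hi
      refine ⟨1 / 2, fun m => ?_⟩
      let L : Pt d →+ ℤ := (P i).l.comp (AddMonoidHom.mk' (P p).proj (P p).proj_add)
      have hL : L v ≠ 0 := by
        show (P i).l ((P p).proj v) ≠ 0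
        rwa [(P p).proj_eq hv]
      have := mean_affine hc (hk i).1 L ((P i).l (m • (P p).u)) hL 0
      simp only [pow_one, Nat.cast_zero, zero_add] at this
      rw [slice, ← this]
      exact congrArg mean (funext fun z => by simp [L, map_add])
  choose c hc using hother
  refine ⟨K + ∑ i : {i // i ≠ p}, c i.1 i.2, fun m => ?_⟩
  rw [funext hf, slice_add _ (Bdd.const K) (Bdd.sum univ fun i _ => hb i), slice_const,
    slice_sum _ univ fun i _ => hb i, add_assoc]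
  congr 1
  rw [← Finset.add_sum_erase _ _ (mem_univ p), slice_comp_l, add_comm,
    Finset.sum_subtype (univ.erase p) (p := fun i => i ≠ p) (by simp)]
  congr 1
  exact sum_congr rfl fun i _ => hc i.1 i.2 m

theorem mean_eq_half (hP : Distinct P) (h01 : ∀ y, f y = 0 ∨ f y = 1)
    (hf : ∀ y, f y = K + ∑ i, ψ i ((P i).l y))
    (hk : ∀ i, (∀ m, ψ i m ∈ Set.Icc (0 : ℝ) 1) ∧ (IsConst (ψ i) ∨ IsIrr (ψ i)))
    (h1 : ∃ i, IsIrr (ψ i)) : mean f = 1 / 2 := by
  classical
  set J := univ.filter fun i => IsIrr (ψ i) with hJ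
  set K' := K + ∑ i ∈ Jᶜ, ψ i 0 with hK'
  set Ψ : Fin n → Pt d → ℝ := fun i y => ψ i ((P i).l y) with hΨ
  have hJmem : ∀ i ∈ J, IsIrr (ψ i) := fun i hi => (mem_filter.1 hi).2
  have hfJ : ∀ y, f y = K' + ∑ i ∈ J, Ψ i y := fun y => by
    rw [hf, ← Finset.sum_add_sum_compl J, hK']
    have : ∑ i ∈ Jᶜ, ψ i ((P i).l y) = ∑ i ∈ Jᶜ, ψ i 0 := sum_congr rfl fun i hi =>
      ((hk i).2.resolve_right fun h => mem_compl.1 hi (mem_filter.2 ⟨mem_univ i, h⟩)) _
    rw [this]
    ring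
  have hΨb : ∀ i, Bdd (Ψ i) := fun i => Bdd.of_mem_Icc fun y => (hk i).1 _
  have hfb : Bdd f := Bdd.of_mem_Icc fun y => by rcases h01 y with h | h <;> simp [h]
  have hu : ∀ i, (P i).l (P i).u ≠ 0 := fun i => by rw [(P i).hu]; exact one_ne_zero
  have hm1 : ∀ i ∈ J, mean (Ψ i) = 1 / 2 := fun i hi => by
    simpa [Ψ] using mean_affine (hJmem i hi) (hk i).1 (P i).l 0 (hu i) 0
  have hm2 : ∀ i ∈ J, mean (fun y => Ψ i y ^ 2) = 1 / 3 := fun i hi => by
    have := mean_affine (hJmem i hi) (hk i).1 (P i).l 0 (hu i) 1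
    simp only [zero_add] at this
    rw [this]
    norm_num
  have hmm : ∀ i ∈ J, ∀ j ∈ J, i ≠ j → mean (fun y => Ψ i y * Ψ j y) = 1 / 4 := fun i hi j hj hij => by
    obtain ⟨v, hv', hv⟩ := hP i j hij
    exact mean_mul_affine (hJmem i hi) (hJmem j hj) (hk i).1 (hk j).1 _ _ hv hv' (hu j)
  set μ := mean f with hμ
  have hμK : μ = K' + (J.card : ℝ) / 2 := by
    rw [hμ, funext hfJ, mean_add (Bdd.const _) (Bdd.sum J fun i _ => hΨb i), mean_const,
      mean_sum J fun i _ => hΨb i, sum_congr rfl hm1, sum_const, nsmul_eq_mul]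
    ring
  set g : Fin n → Pt d → ℝ := fun i y => Ψ i y - 1 / 2
  have hgb : ∀ i, Bdd (g i) := fun i => (hΨb i).sub (Bdd.const _)
  have hfg : ∀ y, f y - μ = ∑ i ∈ J, g i y := fun y => by
    rw [hfJ, hμK, sum_sub_distrib, sum_const, nsmul_eq_mul]
    ring
  have hgg : ∀ i ∈ J, ∀ j ∈ J, mean (fun y => g i y * g j y) = if i = j then 1 / 12 else 0 := by
    intro i hi j hj
    have hexp : mean (fun y => g i y * g j y) =
        mean (fun y => Ψ i y * Ψ j y) - 1 / 2 * mean (Ψ i) - 1 / 2 * mean (Ψ j) + 1 / 4 := by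
      rw [← mean_smul (1 / 2) (hΨb i), ← mean_smul (1 / 2) (hΨb j),
        ← mean_sub ((hΨb i).mul (hΨb j)) ((hΨb i).smul _),
        ← mean_sub (((hΨb i).mul (hΨb j)).sub ((hΨb i).smul _)) ((hΨb j).smul _)]
      conv_rhs => rw [← mean_const (d := d) (1 / 4)]
      rw [← mean_add ((((hΨb i).mul (hΨb j)).sub ((hΨb i).smul _)).sub ((hΨb j).smul _))
        (Bdd.const _)]
      exact congrArg mean (funext fun y => by simp only [g]; ring)
    rw [hexp, hm1 i hi, hm1 j hj]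
    split_ifs with h
    · subst h
      simp only [← sq, hm2 i hi]
      norm_num
    · rw [hmm i hi j hj h]; norm_num
  have hvar : μ * (1 - μ) = (J.card : ℝ) / 12 := by
    have h2 : mean (fun y => (f y - μ) * (f y - μ)) = μ * (1 - μ) := by
      have e : (fun y => (f y - μ) * (f y - μ)) = fun y => (1 - 2 * μ) * f y + μ * μ :=
        funext fun y => by rcases h01 y with h | h <;> rw [h] <;> ring
      rw [e, mean_add (hfb.smul _) (Bdd.const _), mean_smul _ hfb, mean_const, ← hμ]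
      ring
    rw [← h2]
    simp only [hfg, sum_mul_sum]
    rw [mean_sum J fun i _ => Bdd.sum J fun j _ => (hgb i).mul (hgb j)]
    rw [sum_congr rfl fun i hi => (mean_sum J fun j _ => (hgb i).mul (hgb j)).trans
      ((sum_congr rfl fun j hj => hgg i hi j hj).trans (sum_ite_eq J i fun _ => (1 / 12 : ℝ)))]
    rw [sum_congr rfl fun i hi => if_pos hi, sum_const, nsmul_eq_mul]
    ring
  have h3 : J.card ≤ 3 := by
    have : (J.card : ℝ) ≤ 3 := by nlinarith [sq_nonneg (μ - 1 / 2)]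
    exact_mod_cast this
  obtain ⟨p, hp⟩ := h1
  have hpJ : p ∈ J := mem_filter.2 ⟨mem_univ p, hp⟩
  rcases eq_or_lt_of_le h3 with h4 | h4
  · rw [h4] at hvar
    push_cast at hvar
    have : (μ - 1 / 2) ^ 2 = 0 := by linarith [show μ * (1 - μ) = 1 / 4 - (μ - 1 / 2) ^ 2 by ring]
    have := pow_eq_zero_iff (n := 2) two_ne_zero |>.1 this
    linarith
  · exfalso
    obtain ⟨v, hv, hvo⟩ : ∃ v, (P p).l v ≠ 0 ∧ ∀ i ∈ J, i ≠ p → (P i).l v = 0 := by
      rcases (J.erase p).eq_empty_or_nonempty with he | ⟨q, hq⟩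
      · exact ⟨(P p).u, hu p, fun i hi hip => absurd (mem_erase.2 ⟨hip, hi⟩) (by simp [he])⟩
      · obtain ⟨hqp, hqJ⟩ := mem_erase.1 hq
        obtain ⟨v, hv', hv⟩ := hP p q hqp.symm
        refine ⟨v, hv, fun i hi hip => ?_⟩
        have hcard : (J.erase p).card ≤ 1 := by rw [card_erase_of_mem hpJ]; omega
        rw [card_le_one.1 hcard i (mem_erase.2 ⟨hip, hi⟩) q hq]
        exact hv'
    obtain ⟨w, t, ht, hw, hwv⟩ := exists_pos_dir (P p).l hv
    have hwo : ∀ i ∈ J, i ≠ p → (P i).l w = 0 := fun i hi hip => by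
      rcases hwv with rfl | rfl <;> simp [hvo i hi hip]
    obtain ⟨D, a, hD, ha, hd⟩ := hp
    set r : Pt d → ℝ := fun y => K' + ∑ i ∈ J.erase p, Ψ i y
    have hdec : f = fun y => ((1 : ℤ) : ℝ) * ψ p (0 + (P p).l y) + r y := funext fun y => by
      rw [hfJ, ← add_sum_erase J _ hpJ]
      simp [r, Ψ]
      ring
    have hr : ∀ y, r (y + w) = r y := fun y => by
      simp only [r, Ψ]
      refine congrArg _ (sum_congr rfl fun i hi => ?_)
      rw [map_add, hwo i (mem_of_mem_erase hi) (mem_erase.1 hi).1, add_zero]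
    obtain ⟨z, hz⟩ := cong_diff_affine hD hd (P p).l 0 hw hr 1 0
    rw [← hdec] at hz
    have hint : ∀ (E : ℕ) (y : Pt d), ∃ s : ℤ, (fwdDiff w)^[E] f y = s := by
      intro E
      induction E with
      | zero =>
        intro y
        rcases h01 y with h | h
        exacts [⟨0, by simp [h]⟩, ⟨1, by simp [h]⟩]
      | succ E ih =>
        intro y
        obtain ⟨s, hs⟩ := ih (y + w)
        obtain ⟨s', hs'⟩ := ih y
        exact ⟨s - s', by rw [Function.iterate_succ_apply', fwdDiff, hs, hs']; push_cast; ring⟩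
    obtain ⟨s, hs⟩ := hint D 0
    have hirr : Irrational (((t ^ D : ℕ) : ℝ) * a) := ha.natCast_mul (pow_ne_zero _ ht)
    refine hirr.ne_int (s - z) ?_
    rw [hs] at hz
    push_cast at hz ⊢
    linarith

end Vale.Agent.P043
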