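import Vale.Agent.P043.Weyl
import Vale.Agent.P043.Defs

/-! The one-variable functions that occur in the decomposition of a tiling. -/

namespace Vale.Agent.P043

open Finset

/-- A constant sequence. -/
def IsConst (ψ : ℤ → ℝ) : Prop := ∀ m, ψ m = ψ 0

/-- A sequence of zeros and ones. -/
def IsBin (ψ : ℤ → ℝ) : Prop := ∀ m, ψ m = 0 ∨ ψ m = 1

/-- Modulo one some iterated difference is a fixed irrational number. -/
def IsIrr (ψ : ℤ → ℝ) : Prop :=
  ∃ (D : ℕ) (a : ℝ), 1 ≤ D ∧ Irrational a ∧ ∀ m, Cong ((fwdDiff (1 : ℤ))^[D] ψ m) a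

/-- A decomposition along the forms, `S` being the forms allowed to carry zero-one sequences. -/
def Form {d n : ℕ} (P : Fin n → PForm d) (φ : Pt d → ℝ) (S : Finset (Fin n)) : Prop :=
  ∃ (K : ℝ) (ψ : Fin n → ℤ → ℝ), (∀ y, φ y = K + ∑ i, ψ i ((P i).l y)) ∧
    ∀ i, (∀ m, ψ i m ∈ Set.Icc (0 : ℝ) 1) ∧
      (IsConst (ψ i) ∨ IsIrr (ψ i) ∨ (i ∈ S ∧ IsBin (ψ i)))

theorem cong_fwdDiff_one_succ {g : ℤ → ℝ} {D : ℕ} {a : ℝ}
    (h : ∀ m, Cong ((fwdDiff (1 : ℤ))^[D] g m) a) (m : ℤ) :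
    Cong ((fwdDiff (1 : ℤ))^[D + 1] g m) 0 := by
  rw [Function.iterate_succ_apply', fwdDiff]
  simpa using (h (m + 1)).sub (h m)

theorem cong_fwdDiff_le {g : ℤ → ℝ} {D : ℕ} {a : ℝ}
    (h : ∀ m, Cong ((fwdDiff (1 : ℤ))^[D] g m) a) :
    ∀ E, D < E → ∀ m, Cong ((fwdDiff (1 : ℤ))^[E] g m) 0 := by
  intro E hE
  induction E, hE using Nat.le_induction with
  | base => exact cong_fwdDiff_one_succ h
  | succ E _ ih => exact cong_fwdDiff_one_succ ih

theorem cong_fwdDiff_nat : ∀ (D : ℕ) (g : ℤ → ℝ) (a : ℝ),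
    (∀ m, Cong ((fwdDiff (1 : ℤ))^[D] g m) a) →
      ∀ (n : ℕ) (m : ℤ), Cong ((fwdDiff (n : ℤ))^[D] g m) ((n : ℝ) ^ D * a) := by
  intro D
  induction D with
  | zero => intro g a h n m; simpa using h m
  | succ D ih =>
    intro g a h n m
    rw [Function.iterate_succ_apply]
    have h1 : ∀ (j : ℕ) (m : ℤ), Cong ((fwdDiff (1 : ℤ))^[D] g (m + j))
        ((fwdDiff (1 : ℤ))^[D] g m + j * a) := by
      intro j
      induction j with
      | zero => intro m; simpa using Cong.refl _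
      | succ j hj =>
        intro m
        have h2 := (h (m + j)).add (hj m)
        rw [Function.iterate_succ_apply', fwdDiff] at h2
        convert h2 using 1
        · push_cast; rw [← add_assoc]; ring
        · push_cast; ring
    have h3 : ∀ m, Cong ((fwdDiff (1 : ℤ))^[D] (fwdDiff (n : ℤ) g) m) ((n : ℝ) * a) := fun m => by
      have e : fwdDiff (n : ℤ) g = fun x => g (x + n) - g x := rfl
      rw [e, iter_fwdDiff_sub]
      simp only [fwdDiff_iter_comp_add]
      simpa using (h1 n m).sub (Cong.refl ((fwdDiff (1 : ℤ))^[D] g m))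
    have h4 := ih _ _ h3 n m
    rwa [← mul_assoc, ← pow_succ] at h4

theorem fwdDiff_comp_affine (g : ℤ → ℝ) (r n : ℤ) :
    ∀ (D : ℕ) (m : ℤ), (fwdDiff (1 : ℤ))^[D] (fun m => g (r + n * m)) m
      = (fwdDiff n)^[D] g (r + n * m) := by
  intro D
  induction D with
  | zero => intro m; rfl
  | succ D ih =>
    intro m
    rw [Function.iterate_succ_apply', Function.iterate_succ_apply', fwdDiff, fwdDiff, ih, ih,
      mul_add, mul_one, add_assoc]

theorem cong_comp_affine {g : ℤ → ℝ} {D : ℕ} {a : ℝ}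
    (h : ∀ m, Cong ((fwdDiff (1 : ℤ))^[D] g m) a) (r : ℤ) (n : ℕ) (m : ℤ) :
    Cong ((fwdDiff (1 : ℤ))^[D] (fun m => g (r + n * m)) m) ((n : ℝ) ^ D * a) := by
  rw [fwdDiff_comp_affine]
  exact cong_fwdDiff_nat D g a h n _

theorem IsConst.comp {ψ : ℤ → ℝ} (h : IsConst ψ) (r : ℤ) (n : ℕ) :
    IsConst fun m => ψ (r + n * m) := fun m => by simp only [h (r + n * m), h (r + n * 0)]

theorem IsBin.comp {ψ : ℤ → ℝ} (h : IsBin ψ) (r : ℤ) (n : ℕ) :
    IsBin fun m => ψ (r + n * m) := fun _ => h _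

theorem IsIrr.comp {ψ : ℤ → ℝ} (h : IsIrr ψ) (r : ℤ) {n : ℕ} (hn : n ≠ 0) :
    IsIrr fun m => ψ (r + n * m) := by
  obtain ⟨D, a, hD, ha, h⟩ := h
  refine ⟨D, _, hD, ?_, cong_comp_affine h r n⟩
  rw [show ((n : ℝ) ^ D) = ((n ^ D : ℕ) : ℝ) by push_cast; rfl]
  exact ha.natCast_mul (pow_ne_zero _ hn)

theorem isConst_or_isBin {ψ : ℤ → ℝ} (h01 : ∀ m, ψ m ∈ Set.Icc (0 : ℝ) 1)
    (h : ∀ m m', Cong (ψ m) (ψ m')) : IsConst ψ ∨ IsBin ψ := by
  rcases em (IsBin ψ) with hb | hb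
  · exact Or.inr hb
  · simp only [IsBin, not_forall, not_or] at hb
    obtain ⟨m0, h0, h1⟩ := hb
    have hlt0 : 0 < ψ m0 := lt_of_le_of_ne (h01 m0).1 (Ne.symm h0)
    have hlt1 : ψ m0 < 1 := lt_of_le_of_ne (h01 m0).2 h1
    have key : ∀ m, ψ m = ψ m0 := fun m => by
      obtain ⟨z, hz⟩ := h m m0
      have hz1 : (z : ℝ) < 1 := by linarith [(h01 m).2]
      have hz2 : -1 < (z : ℝ) := by linarith [(h01 m).1]
      have : z = 0 := by
        have h3 : z < 1 := by exact_mod_cast hz1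
        have h4 : -1 < z := by exact_mod_cast hz2
        omega
      rw [hz, this, Int.cast_zero, add_zero]
    exact Or.inl fun m => by rw [key m, key 0]

theorem descend : ∀ (s : ℕ) (g : ℤ → ℝ), (∀ m, Cong ((fwdDiff (1 : ℤ))^[s] g m) 0) →
    ∃ n : ℕ, 0 < n ∧ ∀ r : ℤ,
      (∀ m m', Cong (g (r + n * m)) (g (r + n * m'))) ∨ IsIrr fun m => g (r + n * m) := by
  intro s
  induction s with
  | zero =>
    intro g h
    refine ⟨1, one_pos, fun r => Or.inl fun m m' => ?_⟩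
    obtain ⟨z, hz⟩ := h (r + (1 : ℕ) * m)
    obtain ⟨z', hz'⟩ := h (r + (1 : ℕ) * m')
    simp only [Function.iterate_zero, id_eq, zero_add] at hz hz'
    exact ⟨z - z', by rw [hz, hz']; push_cast; ring⟩
  | succ s ih =>
    intro g h
    set a := (fwdDiff (1 : ℤ))^[s] g 0 with ha
    have hconst : ∀ m, Cong ((fwdDiff (1 : ℤ))^[s] g m) a := by
      intro m
      induction m using Int.induction_on with
      | zero => exact Cong.refl _
      | succ i hi =>
        have h2 := (h i).add hi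
        rw [Function.iterate_succ_apply', fwdDiff] at h2
        simpa using h2
      | pred i hi =>
        have h2 := hi.sub (h (-(i : ℤ) - 1))
        rw [Function.iterate_succ_apply', fwdDiff] at h2
        simpa using h2
    rcases Nat.eq_zero_or_pos s with rfl | hs
    · refine ⟨1, one_pos, fun r => Or.inl fun m m' => ?_⟩
      obtain ⟨z, hz⟩ := hconst (r + (1 : ℕ) * m)
      obtain ⟨z', hz'⟩ := hconst (r + (1 : ℕ) * m')
      simp only [Function.iterate_zero, id_eq] at hz hz'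
      exact ⟨z - z', by rw [hz, hz']; push_cast; ring⟩
    rcases em (Irrational a) with hirr | hrat
    · have hi : IsIrr g := ⟨s, a, hs, hirr, hconst⟩
      exact ⟨1, one_pos, fun r => Or.inr (IsIrr.comp hi r one_ne_zero)⟩
    obtain ⟨q, hq⟩ : ∃ q : ℚ, (q : ℝ) = a := by
      by_contra hne
      exact hrat fun ⟨q, hq⟩ => hne ⟨q, hq⟩
    have h5 : ∀ r : ℤ, ∀ m, Cong ((fwdDiff (1 : ℤ))^[s] (fun m => g (r + q.den * m)) m) 0 := by
      intro r m
      obtain ⟨z, hz⟩ := cong_comp_affine hconst r q.den m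
      refine ⟨z + q.num * (q.den : ℤ) ^ (s - 1), ?_⟩
      rw [hz, ← hq]
      have e : ((q.den : ℝ) ^ s) = (q.den : ℝ) ^ (s - 1) * q.den := by
        rw [← pow_succ, Nat.sub_add_cancel hs]
      have e2 : (q : ℝ) * q.den = q.num := by exact_mod_cast q.mul_den_eq_num
      push_cast
      rw [e, mul_assoc, mul_comm (q.den : ℝ) (q : ℝ), e2]
      ring
    choose n hn hgood using fun r : Fin q.den => ih _ (h5 (r.val : ℤ))
    refine ⟨q.den * ∏ r, n r, Nat.mul_pos q.den_pos (prod_pos fun r _ => hn r), fun r => ?_⟩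
    have hq0 : (q.den : ℤ) ≠ 0 := by exact_mod_cast q.den_nz
    set ρ : Fin q.den := ⟨(r % q.den).toNat, by
      have := Int.emod_lt_of_pos r (Int.natCast_pos.2 q.den_pos)
      have := Int.emod_nonneg r hq0
      omega⟩
    have hρ : r = (ρ.val : ℤ) + q.den * (r / q.den) := by
      rw [show ((ρ.val : ℤ)) = r % q.den from Int.toNat_of_nonneg (Int.emod_nonneg r hq0)]
      rw [add_comm, Int.mul_ediv_add_emod]
    obtain ⟨c, hc⟩ := dvd_prod_of_mem n (mem_univ ρ)
    have hc0 : c ≠ 0 := by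
      rintro rfl
      simp [prod_eq_zero_iff] at hc
      obtain ⟨x, hx⟩ := hc
      exact (hn x).ne' hx
    have e : ∀ m : ℤ, r + ((q.den * ∏ r, n r : ℕ) : ℤ) * m =
        (ρ.val : ℤ) + q.den * (r / q.den + n ρ * (c * m)) := fun m => by
      rw [hc]
      push_cast
      conv_lhs => rw [hρ]
      ring
    simp only [e]
    rcases hgood ρ (r / q.den) with h6 | h6
    · exact Or.inl fun m m' => h6 (c * m) (c * m')
    · exact Or.inr (by simpa using IsIrr.comp h6 0 hc0)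

end Vale.Agent.P043
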