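import Vale.Agent.P043.Decomp

/-! Translation limits: every class becomes striped or irregular. -/

namespace Vale.Agent.P043

open Finset Filter Topology

variable {d n : ℕ}

/-- A function of one of the forms. -/
def Striped (P : Fin n → PForm d) (φ : Pt d → ℝ) : Prop :=
  ∃ (i : Fin n) (θ : ℤ → ℝ), ∀ y, φ y = θ ((P i).l y)

/-- Striped, or with at most `j` zero-one sequences. -/
def Good (P : Fin n → PForm d) (j : ℕ) (φ : Pt d → ℝ) : Prop :=
  Striped P φ ∨ ∃ S : Finset (Fin n), S.card ≤ j ∧ Form P φ S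

/-- A limit of translates. -/
def IsTLim (φ' φ : Pt d → ℝ) : Prop :=
  ∃ s : ℕ → Pt d, ∀ y, ∀ᶠ k in (hyperfilter ℕ : Filter ℕ), φ' y = φ (y + s k)

theorem isTLim_translate {φ' φ : Pt d → ℝ} (v : Pt d) (h : ∀ y, φ' y = φ (y + v)) :
    IsTLim φ' φ := ⟨fun _ => v, fun y => Eventually.of_forall fun _ => h y⟩

theorem Striped.tlim {P : Fin n → PForm d} {φ' φ : Pt d → ℝ} (h : Striped P φ)
    (ht : IsTLim φ' φ) : Striped P φ' := by
  obtain ⟨i, θ, hθ⟩ := h
  obtain ⟨s, hs⟩ := ht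
  refine ⟨i, fun m => φ' (m • (P i).u), fun y => ?_⟩
  obtain ⟨k, hk1, hk2⟩ := ((hs y).and (hs ((P i).l y • (P i).u))).exists
  beta_reduce
  rw [hk1, hk2, hθ, hθ, map_add, map_add, map_zsmul, (P i).hu, smul_eq_mul, mul_one]

theorem isClosed_cong (a : ℝ) : IsClosed {x : ℝ | Cong x a} := by
  have : {x : ℝ | Cong x a} = (fun x => x - a) ⁻¹' Set.range ((↑) : ℤ → ℝ) := by
    ext x
    simp only [Cong, Set.mem_ofPred_eq, Set.mem_preimage, Set.mem_range]
    exact exists_congr fun z => by constructor <;> intro h <;> linarith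
  rw [this]
  exact Int.isClosedEmbedding_coe_real.isClosed_range.preimage (by fun_prop)

theorem tendsto_fwdDiff {g : ℕ → ℤ → ℝ} {g' : ℤ → ℝ}
    (h : ∀ m, Tendsto (fun k => g k m) (hyperfilter ℕ : Filter ℕ) (𝓝 (g' m))) :
    ∀ (D : ℕ) (m : ℤ), Tendsto (fun k => (fwdDiff (1 : ℤ))^[D] (g k) m)
      (hyperfilter ℕ : Filter ℕ) (𝓝 ((fwdDiff (1 : ℤ))^[D] g' m)) := by
  intro D
  induction D with
  | zero => exact h
  | succ D ih =>
    intro m
    simp only [Function.iterate_succ_apply', fwdDiff]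
    exact (ih (m + 1)).sub (ih m)

theorem Form.tlim {P : Fin n → PForm d} {S : Finset (Fin n)} {φ' φ : Pt d → ℝ}
    (h : Form P φ S) (ht : IsTLim φ' φ) : Form P φ' S := by
  obtain ⟨K, ψ, hφ, hk⟩ := h
  obtain ⟨s, hs⟩ := ht
  set g : Fin n → ℕ → ℤ → ℝ := fun i k m => ψ i (m + (P i).l (s k))
  have hb : ∀ i m, Bdd fun k => g i k m := fun i m =>
    ⟨1, fun k => abs_le.2 ⟨by linarith [((hk i).1 (m + (P i).l (s k))).1], ((hk i).1 _).2⟩⟩
  have ht' : ∀ i m, Tendsto (fun k => g i k m) (hyperfilter ℕ : Filter ℕ)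
      (𝓝 (ulim fun k => g i k m)) := fun i m => tendsto_ulim (hb i m)
  refine ⟨K, fun i m => ulim fun k => g i k m, fun y => ?_,
    fun i => ⟨fun m => ⟨?_, ?_⟩, ?_⟩⟩
  · refine tendsto_nhds_unique
      (tendsto_const_nhds.congr' (f₁ := fun _ => φ' y) (f₂ := fun k => φ (y + s k)) (hs y)) ?_
    simp only [hφ, map_add]
    exact tendsto_const_nhds.add (tendsto_finsetSum _ fun i _ => ht' i _)
  · exact ge_of_tendsto (ht' i m) (Eventually.of_forall fun k => ((hk i).1 _).1)
  · exact le_of_tendsto (ht' i m) (Eventually.of_forall fun k => ((hk i).1 _).2)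
  · rcases (hk i).2 with hc | hi | ⟨hS, hbin⟩
    · have : ∀ m, (ulim fun k => g i k m) = ψ i 0 := fun m =>
        ulim_eq (tendsto_const_nhds.congr fun k => (hc _).symm)
      exact Or.inl fun m => (this m).trans (this 0).symm
    · obtain ⟨D, a, hD, ha, hcg⟩ := hi
      refine Or.inr (Or.inl ⟨D, a, hD, ha, fun m => ?_⟩)
      refine (isClosed_cong a).mem_of_tendsto (tendsto_fwdDiff (ht' i) D m)
        (Eventually.of_forall fun k => ?_)
      show Cong _ a
      rw [fwdDiff_iter_comp_add]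
      exact hcg _
    · refine Or.inr (Or.inr ⟨hS, fun m => ?_⟩)
      exact (isClosed_singleton.union isClosed_singleton : IsClosed ({0} ∪ {1} : Set ℝ)).mem_of_tendsto
        (ht' i m) (Eventually.of_forall fun k => hbin _)

theorem Good.tlim {P : Fin n → PForm d} {j : ℕ} {φ' φ : Pt d → ℝ} (h : Good P j φ)
    (ht : IsTLim φ' φ) : Good P j φ' := by
  rcases h with h | ⟨S, hS, h⟩
  · exact Or.inl (h.tlim ht)
  · exact Or.inr ⟨S, hS, h.tlim ht⟩

theorem Striped.refine' {P : Fin n → PForm d} {φ : Pt d → ℝ} (h : Striped P φ) (T : ℕ)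
    (r : Pt d) : Striped P fun y => φ (r + T • y) := by
  obtain ⟨i, θ, hθ⟩ := h
  exact ⟨i, fun m => θ ((P i).l r + T • m), fun y => by beta_reduce; rw [hθ, map_add, map_nsmul]⟩

theorem Form.refine' {P : Fin n → PForm d} {S : Finset (Fin n)} {φ : Pt d → ℝ}
    (h : Form P φ S) {T : ℕ} (hT : T ≠ 0) (r : Pt d) : Form P (fun y => φ (r + T • y)) S := by
  obtain ⟨K, ψ, hφ, hk⟩ := h
  refine ⟨K, fun i m => ψ i ((P i).l r + T * m), fun y => ?_,
    fun i => ⟨fun m => (hk i).1 _, ?_⟩⟩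
  · beta_reduce
    rw [hφ]
    congr 1
    exact sum_congr rfl fun i _ => by rw [map_add, map_nsmul, nsmul_eq_mul]
  · rcases (hk i).2 with h | h | ⟨h1, h2⟩
    · exact Or.inl (IsConst.comp h _ _)
    · exact Or.inr (Or.inl (IsIrr.comp h _ hT))
    · exact Or.inr (Or.inr ⟨h1, IsBin.comp h2 _ _⟩)

theorem Form.mono {P : Fin n → PForm d} {S S' : Finset (Fin n)} {φ : Pt d → ℝ}
    (h : Form P φ S) (hS : S ⊆ S') : Form P φ S' := by
  obtain ⟨K, ψ, hφ, hk⟩ := h
  exact ⟨K, ψ, hφ, fun i => ⟨(hk i).1,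
    (hk i).2.imp_right (Or.imp_right fun h => ⟨hS h.1, h.2⟩)⟩⟩

theorem Good.refine' {P : Fin n → PForm d} {j : ℕ} {φ : Pt d → ℝ} (h : Good P j φ) {T : ℕ}
    (hT : T ≠ 0) (r : Pt d) : Good P j fun y => φ (r + T • y) := by
  rcases h with h | ⟨S, hS, h⟩
  · exact Or.inl (h.refine' T r)
  · exact Or.inr ⟨S, hS, h.refine' hT r⟩

/-- The representative in the cube of side `M`, and the quotient. -/
def redMod (M : ℕ) (c : Pt d) : Pt d := fun i => c i % (M : ℤ)

/-- The quotient of `c` by `M`. -/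
def divMod (M : ℕ) (c : Pt d) : Pt d := fun i => c i / (M : ℤ)

theorem redMod_add (M : ℕ) (c : Pt d) : redMod M c + M • divMod M c = c := by
  funext i
  simp [redMod, divMod, Int.emod_add_mul_ediv]

theorem finite_range_redMod {M : ℕ} (hM : 0 < M) : (Set.range (redMod (d := d) M)).Finite := by
  refine ((Set.finite_Icc (0 : Pt d) (fun _ => (M : ℤ)))).subset ?_
  rintro _ ⟨c, rfl⟩
  exact ⟨fun i => Int.emod_nonneg _ (by omega),
    fun i => (Int.emod_lt_of_pos _ (by omega)).le⟩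

theorem tlim_residue {φ' φ : Pt d → ℝ} (ht : IsTLim φ' φ) {T : ℕ} (hT : 0 < T) (r : Pt d) :
    ∃ ρ, IsTLim (fun y => φ' (r + T • y)) fun y => φ (ρ + T • y) := by
  obtain ⟨s, hs⟩ := ht
  obtain ⟨ρ, -, hρ⟩ : ∃ ρ ∈ Set.range (redMod (d := d) T),
      ∀ᶠ k in (hyperfilter ℕ : Filter ℕ), redMod T (r + s k) = ρ :=
    (Ultrafilter.eventually_exists_mem_iff (finite_range_redMod hT)).1
      (Eventually.of_forall fun k => ⟨_, ⟨_, rfl⟩, rfl⟩)
  refine ⟨ρ, fun k => divMod T (r + s k), fun y => ?_⟩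
  filter_upwards [hs (r + T • y), hρ] with k hk hk'
  rw [hk]
  congr 1
  rw [← hk', smul_add]
  have := redMod_add T (r + s k)
  calc r + T • y + s k = (r + s k) + T • y := by abel
    _ = _ := by nth_rw 1 [← this]; abel

/-- The translation limit of a set. -/
def limSet (A : Set (Pt d)) (s : ℕ → Pt d) : Set (Pt d) :=
  {x | ∀ᶠ k in (hyperfilter ℕ : Filter ℕ), x + s k ∈ A}

theorem limSet_eventually (A : Set (Pt d)) (s : ℕ → Pt d) (x : Pt d) :
    ∀ᶠ k in (hyperfilter ℕ : Filter ℕ), (x ∈ limSet A s ↔ x + s k ∈ A) := by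
  by_cases h : x ∈ limSet A s
  · exact Eventually.mono h fun k hk => iff_of_true ‹_› hk
  · exact Eventually.mono (Ultrafilter.eventually_not.2 h) fun k hk => iff_of_false ‹_› hk

theorem isTiling_limSet {A : Set (Pt d)} {F : Finset (Pt d)} (hA : IsTiling A F)
    (s : ℕ → Pt d) : IsTiling (limSet A s) F := by
  classical
  intro g
  have h : ∀ᶠ k in (hyperfilter ℕ : Filter ℕ), ∀ f ∈ F,
      (g - f ∈ limSet A s ↔ g - f + s k ∈ A) :=
    (eventually_all_finset F).2 fun f _ => limSet_eventually A s (g - f)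
  obtain ⟨k, hk⟩ := h.exists
  obtain ⟨⟨a, f⟩, ⟨ha, hf, haf⟩, huniq⟩ := hA (g + s k)
  have e : g - f + s k = a := by
    rw [sub_add_eq_add_sub, ← haf]
    exact add_sub_cancel_right _ _
  refine ⟨(g - f, f), ⟨(hk f hf).2 (by rw [e]; exact ha), hf, sub_add_cancel _ _⟩, ?_⟩
  rintro ⟨a', f'⟩ ⟨ha', hf', haf'⟩
  obtain rfl : a' = g - f' := eq_sub_of_add_eq haf'
  have := huniq (g - f' + s k, f') ⟨(hk f' hf').1 ha', hf',
    by show g - f' + s k + f' = g + s k; abel⟩
  obtain rfl : f' = f := congrArg Prod.snd this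
  rfl

theorem clsFn_limSet (A : Set (Pt d)) (M : ℕ) (s : ℕ → Pt d) (c : Pt d) :
    IsTLim (clsFn (limSet A fun k => M • s k) M c) (clsFn A M c) := by
  classical
  refine ⟨s, fun y => ?_⟩
  filter_upwards [limSet_eventually A (fun k => M • s k) (c + M • y)] with k hk
  unfold clsFn
  rw [smul_add, ← add_assoc]
  exact if_congr hk rfl rfl

theorem clsFn_refine (A : Set (Pt d)) (M T : ℕ) (c r : Pt d) :
    clsFn A (M * T) (c + M • r) = fun y => clsFn A M c (r + T • y) := by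
  funext y
  unfold clsFn
  rw [smul_add, mul_smul, add_assoc]

theorem clsFn_translate (A : Set (Pt d)) (M : ℕ) (c : Pt d) :
    IsTLim (clsFn A M c) (clsFn A M (redMod M c)) :=
  isTLim_translate (divMod M c) fun y => by
    show _ = clsFn A M (redMod M c) (y + divMod M c)
    unfold clsFn
    congr 2
    rw [smul_add, add_comm (M • y), ← add_assoc, redMod_add]

theorem clsFn_mem (A : Set (Pt d)) (M : ℕ) (c y : Pt d) :
    clsFn A M c y = 0 ∨ clsFn A M c y = 1 := by
  unfold clsFn; split_ifs <;> simp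

theorem exists_period_step {P : Fin n → PForm d} (hP : Distinct P) :
    ∃ T : ℕ, 0 < T ∧ ∀ p q : Fin n, q ≠ p → ∀ z : ℤ, ∃ v, (P q).l v = 0 ∧ (P p).l v = T * z := by
  choose t ht w hw using exists_common_step hP
  refine ⟨∏ i, t i, prod_pos fun i _ => ht i, fun p q hq z => ?_⟩
  obtain ⟨c, hc⟩ := dvd_prod_of_mem t (mem_univ p)
  obtain ⟨h1, h2⟩ := hw p q hq
  exact ⟨(-((c : ℤ) * z)) • w p q, by rw [map_zsmul, h1, smul_zero],
    by rw [map_zsmul, h2, hc, smul_eq_mul]; push_cast; ring⟩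

theorem split_class {P : Fin n → PForm d} {T : ℕ} (hT : 0 < T)
    (hTP : ∀ p q : Fin n, q ≠ p → ∀ z : ℤ, ∃ v, (P q).l v = 0 ∧ (P p).l v = T * z)
    {φ : Pt d → ℝ} (h01 : ∀ y, φ y = 0 ∨ φ y = 1) {j : ℕ} {S : Finset (Fin n)}
    (hS : S.card ≤ j + 1) (hform : Form P φ S) :
    (∀ r, Good P j fun y => φ (r + T • y)) ∨
      ∃ s : ℕ → Pt d, ∀ φ' : Pt d → ℝ, (∀ y : Pt d, ∀ᶠ k in (hyperfilter ℕ : Filter ℕ), φ' y = φ (y + s k)) →
        ∀ r, Good P j fun y => φ' (r + T • y) := by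
  classical
  rcases Nat.lt_or_ge j S.card with hlt | hle
  swap
  · exact Or.inl fun r => Or.inr ⟨S, hle, hform.refine' hT.ne' r⟩
  obtain ⟨p, hp⟩ := card_pos.1 (by omega : 0 < S.card)
  have hcard : (S.erase p).card ≤ j := by rw [card_erase_of_mem hp]; omega
  obtain ⟨K, ψ, hφ, hk⟩ := hform
  by_cases hbin : IsBin (ψ p) ∧ ¬ IsConst (ψ p) ∧ ¬ IsIrr (ψ p)
  swap
  · refine Or.inl fun r => Or.inr ⟨S.erase p, hcard, Form.refine' ⟨K, ψ, hφ, fun i =>
      ⟨(hk i).1, ?_⟩⟩ hT.ne' r⟩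
    rcases (hk i).2 with h | h | ⟨h1, h2⟩
    · exact Or.inl h
    · exact Or.inr (Or.inl h)
    · rcases eq_or_ne i p with rfl | hip
      · by_cases hc : IsConst (ψ i)
        · exact Or.inl hc
        · exact Or.inr (Or.inl (by_contra fun hi => hbin ⟨h2, hc, hi⟩))
      · exact Or.inr (Or.inr ⟨mem_erase.2 ⟨hip, h1⟩, h2⟩)
  right
  obtain ⟨hb, -, -⟩ := hbin
  have hψb : ∀ i, Bdd fun y => ψ i ((P i).l y) := fun i =>
    ⟨1, fun y => abs_le.2 ⟨by linarith [((hk i).1 ((P i).l y)).1], ((hk i).1 _).2⟩⟩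
  have hφb : Bdd φ := ⟨1, fun y => by rcases h01 y with h | h <;> simp [h]⟩
  set G : ℤ → ℝ := fun m => K + ∑ q ∈ univ.erase p, slice (P p) (fun y => ψ q ((P q).l y)) m
  have hslice : ∀ m, slice (P p) φ m = ψ p m + G m := by
    intro m
    have e : φ = fun y => ψ p ((P p).l y) + (K + ∑ q ∈ univ.erase p, ψ q ((P q).l y)) :=
      funext fun y => by
        rw [hφ y, ← add_sum_erase _ (fun q => ψ q ((P q).l y)) (mem_univ p)]; ring
    conv_lhs => rw [e]
    rw [slice_add _ (hψb p) ((Bdd.const K).add (Bdd.sum _ fun q _ => hψb q)), slice_comp_l,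
      slice_add _ (Bdd.const K) (Bdd.sum _ fun q _ => hψb q), slice_const,
      slice_sum _ _ fun q _ => hψb q]
  have hGper : ∀ m z, G (m + T * z) = G m := by
    intro m z
    simp only [G]
    congr 1
    refine sum_congr rfl fun q hq => ?_
    obtain ⟨v, hv1, hv2⟩ := hTP p q (ne_of_mem_erase hq) z
    rw [← hv2]
    exact slice_period _ (hψb q) (fun y => by rw [map_add, hv1, add_zero]) m
  set Vary : ℤ → Prop := fun m => ∃ z z' : ℤ, ψ p (m + T * z) = 0 ∧ ψ p (m + T * z') = 1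
  have hunif : ∀ m, Vary m → slice (P p) φ m = ψ p m := by
    rintro m ⟨z, z', hz, hz'⟩
    have h1 : ∀ x, 0 ≤ slice (P p) φ x ∧ slice (P p) φ x ≤ 1 := fun x => by
      have hI : ∀ y, 0 ≤ φ y ∧ φ y ≤ 1 := fun y => by
        rcases h01 y with h | h <;> rw [h] <;> norm_num
      refine ⟨mean_nonneg (hφb.comp _) fun z => (hI _).1, ?_⟩
      calc _ ≤ mean (fun _ : Pt d => (1 : ℝ)) :=
            mean_mono (hφb.comp _) (Bdd.const _) fun z => (hI _).2
        _ = 1 := mean_const _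
    have h2 := h1 (m + T * z)
    have h3 := h1 (m + T * z')
    rw [hslice, hz, hGper] at h2
    rw [hslice, hz', hGper] at h3
    rw [hslice, show G m = 0 by linarith [h2.1, h3.2], add_zero]
  have hexists : ∀ k : ℕ, ∃ w, (P p).l w = 0 ∧ ∀ y ∈ Icc (-(fun _ => (k : ℤ)) : Pt d) (fun _ => k),
      Vary ((P p).l y) → φ (y + w) = ψ p ((P p).l y) := by
    intro k
    set B := (Icc (-(fun _ => (k : ℤ)) : Pt d) (fun _ => k)).filter fun y => Vary ((P p).l y)
    set e : Pt d → Pt d → ℝ := fun y z =>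
      ψ p ((P p).l y) + (1 - 2 * ψ p ((P p).l y)) * φ (y + (P p).proj z) with he
    have heb : ∀ y, Bdd (e y) := fun y => (Bdd.const _).add ((hφb.comp _).smul _)
    have hzero : mean (fun z => ∑ y ∈ B, e y z) = 0 := by
      rw [mean_sum _ fun y _ => heb y]
      refine sum_eq_zero fun y hy => ?_
      simp only [he]
      rw [mean_add (Bdd.const _) ((hφb.comp _).smul _), mean_const, mean_smul _ (hφb.comp _),
        ← slice_l _ hφb, hunif _ (mem_filter.1 hy).2]
      rcases hb ((P p).l y) with h | h <;> simp [h] <;> norm_num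
    obtain ⟨z, hz⟩ : ∃ z, ∑ y ∈ B, e y z < 1 := by
      by_contra hcon
      push Not at hcon
      have := mean_mono (Bdd.const (1 : ℝ)) (Bdd.sum _ fun y _ => heb y) hcon
      rw [mean_const, hzero] at this
      linarith
    refine ⟨(P p).proj z, (P p).l_proj z, fun y hy hv => ?_⟩
    have hey : ∀ y, 0 ≤ e y z := fun y => by
      simp only [he]
      rcases hb ((P p).l y) with h | h <;> rcases h01 (y + (P p).proj z) with h' | h' <;>
        simp [h, h'] <;> norm_num
    have := (single_le_sum (fun y _ => hey y) (mem_filter.2 ⟨hy, hv⟩ : y ∈ B)).trans_lt hz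
    simp only [he] at this
    rcases hb ((P p).l y) with h | h <;> rcases h01 (y + (P p).proj z) with h' | h' <;>
      simp [h, h'] at this ⊢ <;> norm_num at this
  choose s hs0 hs using hexists
  refine ⟨s, fun φ' hφ' r => ?_⟩
  by_cases hv : Vary ((P p).l r)
  · refine Or.inl ⟨p, fun m => ψ p ((P p).l r + T * m), fun y => ?_⟩
    have hbig : ∀ᶠ k in (hyperfilter ℕ : Filter ℕ), ∀ i, ((r + T • y) i).natAbs ≤ k :=
      Eventually.filter_mono Nat.hyperfilter_le_atTop
        (eventually_all.2 fun i => eventually_ge_atTop _)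
    obtain ⟨k, hk1, hk2⟩ := ((hφ' (r + T • y)).and hbig).exists
    have hvy : Vary ((P p).l (r + T • y)) := by
      obtain ⟨z, z', hz, hz'⟩ := hv
      refine ⟨z - (P p).l y, z' - (P p).l y, ?_, ?_⟩ <;>
        rw [map_add, map_nsmul, nsmul_eq_mul]
      · rw [← hz]; congr 1; ring
      · rw [← hz']; congr 1; ring
    show φ' (r + T • y) = _
    rw [hk1, hs k _ (mem_Icc.2 ⟨fun i => ?_, fun i => ?_⟩) hvy, map_add, map_nsmul, nsmul_eq_mul]
    · have := hk2 i
      show -((k : ℕ) : ℤ) ≤ _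
      omega
    · have := hk2 i
      show _ ≤ ((k : ℕ) : ℤ)
      omega
  · refine Or.inr ⟨S.erase p, hcard, ?_⟩
    obtain ⟨ρ, -, hρ⟩ : ∃ ρ ∈ Set.range (redMod (d := d) T),
        ∀ᶠ k in (hyperfilter ℕ : Filter ℕ), redMod T (r + s k) = ρ :=
      (Ultrafilter.eventually_exists_mem_iff (finite_range_redMod hT)).1
        (Eventually.of_forall fun k => ⟨_, ⟨_, rfl⟩, rfl⟩)
    have ht : IsTLim (fun y => φ' (r + T • y)) fun y => φ (ρ + T • y) := by
      refine ⟨fun k => divMod T (r + s k), fun y => ?_⟩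
      filter_upwards [hφ' (r + T • y), hρ] with k hk hk'
      rw [hk]
      congr 1
      rw [← hk', smul_add]
      calc r + T • y + s k = (r + s k) + T • y := by abel
        _ = _ := by nth_rw 1 [← redMod_add T (r + s k)]; abel
    obtain ⟨k, hk'⟩ := hρ.exists
    have hl : (P p).l r = (P p).l ρ + T * (P p).l (divMod T (r + s k)) := by
      have := congrArg (P p).l (redMod_add T (r + s k))
      rw [hk', map_add, map_add, map_nsmul, hs0, add_zero, nsmul_eq_mul] at this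
      exact this.symm
    refine Form.tlim ⟨K, fun i m => ψ i ((P i).l ρ + T * m), fun y => ?_,
      fun i => ⟨fun m => (hk i).1 _, ?_⟩⟩ ht
    · beta_reduce
      rw [hφ]
      congr 1
      exact sum_congr rfl fun i _ => by rw [map_add, map_nsmul, nsmul_eq_mul]
    rcases eq_or_ne i p with rfl | hip
    · refine Or.inl fun m => ?_
      rcases hb ((P i).l ρ + T * m) with h | h <;> rcases hb ((P i).l ρ + T * 0) with h' | h' <;>
        (beta_reduce; rw [h, h'])
      · exact absurd ⟨m - (P i).l (divMod T (r + s k)), 0 - (P i).l (divMod T (r + s k)),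
          by rw [← h]; congr 1; rw [hl]; ring, by rw [← h']; congr 1; rw [hl]; ring⟩ hv
      · exact absurd ⟨0 - (P i).l (divMod T (r + s k)), m - (P i).l (divMod T (r + s k)),
          by rw [← h']; congr 1; rw [hl]; ring, by rw [← h]; congr 1; rw [hl]; ring⟩ hv
    · rcases (hk i).2 with h | h | ⟨h1, h2⟩
      · exact Or.inl (IsConst.comp h _ _)
      · exact Or.inr (Or.inl (IsIrr.comp h _ hT.ne'))
      · exact Or.inr (Or.inr ⟨mem_erase.2 ⟨hip, h1⟩, IsBin.comp h2 _ _⟩)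

theorem one_round {P : Fin n → PForm d} (hP : Distinct P) {F : Finset (Pt d)}
    {A : Set (Pt d)} (hA : IsTiling A F) {M : ℕ} (hM : 0 < M) {j : ℕ}
    (hgood : ∀ c, Good P (j + 1) (clsFn A M c)) :
    ∃ (A' : Set (Pt d)) (M' : ℕ), IsTiling A' F ∧ 0 < M' ∧ ∀ c, Good P j (clsFn A' M' c) := by
  classical
  obtain ⟨T, hT, hTP⟩ := exists_period_step hP
  have key : ∀ C : Finset (Pt d), ∃ A', IsTiling A' F ∧ (∀ c, Good P (j + 1) (clsFn A' M c)) ∧
      ∀ c ∈ C, ∀ r, Good P j fun y => clsFn A' M c (r + T • y) := by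
    intro C
    induction C using Finset.induction with
    | empty => exact ⟨A, hA, hgood, by simp⟩
    | insert c C hc ih =>
      obtain ⟨A1, hA1, hg1, hC1⟩ := ih
      have hdone : (∀ r, Good P j fun y => clsFn A1 M c (r + T • y)) →
          ∃ A', IsTiling A' F ∧ (∀ c, Good P (j + 1) (clsFn A' M c)) ∧
            ∀ x ∈ insert c C, ∀ r, Good P j fun y => clsFn A' M x (r + T • y) := fun h =>
        ⟨A1, hA1, hg1, fun x hx => by
          rcases mem_insert.1 hx with rfl | hx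
          exacts [h, hC1 x hx]⟩
      rcases hg1 c with h | ⟨S, hS, h⟩
      · exact hdone fun r => Or.inl (h.refine' T r)
      rcases split_class hT hTP (clsFn_mem A1 M c) hS h with h' | ⟨s, hs⟩
      · exact hdone h'
      have hlim : ∀ x y, ∀ᶠ k in (hyperfilter ℕ : Filter ℕ),
          clsFn (limSet A1 fun k => M • s k) M x y = clsFn A1 M x (y + s k) := fun x y => by
        filter_upwards [limSet_eventually A1 (fun k => M • s k) (x + M • y)] with k hk
        unfold clsFn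
        rw [smul_add, ← add_assoc]
        exact if_congr hk rfl rfl
      refine ⟨limSet A1 fun k => M • s k, isTiling_limSet hA1 _,
        fun x => (hg1 x).tlim ⟨s, hlim x⟩, fun x hx r => ?_⟩
      rcases mem_insert.1 hx with rfl | hx
      · exact hs _ (hlim x) r
      · obtain ⟨ρ, hρ⟩ := tlim_residue (⟨s, hlim x⟩ : IsTLim _ _) hT r
        exact (hC1 x hx ρ).tlim hρ
  obtain ⟨A', hA', -, hC⟩ := key (finite_range_redMod (d := d) hM).toFinset
  refine ⟨A', M * T, hA', Nat.mul_pos hM hT, fun c => ?_⟩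
  have h1 := hC (redMod M c) (by simp) (divMod M c)
  rw [← clsFn_refine, redMod_add] at h1
  exact h1

theorem exists_reduced {P : Fin n → PForm d} (hn : 0 < n) (hP : Distinct P)
    {F : Finset (Pt d)} {M : ℕ} (hM : 0 < M) (hkill : Killed P M F)
    {A : Set (Pt d)} (hA : IsTiling A F) :
    ∃ (A' : Set (Pt d)) (M' : ℕ), IsTiling A' F ∧ 0 < M' ∧ ∀ c, Striped P (clsFn A' M' c) ∨
      ∃ (K : ℝ) (ψ : Fin n → ℤ → ℝ), (∀ y, clsFn A' M' c y = K + ∑ i, ψ i ((P i).l y)) ∧
        (∀ i, (∀ m, ψ i m ∈ Set.Icc (0 : ℝ) 1) ∧ (IsConst (ψ i) ∨ IsIrr (ψ i))) ∧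
        ∃ i, IsIrr (ψ i) := by
  classical
  choose T hT hform using fun c => initial_form hP (clsFn_mem A M c) (hkill A hA c)
  set C := (finite_range_redMod (d := d) hM).toFinset
  set Q := ∏ c ∈ C, T c
  have hQ : 0 < Q := prod_pos fun c _ => hT c
  have hstart : ∀ c, Good P n (clsFn A (M * Q) c) := by
    intro c
    obtain ⟨e, he⟩ : T (redMod M c) ∣ Q := dvd_prod_of_mem T (by simp [C])
    have he0 : e ≠ 0 := by rintro rfl; omega
    refine Or.inr ⟨univ, by simp, ?_⟩
    have h1 := Form.refine' (hform (redMod M c) (divMod M c)) he0 0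
    have e2 : clsFn A (M * Q) c = fun y =>
        clsFn A M (redMod M c) (divMod M c + T (redMod M c) • (0 + e • y)) := by
      conv_lhs => rw [← redMod_add M c, clsFn_refine]
      funext y
      rw [zero_add, he, mul_smul]
    rw [e2]
    exact h1
  have key : ∀ j, ∀ (A : Set (Pt d)) (M : ℕ), IsTiling A F → 0 < M →
      (∀ c, Good P j (clsFn A M c)) →
      ∃ (A' : Set (Pt d)) (M' : ℕ), IsTiling A' F ∧ 0 < M' ∧ ∀ c, Good P 0 (clsFn A' M' c) := by
    intro j
    induction j with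
    | zero => exact fun A M hA hM h => ⟨A, M, hA, hM, h⟩
    | succ j ih =>
      intro A M hA hM h
      obtain ⟨A1, M1, h1, h2, h3⟩ := one_round hP hA hM h
      exact ih A1 M1 h1 h2 h3
  obtain ⟨A', M', hA', hM', hgood⟩ := key n A (M * Q) hA (Nat.mul_pos hM hQ) hstart
  refine ⟨A', M', hA', hM', fun c => ?_⟩
  rcases hgood c with h | ⟨S, hS, K, ψ, hφ, hk⟩
  · exact Or.inl h
  have hk' : ∀ i, IsConst (ψ i) ∨ IsIrr (ψ i) := fun i => by
    rcases (hk i).2 with h | h | ⟨h, -⟩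
    · exact Or.inl h
    · exact Or.inr h
    · rw [card_eq_zero.1 (Nat.le_zero.1 hS)] at h
      exact absurd h (notMem_empty i)
  by_cases hi : ∃ i, IsIrr (ψ i)
  · exact Or.inr ⟨K, ψ, hφ, fun i => ⟨(hk i).1, hk' i⟩, hi⟩
  · push Not at hi
    refine Or.inl ⟨⟨0, hn⟩, fun _ => K + ∑ i, ψ i 0, fun y => ?_⟩
    rw [hφ]
    congr 1
    exact sum_congr rfl fun i _ => (hk' i).resolve_right (hi i) _

end Vale.Agent.P043
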