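import Vale.Agent.P043.Weyl

/-! Repeating a window and choosing one of two opposite irrationals. -/

namespace Vale.Agent.P043

open Finset

/-- Repeat a clean window of a finite-valued sequence. -/
theorem periodise {β : Type*} [Finite β] (code : ℤ → β) {T : ℕ} (hT : 0 < T) (R : ℕ)
    (bad : ℤ → Prop) (hclean : ∀ W : ℕ, ∃ m0, ∀ i : ℕ, i ≤ W → ¬ bad (m0 + i)) :
    ∃ (L : ℕ) (rep : ℤ → ℤ), 0 < L ∧ (∀ m z, rep (m + L * z) = rep m) ∧
      (∀ m, ∃ z, rep m = m + T * z) ∧ (∀ m, ¬ bad (rep m)) ∧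
      ∀ m s, |s| ≤ (R : ℤ) → code (rep (m + s)) = code (rep m + s) := by
  classical
  haveI := Fintype.ofFinite β
  set B := T * (2 * R + 1) with hB
  have hB0 : 0 < B := by positivity
  let St := Fin (2 * R + 1) → β
  obtain ⟨m0, hm0⟩ := hclean (Fintype.card St * B + 2 * B)
  set state : Fin (Fintype.card St + 1) → St :=
    fun j i => code (m0 + B + (j.val : ℤ) * B + ((i.val : ℤ) - R))
  obtain ⟨a, b, hab, heq⟩ := Fintype.exists_ne_map_eq_of_card_lt state (by simp)
  wlog hlt : a.val < b.val generalizing a b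
  · exact this b a hab.symm heq.symm (lt_of_le_of_ne (not_lt.1 hlt) fun e => hab (Fin.ext e.symm))
  have hblt := b.2
  obtain ⟨m1, hm1⟩ : ∃ m1 : ℤ, m1 = m0 + B + (a.val : ℤ) * B := ⟨_, rfl⟩
  set L : ℕ := (b.val - a.val) * B with hL
  have hL0 : 0 < L := Nat.mul_pos (by omega) hB0
  have hLT : (T : ℤ) ∣ (L : ℤ) :=
    Int.natCast_dvd_natCast.2 (dvd_mul_of_dvd_right (Dvd.intro _ rfl) _)
  have hLR : 2 * R + 1 ≤ L :=
    le_trans (Nat.le_mul_of_pos_left _ hT) (Nat.le_mul_of_pos_left B (by omega))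
  refine ⟨L, fun m => m1 + (m - m1) % (L : ℤ), hL0, fun m z => ?_, fun m => ?_, fun m => ?_,
    fun m s hs => ?_⟩
  · show m1 + (m + L * z - m1) % (L : ℤ) = m1 + (m - m1) % (L : ℤ)
    rw [add_sub_right_comm, Int.add_mul_emod_self_left]
  · obtain ⟨c, hc⟩ := hLT
    refine ⟨-(c * ((m - m1) / L)), ?_⟩
    show m1 + (m - m1) % (L : ℤ) = _
    rw [Int.emod_def, hc]
    ring
  · show ¬ bad (m1 + (m - m1) % (L : ℤ))
    have h1 := Int.emod_nonneg (m - m1) (by omega : (L : ℤ) ≠ 0)
    have h2 := Int.emod_lt_of_pos (m - m1) (by omega : (0 : ℤ) < L)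
    set t := ((m - m1) % (L : ℤ)).toNat with htdef
    have ht : ((m - m1) % (L : ℤ)) = t := (Int.toNat_of_nonneg h1).symm
    rw [ht, hm1, show m0 + (B : ℤ) + (a.val : ℤ) * B + t = m0 + ((B + a.val * B + t : ℕ) : ℤ) by
      push_cast; ring]
    refine hm0 _ ?_
    have ht2 : t < L := by omega
    have hab' : a.val * B + L = b.val * B := by
      rw [hL, ← add_mul, Nat.add_sub_cancel' hlt.le]
    have : b.val * B ≤ Fintype.card St * B := Nat.mul_le_mul_right _ (by omega)
    omega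
  · show code (m1 + (m + s - m1) % (L : ℤ)) = code (m1 + (m - m1) % (L : ℤ) + s)
    have h1 := Int.emod_nonneg (m - m1) (by omega : (L : ℤ) ≠ 0)
    have h2 := Int.emod_lt_of_pos (m - m1) (by omega : (0 : ℤ) < L)
    set t := (m - m1) % (L : ℤ) with ht
    have hs' := abs_le.1 hs
    have hmod : (m + s - m1) % (L : ℤ) = (t + s) % (L : ℤ) := by
      rw [ht, Int.emod_add_emod]; congr 1; ring
    have hLz : (L : ℤ) = ((b.val : ℤ) - a.val) * B := by rw [hL, Nat.cast_mul, Nat.cast_sub hlt.le]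
    have hstate : ∀ u : ℤ, |u| ≤ (R : ℤ) → code (m1 + u) = code (m1 + L + u) := by
      intro u hu
      have hu' := abs_le.1 hu
      have h3 := congrFun heq ⟨(u + R).toNat, by omega⟩
      simp only [state] at h3
      rw [show (((u + R).toNat : ℕ) : ℤ) - R = u by omega] at h3
      rw [hm1, h3, hLz]
      congr 1
      ring
    rw [hmod, show m1 + t + s = m1 + (t + s) by ring]
    rcases lt_trichotomy (t + s) 0 with h | h | h
    · rw [← Int.add_emod_right, Int.emod_eq_of_lt (by omega) (by omega),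
        hstate (t + s) (abs_le.2 ⟨by omega, by omega⟩)]
      congr 1
      ring
    · rw [h, Int.zero_emod]
    · rcases lt_or_ge (t + s) L with h' | h'
      · rw [Int.emod_eq_of_lt (by omega) h']
      · rw [Int.emod_eq_sub_self_emod, Int.emod_eq_of_lt (by omega) (by omega),
          hstate (t + s - L) (abs_le.2 ⟨by omega, by omega⟩)]
        congr 1
        ring

/-- The relation of having a rational difference. -/
def ratRel : Setoid ℝ where
  r a b := ∃ q : ℚ, a - b = q
  iseqv :=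
    ⟨fun a => ⟨0, by simp⟩, fun {a b} ⟨q, hq⟩ => ⟨-q, by push_cast; linarith⟩,
      fun {a b c} ⟨q, hq⟩ ⟨q', hq'⟩ => ⟨q + q', by push_cast; linarith⟩⟩

/-- A choice of one class in each opposite pair of classes modulo the rationals. -/
def Sel (a : ℝ) : Prop :=
  WellOrderingRel (Quotient.mk ratRel a) (Quotient.mk ratRel (-a))

theorem sel_iff_not {a b : ℝ} (ha : Irrational a) (hab : ∃ q : ℚ, a + b = q) :
    Sel a ↔ ¬ Sel b := by
  obtain ⟨q, hq⟩ := hab
  have hb : Quotient.mk ratRel b = Quotient.mk ratRel (-a) :=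
    Quotient.sound (show ∃ r : ℚ, b - -a = r from ⟨q, by linarith⟩)
  have hb' : Quotient.mk ratRel (-b) = Quotient.mk ratRel a :=
    Quotient.sound (show ∃ r : ℚ, -b - a = r from ⟨-q, by push_cast; linarith⟩)
  have hne : Quotient.mk ratRel a ≠ Quotient.mk ratRel (-a) := fun h => by
    obtain ⟨r, hr⟩ : ∃ r : ℚ, a - -a = r := Quotient.exact h
    exact ha ⟨r / 2, by push_cast; linarith⟩
  unfold Sel
  rw [hb, hb']
  refine ⟨fun h1 h2 => asymm h1 h2, fun h => ?_⟩
  rcases trichotomous_of WellOrderingRel (Quotient.mk ratRel a) (Quotient.mk ratRel (-a))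
    with h1 | h1 | h1
  exacts [h1, absurd h1 hne, absurd h1 h]

end Vale.Agent.P043
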