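import Vale.Agent.P043.Planes
import Vale.Agent.P043.Rounds
import Vale.Agent.P043.Irreg
import Vale.Agent.P043.Window

/-! A tile whose pairings span at least hyperplanes has a periodic tiling. -/

namespace Vale.Agent.P043

open Finset Filter

variable {d : ℕ}

theorem sum_indicator {A : Set (Pt d)} {F : Finset (Pt d)} (hA : IsTiling A F)
    [DecidablePred (· ∈ A)] (x : Pt d) : ∑ f ∈ F, (if x - f ∈ A then (1 : ℝ) else 0) = 1 := by
  obtain ⟨⟨a, f⟩, ⟨ha, hf, haf⟩, huniq⟩ := hA x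
  rw [sum_eq_single_of_mem f hf]
  · rw [if_pos]
    rwa [show x - f = a from (eq_sub_of_add_eq haf).symm]
  · intro b hb hne
    rw [if_neg]
    intro hbA
    exact hne (congrArg Prod.snd (huniq (x - b, b) ⟨hbA, hb, sub_add_cancel _ _⟩))

theorem isTiling_of_sum {B : Set (Pt d)} {F : Finset (Pt d)} [DecidablePred (· ∈ B)]
    (h : ∀ x, ∑ f ∈ F, (if x - f ∈ B then (1 : ℝ) else 0) = 1) : IsTiling B F := by
  intro x
  have h1 := h x
  rw [sum_boole] at h1
  obtain ⟨f, hf⟩ := card_eq_one.1 (by exact_mod_cast h1 : (F.filter fun f => x - f ∈ B).card = 1)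
  have hmem : f ∈ F.filter fun f => x - f ∈ B := by rw [hf]; exact mem_singleton_self f
  rw [mem_filter] at hmem
  refine ⟨(x - f, f), ⟨hmem.2, hmem.1, sub_add_cancel _ _⟩, ?_⟩
  rintro ⟨a, b⟩ ⟨ha, hb, hab⟩
  obtain rfl : a = x - b := eq_sub_of_add_eq hab
  have : b ∈ F.filter fun f => x - f ∈ B := mem_filter.2 ⟨hb, ha⟩
  rw [hf, mem_singleton] at this
  subst this
  rfl

theorem fwdDiff_iter_periodic {f : ℤ → ℝ} {T : ℤ} (h : ∀ m, f (m + T) = f m) {D : ℕ}
    (hD : 1 ≤ D) (m : ℤ) : (fwdDiff T)^[D] f m = 0 := by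
  obtain ⟨E, rfl⟩ : ∃ E, D = E + 1 := ⟨D - 1, by omega⟩
  have h0 : fwdDiff T f = fun _ => 0 := funext fun x => by simp [fwdDiff, h x]
  have hz : ∀ k : ℕ, (fwdDiff T)^[k] (fun _ : ℤ => (0 : ℝ)) = fun _ => 0 := by
    intro k
    induction k with
    | zero => rfl
    | succ k ih => rw [Function.iterate_succ_apply', ih]; funext x; simp [fwdDiff]
  rw [Function.iterate_succ_apply, h0, hz]

theorem fwdDiff_iter_cong {f : ℤ → ℝ} (T : ℤ) (h : ∀ m, Cong (f m) 0) :
    ∀ (D : ℕ) (m : ℤ), Cong ((fwdDiff T)^[D] f m) 0 := by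
  intro D
  induction D with
  | zero => exact h
  | succ D ih =>
    intro m
    rw [Function.iterate_succ_apply', fwdDiff]
    simpa using (ih (m + T)).sub (ih m)

theorem fwdDiff_iter_const_add (C : ℝ) (f : ℤ → ℝ) (T : ℤ) {D : ℕ} (hD : 1 ≤ D) :
    (fwdDiff T)^[D] (fun m => C + f m) = (fwdDiff T)^[D] f := by
  obtain ⟨E, rfl⟩ : ∃ E, D = E + 1 := ⟨D - 1, by omega⟩
  rw [Function.iterate_succ_apply, Function.iterate_succ_apply]
  congr 1
  funext x
  simp [fwdDiff]

/-- The class of a member of a residue. -/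
def cgF (M : ℕ) (r g : Pt d) : Pt d := redMod M (r - g)

/-- The shift of a member of a residue. -/
def vgF (M : ℕ) (r g : Pt d) : Pt d := divMod M (r - g)

section

variable {n : ℕ} (A : Set (Pt d)) (M : ℕ) (P : Fin n → PForm d) (F : Finset (Pt d))

/-- A class that is not striped. -/
def Irreg (c : Pt d) : Prop := ¬ Striped P (clsFn A M c)

open Classical in
/-- The members of a residue whose classes are not striped. -/
noncomputable def II (r : Pt d) : Finset (Pt d) := F.filter fun g => Irreg A M P (cgF M r g)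

/-- Chosen data of all classes. -/
structure Setup where
  /-- The plane of a striped class. -/
  pl : Pt d → Option (Fin n)
  /-- The constant. -/
  K : Pt d → ℝ
  /-- The sequences. -/
  ψ : Pt d → Fin n → ℤ → ℝ
  /-- The first irrational plane. -/
  pm : Pt d → Option (Fin n)
  /-- The degree on that plane. -/
  Dg : Pt d → ℕ
  /-- The top coefficient on that plane. -/
  top : Pt d → ℝ
  hpl : ∀ c, ¬ Irreg A M P c → ∃ j, pl c = some j ∧
    ∀ y, clsFn A M c y = clsFn A M c ((P j).l y • (P j).u)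
  hirr : ∀ c, Irreg A M P c → (∀ y, clsFn A M c y = K c + ∑ i, ψ c i ((P i).l y)) ∧
    (∀ i, (∀ m, ψ c i m ∈ Set.Icc (0 : ℝ) 1) ∧ (IsConst (ψ c i) ∨ IsIrr (ψ c i))) ∧
    ∃ p, pm c = some p ∧ (∀ q, IsIrr (ψ c q) → p ≤ q) ∧ 1 ≤ Dg c ∧ Irrational (top c) ∧
      ∀ m, Cong ((fwdDiff (1 : ℤ))^[Dg c] (ψ c p) m) (top c)

end

variable {n : ℕ} {A : Set (Pt d)} {M : ℕ} {P : Fin n → PForm d} {F : Finset (Pt d)}

theorem bdd_cls (c : Pt d) : Bdd (clsFn A M c) := ⟨1, fun y => by
  rcases clsFn_mem A M c y with h | h <;> simp [h]⟩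

theorem mean_cls_nonneg (c : Pt d) : 0 ≤ mean (clsFn A M c) :=
  mean_nonneg (bdd_cls c) fun y => by rcases clsFn_mem A M c y with h | h <;> simp [h]

theorem residue_id (hA : IsTiling A F) (r y : Pt d) :
    ∑ g ∈ F, clsFn A M (cgF M r g) (y + vgF M r g) = 1 := by
  classical
  rw [← sum_indicator hA (r + M • y)]
  refine sum_congr rfl fun g _ => ?_
  unfold clsFn cgF vgF
  refine if_congr ?_ rfl rfl
  have : redMod M (r - g) + M • (y + divMod M (r - g)) = r + M • y - g := by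
    rw [smul_add, add_comm (M • y), ← add_assoc, redMod_add]
    abel
  rw [this]

theorem mean_irreg (S : Setup A M P) (hP : Distinct P) {c : Pt d} (hc : Irreg A M P c) :
    mean (clsFn A M c) = 1 / 2 := by
  obtain ⟨h1, h2, p, -, -, hD, ha, hcong⟩ := S.hirr c hc
  exact mean_eq_half hP (clsFn_mem A M c) h1 h2 ⟨p, _, _, hD, ha, hcong⟩

open Classical in
theorem residue_mean (S : Setup A M P) (hP : Distinct P) (hA : IsTiling A F) (r : Pt d) :
    (1 / 2 : ℝ) * (II A M P F r).card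
      + ∑ g ∈ F.filter (fun g => ¬ Irreg A M P (cgF M r g)), mean (clsFn A M (cgF M r g)) = 1 := by
  have h1 : mean (fun y => ∑ g ∈ F, clsFn A M (cgF M r g) (y + vgF M r g)) = 1 := by
    rw [funext (residue_id hA r)]; exact mean_const _
  rw [mean_sum _ fun g _ => (bdd_cls (cgF M r g)).comp _,
    sum_congr rfl fun g _ => mean_shift (bdd_cls (cgF M r g)) (vgF M r g),
    ← sum_filter_add_sum_filter_not F (fun g => Irreg A M P (cgF M r g)),
    sum_congr rfl fun g hg => mean_irreg S hP (mem_filter.1 hg).2, sum_const, nsmul_eq_mul] at h1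
  unfold II
  linarith

theorem residue_slice (hA : IsTiling A F) (r : Pt d) (p : Fin n) (m : ℤ) :
    ∑ g ∈ F, slice (P p) (clsFn A M (cgF M r g)) (m + (P p).l (vgF M r g)) = 1 := by
  have h1 : slice (P p) (fun y => ∑ g ∈ F, clsFn A M (cgF M r g) (y + vgF M r g)) m = 1 := by
    rw [funext (residue_id hA r)]; exact slice_const _ _ _
  rw [slice_sum _ _ fun g _ => (bdd_cls (cgF M r g)).comp _] at h1
  rw [← h1]
  exact sum_congr rfl fun g _ => (slice_translate _ (bdd_cls (cgF M r g)) _ _).symm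

theorem slice_other (S : Setup A M P) {T : ℕ}
    (hTP : ∀ p q : Fin n, q ≠ p → ∀ z : ℤ, ∃ v, (P q).l v = 0 ∧ (P p).l v = T * z)
    {c : Pt d} {p q : Fin n} (hqp : q ≠ p) (hc : ¬ Irreg A M P c) (hq : S.pl c = some q) (m z : ℤ) :
    slice (P p) (clsFn A M c) (m + T * z) = slice (P p) (clsFn A M c) m := by
  obtain ⟨j, hj, hθ⟩ := S.hpl c hc
  obtain rfl : j = q := Option.some.inj (hj.symm.trans hq)
  obtain ⟨v, hv1, hv2⟩ := hTP p j hqp z
  rw [← hv2]
  exact slice_period _ (bdd_cls c) (fun y => by rw [hθ, hθ y, map_add, hv1, add_zero]) m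

theorem slice_own (S : Setup A M P) {c : Pt d} {p : Fin n} (hc : ¬ Irreg A M P c)
    (hp : S.pl c = some p) (m : ℤ) :
    slice (P p) (clsFn A M c) m = clsFn A M c (m • (P p).u) := by
  obtain ⟨j, hj, hθ⟩ := S.hpl c hc
  obtain rfl : j = p := Option.some.inj (hj.symm.trans hp)
  conv_lhs => rw [funext hθ]
  exact slice_comp_l (P j) (fun m => clsFn A M c (m • (P j).u)) m

open Classical in
theorem residue_top (S : Setup A M P) (hP : Distinct P) (hA : IsTiling A F) {T : ℕ}
    (hTP : ∀ p q : Fin n, q ≠ p → ∀ z : ℤ, ∃ v, (P q).l v = 0 ∧ (P p).l v = T * z)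
    (r : Pt d) (p : Fin n) {D : ℕ} (hD : 1 ≤ D) (e : Pt d → ℝ)
    (he : ∀ g ∈ II A M P F r, ∀ x,
      Cong ((fwdDiff (T : ℤ))^[D] (S.ψ (cgF M r g) p) x) (e g)) :
    Cong (∑ g ∈ II A M P F r, e g) 0 := by
  have hterm : ∀ g ∈ F, Cong
      ((fwdDiff (T : ℤ))^[D] (fun m => slice (P p) (clsFn A M (cgF M r g)) (m + (P p).l (vgF M r g))) 0)
      (if Irreg A M P (cgF M r g) then e g else 0) := by
    intro g hg
    rw [fwdDiff_iter_comp_add, zero_add]
    by_cases hc : Irreg A M P (cgF M r g)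
    · rw [if_pos hc]
      obtain ⟨h1, h2, -⟩ := S.hirr _ hc
      obtain ⟨C, hC⟩ := slice_eq hP h1 h2 p
      rw [funext hC, fwdDiff_iter_const_add C _ _ hD]
      exact he g (mem_filter.2 ⟨hg, hc⟩) _
    · rw [if_neg hc]
      obtain ⟨j, hj, -⟩ := S.hpl _ hc
      rcases eq_or_ne j p with rfl | hjp
      · refine fwdDiff_iter_cong _ (fun m => ?_) D _
        rw [slice_own S hc hj]
        rcases clsFn_mem A M (cgF M r g) (m • (P j).u) with h | h
        · exact ⟨0, by rw [h]; simp⟩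
        · exact ⟨1, by rw [h]; simp⟩
      · refine ⟨0, ?_⟩
        rw [fwdDiff_iter_periodic (fun m => by simpa using slice_other S hTP hjp hc hj m 1) hD]
        simp
  have hsum : ∀ s : Finset (Pt d), s ⊆ F → Cong
      (∑ g ∈ s, (fwdDiff (T : ℤ))^[D]
        (fun m => slice (P p) (clsFn A M (cgF M r g)) (m + (P p).l (vgF M r g))) 0)
      (∑ g ∈ s, if Irreg A M P (cgF M r g) then e g else 0) := by
    intro s
    induction s using Finset.induction with
    | empty => intro _; simpa using Cong.refl 0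
    | insert g s hgs ih =>
      intro hs
      rw [sum_insert hgs, sum_insert hgs]
      exact (hterm g (hs (mem_insert_self g s))).add (ih fun x hx => hs (mem_insert_of_mem hx))
  have h0 : ∑ g ∈ F, (fwdDiff (T : ℤ))^[D]
      (fun m => slice (P p) (clsFn A M (cgF M r g)) (m + (P p).l (vgF M r g))) 0 = 0 := by
    rw [← Finset.sum_apply, ← fwdDiff_iter_finsetSum]
    have : (∑ g ∈ F, fun m => slice (P p) (clsFn A M (cgF M r g)) (m + (P p).l (vgF M r g)))
        = fun _ => (1 : ℝ) := funext fun m => by rw [Finset.sum_apply]; exact residue_slice hA r p m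
    rw [this]
    exact fwdDiff_iter_periodic (f := fun _ => (1 : ℝ)) (fun _ => rfl) hD _
  obtain ⟨z, hz⟩ := hsum F subset_rfl
  rw [h0, ← sum_filter] at hz
  unfold II
  exact ⟨-z, by push_cast; linarith⟩

theorem not_cong_top {T : ℕ} (hT : 0 < T) {a : ℝ} (D : ℕ) (ha : Irrational a) :
    ¬ Cong ((T : ℝ) ^ D * a) 0 := by
  rintro ⟨z, hz⟩
  have h1 : Irrational (((T ^ D : ℕ) : ℝ) * a) := ha.natCast_mul (pow_ne_zero _ hT.ne')
  refine h1.ne_int z ?_
  push_cast
  linarith

open Classical in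
theorem residue_pair (S : Setup A M P) (hP : Distinct P) (hA : IsTiling A F) {T : ℕ} (hT : 0 < T)
    (hTP : ∀ p q : Fin n, q ≠ p → ∀ z : ℤ, ∃ v, (P q).l v = 0 ∧ (P p).l v = T * z)
    {r : Pt d} (hne : (II A M P F r).Nonempty) :
    ∃ g0 g1, g0 ≠ g1 ∧ II A M P F r = {g0, g1} ∧
      (Sel (S.top (cgF M r g0)) ↔ ¬ Sel (S.top (cgF M r g1))) := by
  have hle : (II A M P F r).card ≤ 2 := by
    have h1 := residue_mean S hP hA r
    have h2 : 0 ≤ ∑ g ∈ F.filter (fun g => ¬ Irreg A M P (cgF M r g)), mean (clsFn A M (cgF M r g)) :=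
      sum_nonneg fun g _ => mean_cls_nonneg _
    have : ((II A M P F r).card : ℝ) ≤ 2 := by linarith
    exact_mod_cast this
  rcases (by have := hne.card_pos; omega : (II A M P F r).card = 1 ∨ (II A M P F r).card = 2) with h1 | h2
  · obtain ⟨g, hg⟩ := card_eq_one.1 h1
    obtain ⟨-, -, p, -, -, hD, ha, hcong⟩ :=
      S.hirr _ (mem_filter.1 (show g ∈ II A M P F r by rw [hg]; exact mem_singleton_self g)).2
    have := residue_top S hP hA hTP r p hD (fun _ => (T : ℝ) ^ S.Dg (cgF M r g) * S.top (cgF M r g)) fun x hx y => by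
      rw [hg, mem_singleton] at hx
      subst hx
      exact cong_fwdDiff_nat _ _ _ hcong T y
    rw [hg, sum_singleton] at this
    exact absurd this (not_cong_top hT _ ha)
  · obtain ⟨g0, g1, h01, hII⟩ := card_eq_two.1 h2
    have hm0 : Irreg A M P (cgF M r g0) := (mem_filter.1 (show g0 ∈ II A M P F r by simp [hII])).2
    have hm1 : Irreg A M P (cgF M r g1) := (mem_filter.1 (show g1 ∈ II A M P F r by simp [hII])).2
    obtain ⟨-, hk0, p0, hp0, hmin0, hD0, ha0, hc0⟩ := S.hirr _ hm0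
    obtain ⟨-, hk1, p1, hp1, hmin1, hD1, ha1, hc1⟩ := S.hirr _ hm1
    have pairsum : ∀ p (D : ℕ), 1 ≤ D → ∀ e0 e1 : ℝ,
        (∀ x, Cong ((fwdDiff (T : ℤ))^[D] (S.ψ (cgF M r g0) p) x) e0) →
        (∀ x, Cong ((fwdDiff (T : ℤ))^[D] (S.ψ (cgF M r g1) p) x) e1) → Cong (e0 + e1) 0 := by
      intro p D hD e0 e1 he0 he1
      have := residue_top S hP hA hTP r p hD (fun g => if g = g0 then e0 else e1) fun g hg x => by
        rw [hII, mem_insert, mem_singleton] at hg
        rcases hg with rfl | rfl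
        · rw [if_pos rfl]; exact he0 x
        · rw [if_neg h01.symm]; exact he1 x
      rwa [hII, sum_pair h01, if_pos rfl, if_neg h01.symm] at this
    have hconst : ∀ (c : Pt d) p (D : ℕ), 1 ≤ D → IsConst (S.ψ c p) →
        ∀ x, Cong ((fwdDiff (T : ℤ))^[D] (S.ψ c p) x) 0 := fun c p D hD hc x =>
      ⟨0, by rw [fwdDiff_iter_periodic (fun m => (hc _).trans (hc m).symm) hD]; simp⟩
    have hpe : p0 = p1 := by
      refine le_antisymm ?_ ?_
      · refine hmin0 _ ((hk0 p1).2.resolve_left fun hc => not_cong_top hT (S.Dg (cgF M r g1)) ha1 ?_)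
        have := pairsum p1 _ hD1 _ _ (hconst _ _ _ hD1 hc) fun x => cong_fwdDiff_nat _ _ _ hc1 T x
        rwa [zero_add] at this
      · refine hmin1 _ ((hk1 p0).2.resolve_left fun hc => not_cong_top hT (S.Dg (cgF M r g0)) ha0 ?_)
        have := pairsum p0 _ hD0 _ _ (fun x => cong_fwdDiff_nat _ _ _ hc0 T x) (hconst _ _ _ hD0 hc)
        rwa [add_zero] at this
    subst hpe
    have hlow : ∀ {g : ℤ → ℝ} {D : ℕ} {a : ℝ},
        (∀ m, Cong ((fwdDiff (1 : ℤ))^[D] g m) a) → ∀ E, D < E →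
        ∀ x, Cong ((fwdDiff (T : ℤ))^[E] g x) 0 := fun h E hE x => by
      simpa using cong_fwdDiff_nat E _ 0 (cong_fwdDiff_le h E hE) T x
    rcases lt_trichotomy (S.Dg (cgF M r g0)) (S.Dg (cgF M r g1)) with hlt | heq | hgt
    · have := pairsum p0 _ hD1 _ _ (hlow hc0 _ hlt) fun x => cong_fwdDiff_nat _ _ _ hc1 T x
      rw [zero_add] at this
      exact absurd this (not_cong_top hT _ ha1)
    · obtain ⟨z, hz⟩ := pairsum p0 _ hD0 _ _ (fun x => cong_fwdDiff_nat _ _ _ hc0 T x)
        (fun x => by rw [heq]; exact cong_fwdDiff_nat _ _ _ hc1 T x)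
      refine ⟨g0, g1, h01, hII, sel_iff_not ha0 ⟨(z : ℚ) / ((T ^ S.Dg (cgF M r g0) : ℕ) : ℚ), ?_⟩⟩
      rw [← heq] at hz
      have hT' : ((T : ℝ) ^ S.Dg (cgF M r g0)) ≠ 0 := pow_ne_zero _ (by exact_mod_cast hT.ne')
      push_cast
      rw [eq_div_iff hT']
      linarith
    · have := pairsum p0 _ hD0 _ _ (fun x => cong_fwdDiff_nat _ _ _ hc0 T x) (hlow hc1 _ hgt)
      rw [add_zero] at this
      exact absurd this (not_cong_top hT _ ha0)

open Classical in
theorem stripe_zero (S : Setup A M P) (hP : Distinct P) (hA : IsTiling A F) {T : ℕ} (hT : 0 < T)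
    (hTP : ∀ p q : Fin n, q ≠ p → ∀ z : ℤ, ∃ v, (P q).l v = 0 ∧ (P p).l v = T * z)
    {r g : Pt d} (hne : (II A M P F r).Nonempty) (hg : g ∈ F) (hc : ¬ Irreg A M P (cgF M r g)) :
    mean (clsFn A M (cgF M r g)) = 0 := by
  obtain ⟨g0, g1, h01, hII, -⟩ := residue_pair S hP hA hT hTP hne
  have h1 := residue_mean S hP hA r
  rw [hII, card_pair h01] at h1
  have h2 := single_le_sum (f := fun g => mean (clsFn A M (cgF M r g)))
    (fun g _ => mean_cls_nonneg (A := A) (M := M) (cgF M r g))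
    (show g ∈ F.filter (fun g => ¬ Irreg A M P (cgF M r g)) from mem_filter.2 ⟨hg, hc⟩)
  push_cast at h1
  linarith [mean_cls_nonneg (A := A) (M := M) (cgF M r g)]

open Classical in
theorem exists_window (S : Setup A M P) (hP : Distinct P) (hA : IsTiling A F) {T : ℕ} (hT : 0 < T)
    (hTP : ∀ p q : Fin n, q ≠ p → ∀ z : ℤ, ∃ v, (P q).l v = 0 ∧ (P p).l v = T * z)
    {C : Finset (Pt d)} (hCmem : ∀ x, redMod M x ∈ C) (R : ℕ) (p : Fin n) :
    ∃ (L : ℕ) (rep : ℤ → ℤ), 0 < L ∧ (∀ m z, rep (m + L * z) = rep m) ∧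
      (∀ m, ∃ z, rep m = m + T * z) ∧
      (∀ r ∈ C, (II A M P F r).Nonempty → ∀ g ∈ F, ¬ Irreg A M P (cgF M r g) →
        S.pl (cgF M r g) = some p →
        ∀ m, clsFn A M (cgF M r g) ((rep m + (P p).l (vgF M r g)) • (P p).u) = 0) ∧
      ∀ x m s, |s| ≤ (R : ℤ) → clsFn A M (redMod M x) (rep (m + s) • (P p).u)
        = clsFn A M (redMod M x) ((rep m + s) • (P p).u) := by
  set items := (C ×ˢ F).filter fun t => (II A M P F t.1).Nonempty ∧ ¬ Irreg A M P (cgF M t.1 t.2) ∧
    S.pl (cgF M t.1 t.2) = some p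
  obtain ⟨L, rep, hL, h1, h2, h3, h4⟩ :=
    periodise (fun m => fun c : ↥C => decide (clsFn A M c (m • (P p).u) = 1)) hT R
      (fun m => ∃ t ∈ items, clsFn A M (cgF M t.1 t.2) ((m + (P p).l (vgF M t.1 t.2)) • (P p).u) ≠ 0)
      (by
        intro W
        set e : ℕ → Pt d × Pt d → Pt d → ℝ :=
          fun i t y => clsFn A M (cgF M t.1 t.2) (y + (vgF M t.1 t.2 + (i : ℤ) • (P p).u))
        have heb : ∀ i t, Bdd (e i t) := fun i t => (bdd_cls (cgF M t.1 t.2)).comp _
        have hE : mean (fun y => ∑ i ∈ range (W + 1), ∑ t ∈ items, e i t y) = 0 := by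
          rw [mean_sum _ fun i _ => Bdd.sum _ fun t _ => heb i t]
          refine sum_eq_zero fun i _ => ?_
          rw [mean_sum _ fun t _ => heb i t]
          refine sum_eq_zero fun t ht => ?_
          rw [mean_shift (bdd_cls (cgF M t.1 t.2))]
          obtain ⟨ht1, ht2, ht3, -⟩ := mem_filter.1 ht
          exact stripe_zero S hP hA hT hTP ht2 (mem_product.1 ht1).2 ht3
        obtain ⟨y, hy⟩ : ∃ y, ∑ i ∈ range (W + 1), ∑ t ∈ items, e i t y < 1 := by
          by_contra hcon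
          push Not at hcon
          have := mean_mono (Bdd.const (1 : ℝ))
            (Bdd.sum _ fun i _ => Bdd.sum _ fun t _ => heb i t) hcon
          rw [mean_const, hE] at this
          linarith
        refine ⟨(P p).l y, fun i hi => ?_⟩
        rintro ⟨t, ht, hne⟩
        obtain ⟨-, -, ht3, ht4⟩ := mem_filter.1 ht
        obtain ⟨j, hj, hθ⟩ := S.hpl _ ht3
        obtain rfl : j = p := Option.some.inj (hj.symm.trans ht4)
        have h5 : clsFn A M (cgF M t.1 t.2) (((P j).l y + i + (P j).l (vgF M t.1 t.2)) • (P j).u) = e i t y := by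
          simp only [e]
          rw [hθ (y + _), map_add, map_add, map_zsmul, (P j).hu, smul_eq_mul, mul_one]
          congr 2
          ring
        have h6 : e i t y = 1 := by
          rcases clsFn_mem A M (cgF M t.1 t.2) (y + (vgF M t.1 t.2 + (i : ℤ) • (P j).u)) with h | h
          · exact absurd (h5.trans h) hne
          · exact h
        have hnn : ∀ i t, 0 ≤ e i t y := fun i t => by
          simp only [e]
          rcases clsFn_mem A M (cgF M t.1 t.2) (y + (vgF M t.1 t.2 + (i : ℤ) • (P j).u)) with h | h <;>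
            rw [h] <;> norm_num
        have h7 := (single_le_sum (f := fun t => e i t y) (fun t _ => hnn i t) ht).trans
          (single_le_sum (f := fun i => ∑ t ∈ items, e i t y)
            (fun i _ => sum_nonneg fun t _ => hnn i t) (mem_range.2 (by omega : i < W + 1)))
        linarith)
  refine ⟨L, rep, hL, h1, h2, fun r hr hne g hg hc hp m => ?_, fun x m s hs => ?_⟩
  · by_contra h
    exact h3 m ⟨(r, g), mem_filter.2 ⟨mem_product.2 ⟨hr, hg⟩, hne, hc, hp⟩, h⟩
  · have h5 := congrFun (h4 m s hs) ⟨redMod M x, hCmem x⟩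
    simp only [decide_eq_decide] at h5
    rcases clsFn_mem A M (redMod M x) (rep (m + s) • (P p).u) with h | h <;>
      rcases clsFn_mem A M (redMod M x) ((rep m + s) • (P p).u) with h' | h' <;>
        rw [h, h'] at h5 <;> rw [h, h'] <;> norm_num at h5

open Classical in
/-- The value of the periodic tiling on a class. -/
noncomputable def pval (S : Setup A M P) (rep : Fin n → ℤ → ℤ) (c v : Pt d) : ℝ :=
  if Irreg A M P c then (if Sel (S.top c) then 1 else 0)
  else match S.pl c with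
    | some p => clsFn A M c (rep p ((P p).l v) • (P p).u)
    | none => 0

theorem pval_mem (S : Setup A M P) (rep : Fin n → ℤ → ℤ) (c v : Pt d) :
    pval S rep c v = 0 ∨ pval S rep c v = 1 := by
  unfold pval
  split_ifs
  · exact Or.inr rfl
  · exact Or.inl rfl
  · split
    · exact clsFn_mem A M c _
    · exact Or.inl rfl

open Classical in
theorem pval_sum (S : Setup A M P) (hP : Distinct P) (hA : IsTiling A F) {T : ℕ} (hT : 0 < T)
    (hTP : ∀ p q : Fin n, q ≠ p → ∀ z : ℤ, ∃ v, (P q).l v = 0 ∧ (P p).l v = T * z)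
    {C : Finset (Pt d)} {R : ℕ} (hR : ∀ r ∈ C, ∀ g ∈ F, ∀ p, |(P p).l (vgF M r g)| ≤ (R : ℤ))
    {rep : Fin n → ℤ → ℤ} (hrepT : ∀ p m, ∃ z, rep p m = m + T * z)
    (hclean : ∀ p, ∀ r ∈ C, (II A M P F r).Nonempty → ∀ g ∈ F, ¬ Irreg A M P (cgF M r g) →
      S.pl (cgF M r g) = some p →
      ∀ m, clsFn A M (cgF M r g) ((rep p m + (P p).l (vgF M r g)) • (P p).u) = 0)
    (hwindow : ∀ p x m s, |s| ≤ (R : ℤ) → clsFn A M (redMod M x) (rep p (m + s) • (P p).u)
      = clsFn A M (redMod M x) ((rep p m + s) • (P p).u))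
    {r : Pt d} (hr : r ∈ C) (w : Pt d) :
    ∑ g ∈ F, pval S rep (cgF M r g) (w + vgF M r g) = 1 := by
  rcases (II A M P F r).eq_empty_or_nonempty with hE | hne
  · have hreg : ∀ g ∈ F, ¬ Irreg A M P (cgF M r g) := fun g hg h =>
      absurd (show g ∈ II A M P F r from mem_filter.2 ⟨hg, h⟩) (by rw [hE]; exact notMem_empty g)
    set J := fun p => F.filter fun g => S.pl (cgF M r g) = some p with hJ
    set Sp : Fin n → ℤ → ℝ := fun p m =>
      ∑ g ∈ J p, clsFn A M (cgF M r g) ((m + (P p).l (vgF M r g)) • (P p).u)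
    have hSper : ∀ p m z, Sp p (m + T * z) = Sp p m := by
      intro p m z
      have h1 : ∀ m, Sp p m + ∑ g ∈ F.filter (fun g => ¬ S.pl (cgF M r g) = some p),
          slice (P p) (clsFn A M (cgF M r g)) (m + (P p).l (vgF M r g)) = 1 := by
        intro m
        rw [← residue_slice hA r p m, ← sum_filter_add_sum_filter_not F (fun g => S.pl (cgF M r g) = some p)]
        congr 1
        exact sum_congr rfl fun g hg =>
          (slice_own S (hreg g (mem_filter.1 hg).1) (mem_filter.1 hg).2 _).symm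
      have h2 : ∑ g ∈ F.filter (fun g => ¬ S.pl (cgF M r g) = some p),
            slice (P p) (clsFn A M (cgF M r g)) (m + T * z + (P p).l (vgF M r g))
          = ∑ g ∈ F.filter (fun g => ¬ S.pl (cgF M r g) = some p),
            slice (P p) (clsFn A M (cgF M r g)) (m + (P p).l (vgF M r g)) := by
        refine sum_congr rfl fun g hg => ?_
        obtain ⟨hgF, hgp⟩ := mem_filter.1 hg
        obtain ⟨q, hq, -⟩ := S.hpl _ (hreg g hgF)
        have hqp : q ≠ p := fun e => hgp (by rw [hq, e])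
        rw [add_right_comm, slice_other S hTP hqp (hreg g hgF) hq]
      have h3 := h1 (m + T * z)
      rw [h2] at h3
      linarith [h1 m]
    have hcover : ∀ (G : Pt d → ℝ), ∑ g ∈ F, G g = ∑ p, ∑ g ∈ J p, G g := by
      intro G
      rw [← sum_fiberwise F (fun g => S.pl (cgF M r g)) G, Fintype.sum_option]
      have h0 : F.filter (fun g => S.pl (cgF M r g) = none) = ∅ := filter_eq_empty_iff.2 fun g hg h => by
        obtain ⟨q, hq, -⟩ := S.hpl _ (hreg g hg)
        rw [hq] at h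
        exact absurd h (by simp)
      rw [h0, sum_empty, zero_add]
    calc ∑ g ∈ F, pval S rep (cgF M r g) (w + vgF M r g)
        = ∑ p, ∑ g ∈ J p, pval S rep (cgF M r g) (w + vgF M r g) := hcover _
      _ = ∑ p, Sp p (rep p ((P p).l w)) := by
          refine sum_congr rfl fun p _ => sum_congr rfl fun g hg => ?_
          obtain ⟨hgF, hgp⟩ := mem_filter.1 hg
          simp only [pval, if_neg (hreg g hgF), hgp, map_add]
          exact hwindow p (r - g) _ _ (hR r hr g hgF p)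
      _ = ∑ p, Sp p ((P p).l w) := by
          refine sum_congr rfl fun p _ => ?_
          obtain ⟨z, hz⟩ := hrepT p ((P p).l w)
          rw [hz, hSper]
      _ = ∑ g ∈ F, clsFn A M (cgF M r g) (w + vgF M r g) := by
          rw [hcover fun g => clsFn A M (cgF M r g) (w + vgF M r g)]
          refine sum_congr rfl fun p _ => sum_congr rfl fun g hg => ?_
          obtain ⟨hgF, hgp⟩ := mem_filter.1 hg
          obtain ⟨j, hj, hθ⟩ := S.hpl _ (hreg g hgF)
          obtain rfl : j = p := Option.some.inj (hj.symm.trans hgp)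
          rw [hθ (w + vgF M r g), map_add]
      _ = 1 := residue_id hA r w
  · obtain ⟨g0, g1, h01, hII, hsel⟩ := residue_pair S hP hA hT hTP hne
    have hrest : ∀ g ∈ F, ¬ Irreg A M P (cgF M r g) → pval S rep (cgF M r g) (w + vgF M r g) = 0 := by
      intro g hg hc
      obtain ⟨p, hp, -⟩ := S.hpl _ hc
      simp only [pval, if_neg hc, hp, map_add]
      exact (hwindow p (r - g) _ _ (hR r hr g hg p)).trans (hclean p r hr hne g hg hc hp _)
    rw [← sum_filter_add_sum_filter_not F (fun g => Irreg A M P (cgF M r g)),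
      sum_eq_zero (s := F.filter fun g => ¬ Irreg A M P (cgF M r g))
        (fun g hg => hrest g (mem_filter.1 hg).1 (mem_filter.1 hg).2), add_zero]
    show ∑ g ∈ II A M P F r, pval S rep (cgF M r g) (w + vgF M r g) = 1
    rw [hII, sum_pair h01]
    have hm0 : Irreg A M P (cgF M r g0) := (mem_filter.1 (show g0 ∈ II A M P F r by simp [hII])).2
    have hm1 : Irreg A M P (cgF M r g1) := (mem_filter.1 (show g1 ∈ II A M P F r by simp [hII])).2
    simp only [pval, if_pos hm0, if_pos hm1]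
    by_cases h : Sel (S.top (cgF M r g0))
    · rw [if_pos h, if_neg (hsel.1 h)]; norm_num
    · rw [if_neg h, if_pos (not_not.1 fun h' => h (hsel.2 h'))]; norm_num

theorem exists_setup (hcls : ∀ c, Striped P (clsFn A M c) ∨
      ∃ (K : ℝ) (ψ : Fin n → ℤ → ℝ), (∀ y, clsFn A M c y = K + ∑ i, ψ i ((P i).l y)) ∧
        (∀ i, (∀ m, ψ i m ∈ Set.Icc (0 : ℝ) 1) ∧ (IsConst (ψ i) ∨ IsIrr (ψ i))) ∧
        ∃ i, IsIrr (ψ i)) : Nonempty (Setup A M P) := by
  classical
  have hsdata : ∀ c, ∃ i : Option (Fin n), (¬ Irreg A M P c → ∃ j, i = some j ∧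
      ∀ y, clsFn A M c y = clsFn A M c ((P j).l y • (P j).u)) := by
    intro c
    by_cases h : Striped P (clsFn A M c)
    · obtain ⟨j, θ, hθ⟩ := h
      exact ⟨some j, fun _ => ⟨j, rfl, fun y => by
        rw [hθ, hθ, map_zsmul, (P j).hu, smul_eq_mul, mul_one]⟩⟩
    · exact ⟨none, fun h' => absurd h h'⟩
  choose pl hpl using hsdata
  have hidata : ∀ c, ∃ (K : ℝ) (ψ : Fin n → ℤ → ℝ) (o : Option (Fin n)) (D : ℕ) (a : ℝ),
      Irreg A M P c → (∀ y, clsFn A M c y = K + ∑ i, ψ i ((P i).l y)) ∧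
        (∀ i, (∀ m, ψ i m ∈ Set.Icc (0 : ℝ) 1) ∧ (IsConst (ψ i) ∨ IsIrr (ψ i))) ∧
        ∃ p, o = some p ∧ (∀ q, IsIrr (ψ q) → p ≤ q) ∧ 1 ≤ D ∧ Irrational a ∧
          ∀ m, Cong ((fwdDiff (1 : ℤ))^[D] (ψ p) m) a := by
    intro c
    rcases hcls c with h | ⟨K, ψ, h1, h2, h3⟩
    · exact ⟨0, 0, none, 0, 0, fun h' => absurd h h'⟩
    · set S := univ.filter fun i => IsIrr (ψ i)
      have hS : S.Nonempty := by
        obtain ⟨i, hi⟩ := h3
        exact ⟨i, mem_filter.2 ⟨mem_univ i, hi⟩⟩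
      obtain ⟨D, a, hD, ha, hcg⟩ := (mem_filter.1 (S.min'_mem hS)).2
      exact ⟨K, ψ, some (S.min' hS), D, a, fun _ => ⟨h1, h2, _, rfl,
        fun q hq => S.min'_le q (mem_filter.2 ⟨mem_univ q, hq⟩), hD, ha, hcg⟩⟩
  choose K ψ pm Dg top hirr using hidata
  exact ⟨⟨pl, K, ψ, pm, Dg, top, hpl, hirr⟩⟩

theorem exists_periodic_of_forms (hP : Distinct P) (hA : IsTiling A F) (hM : 0 < M)
    (hcls : ∀ c, Striped P (clsFn A M c) ∨
      ∃ (K : ℝ) (ψ : Fin n → ℤ → ℝ), (∀ y, clsFn A M c y = K + ∑ i, ψ i ((P i).l y)) ∧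
        (∀ i, (∀ m, ψ i m ∈ Set.Icc (0 : ℝ) 1) ∧ (IsConst (ψ i) ∨ IsIrr (ψ i))) ∧
        ∃ i, IsIrr (ψ i)) :
    ∃ (B : Set (Pt d)) (N : ℕ), IsTiling B F ∧ 0 < N ∧ ∀ v a : Pt d, a + N • v ∈ B ↔ a ∈ B := by
  classical
  obtain ⟨S⟩ := exists_setup hcls
  obtain ⟨T, hT, hTP⟩ := exists_period_step hP
  set C := (finite_range_redMod (d := d) hM).toFinset with hC
  have hCmem : ∀ x : Pt d, redMod M x ∈ C := fun x => by simp [C]
  set R : ℕ := ∑ r ∈ C, ∑ g ∈ F, ∑ p, ((P p).l (vgF M r g)).natAbs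
  have hR : ∀ r ∈ C, ∀ g ∈ F, ∀ p, |(P p).l (vgF M r g)| ≤ (R : ℤ) := by
    intro r hr g hg p
    have h1 : ((P p).l (vgF M r g)).natAbs ≤ R :=
      le_trans (single_le_sum (f := fun p => ((P p).l (vgF M r g)).natAbs) (fun _ _ => Nat.zero_le _)
          (mem_univ p))
        (le_trans (single_le_sum (f := fun g => ∑ p, ((P p).l (vgF M r g)).natAbs)
            (fun _ _ => Nat.zero_le _) hg)
          (single_le_sum (f := fun r => ∑ g ∈ F, ∑ p, ((P p).l (vgF M r g)).natAbs)
            (fun _ _ => Nat.zero_le _) hr))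
    rw [Int.abs_eq_natAbs]
    exact_mod_cast h1
  choose L rep hL hrepL hrepT hclean hwindow using fun p =>
    exists_window S hP hA hT hTP hCmem R p
  have hsum : ∀ r ∈ C, ∀ w, ∑ g ∈ F, pval S rep (cgF M r g) (w + vgF M r g) = 1 :=
    fun r hr w => pval_sum S hP hA hT hTP hR hrepT hclean hwindow hr w
  have hMz : (M : ℤ) ≠ 0 := by exact_mod_cast hM.ne'
  have hmod : ∀ x v : Pt d, redMod M (x + M • v) = redMod M x ∧
      divMod M (x + M • v) = divMod M x + v := by
    intro x v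
    refine ⟨funext fun i => ?_, funext fun i => ?_⟩
    · simp [redMod]
    · simp [divMod, Int.add_mul_ediv_left _ _ hMz]
  refine ⟨{x | pval S rep (redMod M x) (divMod M x) = 1}, M * ∏ p, L p, ?_,
    Nat.mul_pos hM (prod_pos fun p _ => hL p), fun v a => ?_⟩
  · refine isTiling_of_sum fun x => ?_
    have h := hsum (redMod M x) (hCmem x) (divMod M x)
    refine Eq.trans (sum_congr rfl fun g _ => ?_) h
    have e : x - g = redMod M x - g + M • divMod M x := by
      conv_lhs => rw [← redMod_add M x]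
      abel
    obtain ⟨e1, e2⟩ := hmod (redMod M x - g) (divMod M x)
    simp only [Set.mem_ofPred_eq, e, e1, e2, cgF, vgF]
    rw [add_comm (divMod M (redMod M x - g))]
    rcases pval_mem S rep (redMod M (redMod M x - g)) (divMod M x + divMod M (redMod M x - g)) with h | h <;>
      simp [h]
  · simp only [Set.mem_ofPred_eq]
    obtain ⟨e1, e2⟩ := hmod a ((∏ p, L p) • v)
    rw [← mul_smul] at e1 e2
    rw [e1, e2]
    suffices pval S rep (redMod M a) (divMod M a + (∏ p, L p) • v) = pval S rep (redMod M a) (divMod M a) by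
      rw [this]
    simp only [pval]
    split_ifs
    · rfl
    · rfl
    · split
      · next p _ =>
        obtain ⟨c, hc⟩ := dvd_prod_of_mem L (mem_univ p)
        rw [map_add, map_nsmul, hc, nsmul_eq_mul]
        congr 2
        push_cast
        rw [mul_assoc, hrepL]
      · rfl

/-- A tile whose pairings span at least hyperplanes admits a periodic tiling. -/
theorem almostRigid_periodic {F : Finset (Pt d)} (hd : 1 ≤ d) (hF : AlmostRigid F)
    {A : Set (Pt d)} (hA : IsTiling A F) :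
    ∃ (B : Set (Pt d)) (N : ℕ), IsTiling B F ∧ 0 < N ∧ ∀ v a : Pt d, a + N • v ∈ B ↔ a ∈ B := by
  obtain ⟨M, n, P, hM, hn, hP, hkill⟩ := exists_planes hd hF
  obtain ⟨A', M', hA', hM', hcls⟩ := exists_reduced hn hP hM hkill hA
  exact exists_periodic_of_forms hP hA' hM' hcls

end Vale.Agent.P043
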