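import Vale.Agent.P043.Defs

/-!
The planes of an almost rigid tile: finitely many hyperplane forms such that, for every tiling,
the product of the differences along their kernels kills every class modulo a fixed period.
-/

namespace Vale.Agent.P043

open Finset

variable {d : ℕ}

/-- A rational subspace of codimension at most one contains the integer kernel of a form. -/
theorem exists_form (hd : 1 ≤ d) (S : Submodule ℚ (Fin d → ℚ))
    (hS : d - 1 ≤ Module.finrank ℚ S) :
    ∃ P : PForm d, ∀ v, P.l v = 0 → toRat v ∈ S := by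
  classical
  obtain ⟨φ, hφ0, hker⟩ : ∃ φ : (Fin d → ℚ) →ₗ[ℚ] ℚ, φ ≠ 0 ∧ LinearMap.ker φ ≤ S := by
    by_cases htop : S = ⊤
    · refine ⟨LinearMap.proj ⟨0, hd⟩, fun h => ?_, htop ▸ le_top⟩
      simpa using LinearMap.congr_fun h (fun _ => (1 : ℚ))
    · obtain ⟨φ, hφ0, hle⟩ := Submodule.exists_le_ker_of_lt_top S (lt_top_iff_ne_top.2 htop)
      refine ⟨φ, hφ0, (Submodule.eq_of_le_of_finrank_le hle ?_).ge⟩
      have h1 : Module.finrank ℚ (LinearMap.ker φ) < Module.finrank ℚ (Fin d → ℚ) :=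
        Submodule.finrank_lt (fun h => hφ0 (LinearMap.ker_eq_top.1 h))
      rw [Module.finrank_fin_fun] at h1
      omega
  set a : Fin d → ℚ := fun i => φ (Pi.single i 1)
  have hφsum : ∀ x : Fin d → ℚ, φ x = ∑ i, x i * a i := fun x => by
    conv_lhs => rw [← Finset.univ_sum_single x, map_sum]
    refine sum_congr rfl fun i _ => ?_
    have : (Pi.single i (x i) : Fin d → ℚ) = x i • Pi.single i 1 := by
      rw [← Pi.single_smul, smul_eq_mul, mul_one]
    rw [this, map_smul, smul_eq_mul]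
  set D : ℕ := ∏ i, (a i).den with hD
  have hD0 : (D : ℚ) ≠ 0 := Nat.cast_ne_zero.2 (prod_ne_zero_iff.2 fun i _ => (a i).den_nz)
  have hc : ∀ i, ∃ c : ℤ, (c : ℚ) = D * a i := fun i => by
    obtain ⟨k, hk⟩ : (a i).den ∣ D := dvd_prod_of_mem _ (mem_univ i)
    refine ⟨k * (a i).num, ?_⟩
    rw [hk]
    push_cast
    linear_combination (-(k : ℚ)) * Rat.mul_den_eq_num (a i)
  choose c hc using hc
  let l0 : Pt d →+ ℤ :=
    { toFun := fun v => ∑ i, v i * c i
      map_zero' := by simp
      map_add' := fun v w => by simp [add_mul, sum_add_distrib] }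
  have hl0 : ∀ v, (l0 v : ℚ) = D * φ (toRat v) := fun v => by
    show ((∑ i, v i * c i : ℤ) : ℚ) = _
    rw [hφsum, mul_sum]
    push_cast
    refine sum_congr rfl fun i _ => ?_
    rw [hc]
    simp only [toRat]
    ring
  obtain ⟨g, hg⟩ := Int.subgroup_cyclic l0.range
  have hmem : ∀ v, g ∣ l0 v := fun v => by
    have : l0 v ∈ l0.range := ⟨v, rfl⟩
    rw [hg, AddSubgroup.mem_closure_singleton] at this
    obtain ⟨z, hz⟩ := this
    exact ⟨z, by rw [← hz, smul_eq_mul, mul_comm]⟩
  have hg0 : g ≠ 0 := fun h => hφ0 (by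
    refine LinearMap.ext fun x => ?_
    rw [hφsum, LinearMap.zero_apply]
    refine sum_eq_zero fun i _ => ?_
    obtain ⟨z, hz⟩ := hmem (Pi.single i 1)
    have h1 := hl0 (Pi.single i 1)
    rw [hz, h, zero_mul, Int.cast_zero, eq_comm, mul_eq_zero] at h1
    have h2 := h1.resolve_left hD0
    have h3 : toRat (Pi.single i 1) = (Pi.single i 1 : Fin d → ℚ) := by
      ext j
      rcases eq_or_ne j i with rfl | hj <;> simp [toRat, *]
    rw [h3] at h2
    simp [a, h2])
  obtain ⟨u, hu⟩ : g ∈ l0.range := by rw [hg]; exact AddSubgroup.subset_closure rfl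
  refine ⟨⟨AddMonoidHom.mk' (fun v => l0 v / g) fun v w => by
    rw [map_add, Int.add_ediv_of_dvd_left (hmem v)], u, ?_⟩, fun v hv => hker ?_⟩
  · show l0 u / g = 1
    rw [hu, Int.ediv_self hg0]
  · replace hv : l0 v / g = 0 := hv
    have h1 : l0 v = 0 := by rw [← Int.ediv_mul_cancel (hmem v), hv, zero_mul]
    have h2 := hl0 v
    rw [h1, Int.cast_zero, eq_comm, mul_eq_zero] at h2
    exact h2.resolve_left hD0

/-- The span version of `exists_nsmul_mem`. -/
theorem exists_nsmul_mem_span (H : AddSubgroup (Pt d)) {S : Set (Fin d → ℚ)}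
    (hS : ∀ w ∈ S, ∃ u ∈ H, toRat u = w) {v : Pt d} (hv : toRat v ∈ Submodule.span ℚ S) :
    ∃ n : ℕ, 0 < n ∧ n • v ∈ H := by
  have key : ∀ w ∈ Submodule.span ℚ S, ∃ n : ℕ, 0 < n ∧ ∃ u ∈ H, toRat u = (n : ℚ) • w := by
    intro w hw
    induction hw using Submodule.span_induction with
    | mem w hw => obtain ⟨u, hu, rfl⟩ := hS w hw; exact ⟨1, one_pos, u, hu, by simp⟩
    | zero => exact ⟨1, one_pos, 0, zero_mem H, by ext i; simp [toRat]⟩
    | add a b _ _ ha hb =>
      obtain ⟨n, hn, u, hu, hu'⟩ := ha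
      obtain ⟨m, hm, z, hz, hz'⟩ := hb
      refine ⟨n * m, Nat.mul_pos hn hm, m • u + n • z,
        add_mem (H.nsmul_mem hu m) (H.nsmul_mem hz n), ?_⟩
      ext i
      have h1 := congrFun hu' i
      have h2 := congrFun hz' i
      simp [toRat] at h1 h2 ⊢
      rw [h1, h2]; ring
    | smul c a _ ha =>
      obtain ⟨n, hn, u, hu, hu'⟩ := ha
      refine ⟨n * c.den, Nat.mul_pos hn c.den_pos, c.num • u, H.zsmul_mem hu _, ?_⟩
      ext i
      have h1 := congrFun hu' i
      simp [toRat] at h1 ⊢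
      rw [h1, ← Rat.mul_den_eq_num c]; ring
  obtain ⟨n, hn, u, hu, hu'⟩ := key (toRat v) hv
  refine ⟨n, hn, ?_⟩
  convert hu
  funext i
  have := congrFun hu' i
  simp only [toRat, Pi.smul_apply, smul_eq_mul] at this
  exact_mod_cast this.symm

/-- The action keeps bounded functions bounded. -/
theorem exists_bound_act (P : TR d) :
    ∀ {φ : Pt d → ℤ} {B : ℤ}, (∀ x, |φ x| ≤ B) → ∃ C, ∀ x, |act P φ x| ≤ C := by
  induction P using AddMonoidAlgebra.induction_on with
  | of g => intro φ B hB; exact ⟨B, fun x => (congrArg abs (act_mono g φ x)).trans_le (hB _)⟩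
  | add P Q hP hQ =>
    intro φ B hB
    obtain ⟨C, hC⟩ := hP hB
    obtain ⟨C', hC'⟩ := hQ hB
    exact ⟨C + C', fun x => by
      rw [act_add, Pi.add_apply]
      exact (abs_add_le _ _).trans (add_le_add (hC x) (hC' x))⟩
  | smul r P hP =>
    intro φ B hB
    obtain ⟨C, hC⟩ := hP hB
    refine ⟨|r| * C, fun x => ?_⟩
    have : act (r • P) φ = r • act P φ := by simp [act]
    rw [this, Pi.smul_apply, smul_eq_mul, abs_mul]
    exact mul_le_mul_of_nonneg_left (hC x) (abs_nonneg r)

/-- A product of powers of differences killing a bounded integer function can be taken reduced. -/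
theorem prod_diff_of_pow {ι : Type*} [Fintype ι] (w : ι → Pt d) {φ : Pt d → ℤ} {B : ℤ}
    (hB : ∀ x, |φ x| ≤ B) {m : ℕ} (h : act (∏ i, (mono (w i) - 1) ^ m) φ = 0) :
    act (∏ i, (mono (w i) - 1)) φ = 0 := by
  classical
  suffices H : ∀ s : Finset ι,
      act ((∏ i ∈ sᶜ, (mono (w i) - 1) ^ m) * ∏ i ∈ s, (mono (w i) - 1)) φ = 0 by
    simpa using H univ
  intro s
  induction s using Finset.induction with
  | empty => simpa using h
  | insert j s hj ih =>
    obtain ⟨C, hC⟩ := exists_bound_act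
      ((∏ i ∈ (insert j s)ᶜ, (mono (w i) - 1) ^ m) * ∏ i ∈ s, (mono (w i) - 1)) hB
    have hmem : j ∈ sᶜ := mem_compl.2 hj
    rw [← mul_prod_erase _ _ hmem, ← compl_insert, mul_assoc, act_mul] at ih
    have h1 := diff_of_pow hC (w j) ih
    rw [← act_mul] at h1
    rw [prod_insert hj, mul_left_comm]
    exact h1

/-- Transport of differences to a class modulo `N`. -/
theorem act_cls {ι : Type*} (v : ι → Pt d) (N : ℕ) (c : Pt d) (Φ : Pt d → ℤ) (s : Finset ι) :
    act (∏ i ∈ s, (mono (v i) - 1)) (fun y => (Φ (c + N • y) : ℝ)) =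
      fun y => ((act (∏ i ∈ s, (mono (N • v i) - 1)) Φ (c + N • y) : ℤ) : ℝ) := by
  classical
  induction s using Finset.induction with
  | empty => simp [act_one]
  | insert a s ha ih =>
    rw [prod_insert ha, prod_insert ha, act_mul, ih, act_mul]
    funext y
    rw [act_sub, act_sub, Pi.sub_apply, Pi.sub_apply, act_one, act_one, act_mono, act_mono,
      Int.cast_sub, smul_sub, add_sub_assoc]

/-- The finitely many planes of an almost rigid tile. -/
theorem exists_planes {d : ℕ} (hd : 1 ≤ d) {F : Finset (Pt d)} (hF : AlmostRigid F) :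
    ∃ (M n : ℕ) (P : Fin n → PForm d), 0 < M ∧ 0 < n ∧ Distinct P ∧ Killed P M F := by
  classical
  let Sig := {σ : F → F // ∀ f, σ f ≠ f}
  choose form hform using fun σ : Sig => exists_form hd _ (hF σ.1 σ.2)
  have h1 : ∀ (σ : Sig) (i : Fin d), ∃ k : ℕ, 0 < k ∧
      k • (form σ).proj (Pi.single i 1) ∈ periods (pairIdeal σ.1) := by
    intro σ i
    have hv := hform σ _ ((form σ).l_proj (Pi.single i 1))
    rcases Nat.eq_zero_or_pos F.card with h0 | h0
    · refine ⟨1, one_pos, ?_⟩
      have : IsEmpty F := ⟨fun f => by have := card_pos.2 ⟨_, f.2⟩; omega⟩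
      rw [Set.range_eq_empty, Submodule.span_empty, Submodule.mem_bot] at hv
      have hz : (form σ).proj (Pi.single i 1) = 0 := funext fun j => by
        simpa [toRat] using congrFun hv j
      rw [hz, smul_zero]
      exact zero_mem _
    · obtain ⟨k, hk, hmem⟩ := exists_nsmul_mem_span ((periods (pairIdeal σ.1)).comap
          (nsmulAddMonoidHom F.card)) (by
            rintro w ⟨f, rfl⟩; exact ⟨_, Ideal.subset_span ⟨f, rfl⟩, rfl⟩) hv
      exact ⟨F.card * k, Nat.mul_pos h0 hk, by rw [mul_smul]; exact hmem⟩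
  choose k hk hkmem using h1
  set N := ∏ σ, ∏ i, k σ i with hN
  have hper : ∀ (σ : Sig) (v : Pt d), (form σ).l v = 0 → N • v ∈ periods (pairIdeal σ.1) := by
    intro σ v hv
    let q : Pt d →+ Pt d := AddMonoidHom.mk' (form σ).proj (form σ).proj_add
    have hdec : v = ∑ i, v i • q (Pi.single i 1) := by
      conv_lhs => rw [← (form σ).proj_eq hv]
      change q v = _
      conv_lhs => rw [← Finset.univ_sum_single v, map_sum]
      refine sum_congr rfl fun i _ => ?_
      rw [← map_zsmul, ← Pi.single_smul, smul_eq_mul, mul_one]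
    rw [hdec, smul_sum]
    refine sum_mem fun i _ => ?_
    obtain ⟨c, hc⟩ : k σ i ∣ N :=
      dvd_trans (dvd_prod_of_mem (k σ) (mem_univ i))
        (dvd_prod_of_mem (fun τ => ∏ i, k τ i) (mem_univ σ))
    rw [smul_comm, hc, mul_comm, mul_smul]
    exact AddSubgroup.zsmul_mem _ (AddSubgroup.nsmul_mem _ (hkmem σ i) _) _
  let coord : PForm d :=
    ⟨Pi.evalAddMonoidHom (fun _ => ℤ) ⟨0, hd⟩, Pi.single ⟨0, hd⟩ 1, by simp⟩
  let all : Option Sig → PForm d := fun o => o.elim coord form
  set T : Finset (AddSubgroup (Pt d)) := univ.image fun o => (all o).l.ker with hT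
  have hrep : ∀ t : T, ∃ o, (all o).l.ker = t.1 := fun t => by
    obtain ⟨o, -, ho⟩ := mem_image.1 t.2
    exact ⟨o, ho⟩
  choose rep hrep using hrep
  let e := T.equivFin.symm
  let P : Fin T.card → PForm d := fun i => all (rep (e i))
  have hP : ∀ i, (P i).l.ker = (e i).1 := fun i => hrep (e i)
  have hidx : ∀ o, ∃ i, (P i).l.ker = (all o).l.ker := fun o =>
    ⟨e.symm ⟨_, mem_image_of_mem _ (mem_univ o)⟩, by rw [hP, e.apply_symm_apply]⟩
  refine ⟨N, T.card, P, prod_pos fun σ _ => prod_pos fun i _ => hk σ i,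
    card_pos.2 (univ_nonempty.image _), fun i j hij => ?_, fun A hA c v hv => ?_⟩
  · by_contra hcon
    push Not at hcon
    have h2 : ∀ z, (P i).l z = (P j).l z * (P i).l (P j).u := fun z => by
      have h := hcon _ ((P j).l_proj z)
      rw [PForm.proj, map_sub, map_zsmul, smul_eq_mul, sub_eq_zero] at h
      exact h
    have h3 : (P i).l (P j).u ≠ 0 := fun h => by
      have := h2 (P i).u
      rw [(P i).hu, h, mul_zero] at this
      exact one_ne_zero this
    refine hij (e.injective (Subtype.ext ?_))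
    rw [← hP, ← hP]
    ext z
    rw [AddMonoidHom.mem_ker, AddMonoidHom.mem_ker, h2 z, mul_eq_zero, or_iff_left h3]
  · set φ : Pt d → ℤ := fun x => if x ∈ A then 1 else 0 with hφ
    have hφ0 : ∀ x, 0 ≤ φ x := fun x => by simp only [φ]; split_ifs <;> norm_num
    have heq : Eqn (fun i : F => (i : Pt d)) φ := by
      intro x
      obtain ⟨⟨a0, f0⟩, ⟨ha, hf, haf⟩, huniq⟩ := hA x
      rw [sum_eq_single (⟨f0, hf⟩ : F)]
      · simp [φ, show x - f0 = a0 by rw [← haf]; abel, ha]
      · intro b _ hb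
        simp only [φ, ite_eq_right_iff]
        intro hbA
        refine absurd (Subtype.ext ?_) hb
        exact congrArg Prod.snd (huniq (x - b, b) ⟨hbA, b.2, by simp⟩)
      · simp
    have hB : ∀ x, |φ x| ≤ 1 := fun x => by simp only [φ]; split_ifs <;> norm_num
    choose idx hidx using hidx
    set x : Fin T.card → TR d := fun i => mono (N • v i) - 1 with hx
    have hdec := vandermonde_ann hφ0 heq (N • v (idx none))
    simp only [Fintype.card_coe] at hdec
    have hmem := prod_mem_ann hdec (fun σ : Sig => x (idx (some σ))) fun σ => by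
      have h0 : v (idx (some σ)) ∈ (P (idx (some σ))).l.ker := hv _
      rw [hidx] at h0
      exact hper σ _ h0
    rw [mem_ann, ← act_mul, ← mem_ann] at hmem
    have hdvd : (∏ σ : Sig, x (idx (some σ))) * x (idx none) ∣
        ∏ i, x i ^ (Fintype.card Sig + 1) := by
      rw [prod_pow, pow_succ]
      refine mul_dvd_mul ?_ (dvd_prod_of_mem x (mem_univ _))
      rw [← card_univ, ← prod_const]
      exact prod_dvd_prod_of_dvd _ _ fun σ _ => dvd_prod_of_mem x (mem_univ _)
    have hkill := mem_ann.1 (Ideal.mem_of_dvd _ hdvd hmem)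
    have hred := prod_diff_of_pow (fun i => N • v i) hB hkill
    have hcls : clsFn A N c = fun y => (φ (c + N • y) : ℝ) := by
      funext y
      simp only [clsFn, φ]
      split_ifs <;> simp
    rw [hcls, act_cls, hred]
    funext y
    simp

/-- In dimension three a tile is almost rigid if every direction leaves some point alone on its
line. -/
theorem almostRigid_three {F : Finset (Pt 3)}
    (h : ∀ v : Pt 3, v ≠ 0 → ∃ f ∈ F, ∀ g ∈ F, g ≠ f → ∀ a b : ℤ, b ≠ 0 → b • (g - f) ≠ a • v) :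
    AlmostRigid F := by
  intro σ hσ
  by_contra hlt
  set S := Submodule.span ℚ (Set.range fun f : F => toRat ((f : Pt 3) - (σ f : Pt 3))) with hS
  obtain ⟨f₀, hf₀, -⟩ := h (Pi.single 0 1) (fun he => by simpa using congrFun he 0)
  set v : Pt 3 := f₀ - (σ ⟨f₀, hf₀⟩ : Pt 3) with hvdef
  have hv0 : v ≠ 0 := fun he => hσ ⟨f₀, hf₀⟩ (Subtype.ext (sub_eq_zero.1 he).symm)
  have hr0 : toRat v ≠ 0 := fun he => hv0 (funext fun i => by
    simpa [toRat] using congrFun he i)
  have heq : Submodule.span ℚ {toRat v} = S := by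
    refine Submodule.eq_of_le_of_finrank_le ?_ ?_
    · rw [Submodule.span_le, Set.singleton_subset_iff]
      exact Submodule.subset_span ⟨⟨f₀, hf₀⟩, rfl⟩
    · rw [finrank_span_singleton hr0]
      omega
  obtain ⟨f, hf, hfar⟩ := h v hv0
  have hfS : toRat (f - (σ ⟨f, hf⟩ : Pt 3)) ∈ Submodule.span ℚ {toRat v} :=
    heq ▸ Submodule.subset_span ⟨⟨f, hf⟩, rfl⟩
  obtain ⟨q, hq⟩ := Submodule.mem_span_singleton.1 hfS
  refine hfar _ (σ ⟨f, hf⟩).2 (fun he => hσ ⟨f, hf⟩ (Subtype.ext he)) (-q.num) q.den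
    (by exact_mod_cast q.den_nz) (funext fun i => ?_)
  have h1 := congrFun hq i
  simp only [toRat, Pi.smul_apply, Pi.sub_apply, smul_eq_mul, Int.cast_sub] at h1
  have h2 : ((((q.den : ℤ) • ((σ ⟨f, hf⟩ : Pt 3) - f)) i : ℤ) : ℚ) = ((((-q.num) • v) i : ℤ) : ℚ) := by
    simp only [Pi.smul_apply, Pi.sub_apply, smul_eq_mul]
    push_cast
    linear_combination (q.den : ℚ) * h1 - (v i : ℚ) * Rat.mul_den_eq_num q
  exact_mod_cast h2

end Vale.Agent.P043
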