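import Vale.Agent.P043.Tiling

/-! Rigid tiles only have periodic tilings. -/

namespace Vale.Agent.P043

open Finset

variable {d : ℕ}

/-- `A ⊕ F` is the whole lattice: every point is `a + f` in exactly one way. -/
def IsTiling (A : Set (Pt d)) (F : Finset (Pt d)) : Prop :=
  ∀ g, ∃! p : Pt d × Pt d, p.1 ∈ A ∧ p.2 ∈ F ∧ p.1 + p.2 = g

/-- The coordinate inclusion into rational space. -/
def toRat (v : Pt d) : Fin d → ℚ := fun i => (v i : ℚ)

/-- `F` is rigid: however each element is paired with another element, the differences of the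
pairs span the whole space. -/
def Rigid (F : Finset (Pt d)) : Prop :=
  ∀ σ : F → F, (∀ f, σ f ≠ f) →
    Submodule.span ℚ (Set.range fun f : F => toRat ((f : Pt d) - (σ f : Pt d))) = ⊤

/-- The group of periods modulo an ideal of the translation ring. -/
def periods (J : Ideal (TR d)) : AddSubgroup (Pt d) where
  carrier := {v | mono v - 1 ∈ J}
  add_mem' {v w} hv hw := by
    have : mono (v + w) - 1 = mono v * (mono w - 1) + (mono v - 1) := by rw [mono_add]; ring
    simp only [Set.mem_ofPred_eq] at *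
    rw [this]
    exact add_mem (J.mul_mem_left _ hw) hv
  zero_mem' := by simp [mono_zero]
  neg_mem' {v} hv := by
    have : mono (-v) - 1 = -(mono (-v) * (mono v - 1)) := by
      rw [mul_sub, ← mono_add, neg_add_cancel, mono_zero]; ring
    simp only [Set.mem_ofPred_eq] at *
    rw [this]
    exact neg_mem (J.mul_mem_left _ hv)

theorem exists_nsmul_mem (H : AddSubgroup (Pt d)) {S : Set (Fin d → ℚ)}
    (hS : ∀ w ∈ S, ∃ u ∈ H, toRat u = w) (hspan : Submodule.span ℚ S = ⊤) (v : Pt d) :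
    ∃ n : ℕ, 0 < n ∧ n • v ∈ H := by
  have key : ∀ w ∈ Submodule.span ℚ S, ∃ n : ℕ, 0 < n ∧ ∃ u ∈ H, toRat u = (n : ℚ) • w := by
    intro w hw
    induction hw using Submodule.span_induction with
    | mem w hw => obtain ⟨u, hu, rfl⟩ := hS w hw; exact ⟨1, one_pos, u, hu, by simp⟩
    | zero => exact ⟨1, one_pos, 0, zero_mem H, by ext i; simp [toRat]⟩
    | add a b _ _ ha hb =>
      obtain ⟨n, hn, u, hu, hu'⟩ := ha
      obtain ⟨m, hm, z, hz, hz'⟩ := hb
      refine ⟨n * m, Nat.mul_pos hn hm, m • u + n • z,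
        add_mem (H.nsmul_mem hu m) (H.nsmul_mem hz n), ?_⟩
      ext i
      have h1 := congrFun hu' i
      have h2 := congrFun hz' i
      simp [toRat] at h1 h2 ⊢
      rw [h1, h2]; ring
    | smul c a _ ha =>
      obtain ⟨n, hn, u, hu, hu'⟩ := ha
      refine ⟨n * c.den, Nat.mul_pos hn c.den_pos, c.num • u, H.zsmul_mem hu _, ?_⟩
      ext i
      have h1 := congrFun hu' i
      simp [toRat] at h1 ⊢
      rw [h1, ← Rat.mul_den_eq_num c]; ring
  obtain ⟨n, hn, u, hu, hu'⟩ := key (toRat v) (by rw [hspan]; trivial)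
  refine ⟨n, hn, ?_⟩
  convert hu
  funext i
  have := congrFun hu' i
  simp only [toRat, Pi.smul_apply, smul_eq_mul] at this
  exact_mod_cast this.symm

/-- The ideal of the differences prescribed by a pairing. -/
noncomputable def pairIdeal {F : Finset (Pt d)} (σ : F → F) : Ideal (TR d) :=
  Ideal.span (Set.range fun f : F => mono (F.card • ((f : Pt d) - (σ f : Pt d))) - 1)

theorem exists_period {F : Finset (Pt d)} (hF : Rigid F) :
    ∃ N : ℕ, 0 < N ∧ ∀ σ : {σ : F → F // ∀ f, σ f ≠ f}, ∀ v : Pt d,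
      mono (N • v) - 1 ∈ pairIdeal σ.1 := by
  classical
  have h1 : ∀ (σ : {σ : F → F // ∀ f, σ f ≠ f}) (i : Fin d),
      ∃ n : ℕ, 0 < n ∧ n • (Pi.single i 1 : Pt d) ∈ periods (pairIdeal σ.1) := by
    intro σ i
    obtain ⟨n, hn, hmem⟩ := exists_nsmul_mem ((periods (pairIdeal σ.1)).comap
        (nsmulAddMonoidHom F.card)) (S := Set.range fun f : F => toRat ((f : Pt d) - (σ.1 f : Pt d)))
      (by rintro w ⟨f, rfl⟩; exact ⟨_, Ideal.subset_span ⟨f, rfl⟩, rfl⟩) (hF σ.1 σ.2)
      (Pi.single i 1)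
    rcases Nat.eq_zero_or_pos F.card with h0 | h0
    · refine absurd (hF σ.1 σ.2) ?_
      have : IsEmpty F := ⟨fun f => by have := card_pos.2 ⟨_, f.2⟩; omega⟩
      rw [Set.range_eq_empty, Submodule.span_empty]
      intro hbot
      have : (Pi.single i 1 : Fin d → ℚ) ∈ (⊥ : Submodule ℚ (Fin d → ℚ)) := by rw [hbot]; trivial
      simp at this
    · exact ⟨F.card * n, Nat.mul_pos h0 hn, by rw [mul_smul]; exact hmem⟩
  choose n hn hmem using h1
  refine ⟨∏ σ, ∏ i, n σ i, prod_pos fun σ _ => prod_pos fun i _ => hn σ i, fun σ v => ?_⟩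
  show (∏ σ, ∏ i, n σ i) • v ∈ periods (pairIdeal σ.1)
  rw [← Finset.univ_sum_single v, smul_sum]
  refine sum_mem fun i _ => ?_
  obtain ⟨c, hc⟩ : n σ i ∣ ∏ σ, ∏ i, n σ i :=
    dvd_trans (dvd_prod_of_mem (n σ) (mem_univ i))
      (dvd_prod_of_mem (fun τ => ∏ i, n τ i) (mem_univ σ))
  have : (Pi.single i (v i) : Pt d) = v i • Pi.single i 1 := by
    rw [← Pi.single_smul, smul_eq_mul, mul_one]
  rw [this, smul_comm, hc, mul_comm, mul_smul]
  exact AddSubgroup.zsmul_mem _ (AddSubgroup.nsmul_mem _ (hmem σ i) _) _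

/-- A product over all pairings of members of their ideals is a multiple of a full factor. -/
theorem prod_mem_ann {F : Finset (Pt d)} {φ : Pt d → ℤ}
    (h : ∀ f : F, ∏ g ∈ univ.erase f, (mono (F.card • ((f : Pt d) - (g : Pt d))) - 1) ∈ ann φ)
    (y : {σ : F → F // ∀ f, σ f ≠ f} → TR d)
    (hy : ∀ σ, y σ ∈ pairIdeal σ.1) : ∏ σ, y σ ∈ ann φ := by
  classical
  have hy' : ∀ σ, ∃ c : F → TR d,
      ∑ f, c f * (mono (F.card • ((f : Pt d) - (σ.1 f : Pt d))) - 1) = y σ := fun σ => by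
    simpa only [smul_eq_mul] using (Submodule.mem_span_range_iff_exists_fun _).1 (hy σ)
  choose c hc using hy'
  simp only [← hc, prod_univ_sum]
  refine sum_mem fun sel _ => ?_
  rw [prod_mul_distrib]
  refine (ann φ).mul_mem_left _ ?_
  obtain ⟨f, hf⟩ : ∃ f : F, ∀ g : F, g ≠ f → ∃ σ, sel σ = f ∧ σ.1 f = g := by
    by_contra hcon
    push Not at hcon
    choose τ hτne hτ using hcon
    exact hτ (sel ⟨τ, hτne⟩) ⟨τ, hτne⟩ rfl rfl
  choose s hs1 hs2 using hf
  have hsub : ∏ g ∈ univ.erase f, (mono (F.card • ((f : Pt d) - (g : Pt d))) - 1) ∣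
      ∏ σ, (mono (F.card • ((sel σ : Pt d) - (σ.1 (sel σ) : Pt d))) - 1) := by
    refine dvd_trans (dvd_of_eq ?_) (prod_dvd_prod_of_subset
      ((univ.erase f).attach.image fun g => s g.1 (mem_erase.1 g.2).1) univ _ (subset_univ _))
    rw [prod_image (fun g _ g' _ hgg => Subtype.ext (by
      have h1 := hs2 g.1 (mem_erase.1 g.2).1
      rw [hgg, hs2 g'.1 (mem_erase.1 g'.2).1] at h1
      exact h1.symm)), ← prod_attach (univ.erase f)]
    exact prod_congr rfl fun g _ => by rw [hs1, hs2]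
  exact Ideal.mem_of_dvd _ hsub (h f)

theorem rigid_periodic {F : Finset (Pt d)} (hF : Rigid F) :
    ∃ N : ℕ, 0 < N ∧ ∀ A, IsTiling A F → ∀ v a : Pt d, a + N • v ∈ A ↔ a ∈ A := by
  classical
  obtain ⟨N, hN, hper⟩ := exists_period hF
  refine ⟨N, hN, fun A hA v a => ?_⟩
  set φ : Pt d → ℤ := fun x => if x ∈ A then 1 else 0 with hφ
  have hφ0 : ∀ x, 0 ≤ φ x := fun x => by simp only [φ]; split_ifs <;> norm_num
  have heq : Eqn (fun i : F => (i : Pt d)) φ := by
    intro x
    obtain ⟨⟨a0, f0⟩, ⟨ha, hf, haf⟩, huniq⟩ := hA x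
    rw [sum_eq_single (⟨f0, hf⟩ : F)]
    · simp [φ, show x - f0 = a0 by rw [← haf]; abel, ha]
    · intro b _ hb
      simp only [φ, ite_eq_right_iff]
      intro hbA
      refine absurd (Subtype.ext ?_) hb
      exact congrArg Prod.snd (huniq (x - b, b) ⟨hbA, b.2, by simp⟩)
    · simp
  have hB : ∀ x, |φ x| ≤ 1 := fun x => by simp only [φ]; split_ifs <;> norm_num
  have hdec := vandermonde_ann hφ0 heq (N • v)
  simp only [Fintype.card_coe] at hdec
  have hmem := prod_mem_ann hdec (fun _ => mono (N • v) - 1) (fun σ => hper σ v)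
  rw [prod_const, mem_ann, ← act_mul, ← pow_succ] at hmem
  have h1 := congrFun (diff_of_pow hB (N • v) hmem) (a + N • v)
  rw [act_sub, Pi.sub_apply, act_one, act_mono, add_sub_cancel_right, Pi.zero_apply] at h1
  simp only [φ] at h1
  split_ifs at h1 <;> simp_all

end Vale.Agent.P043
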