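import Vale.Agent.P043.Action

/-! Dilation of tilings and the annihilator of a tiling. -/

namespace Vale.Agent.P043

open Finset

variable {d : ℕ} {ι : Type*} [Fintype ι]

/-- The tiling equation for the indicator. -/
def Eqn (e : ι → Pt d) (φ : Pt d → ℤ) : Prop := ∀ x, ∑ i, φ (x - e i) = 1

theorem act_sum_mono_const (e : ι → Pt d) (c : ℤ) :
    act (∑ i, mono (e i)) (fun _ => c) = fun _ => (Fintype.card ι : ℤ) * c := by
  funext x
  rw [act_sum_mono]
  simp

theorem act_pow_eqn {e : ι → Pt d} {φ : Pt d → ℤ} (h : Eqn e φ) (n : ℕ) :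
    act ((∑ i, mono (e i)) ^ (n + 1)) φ = fun _ => (Fintype.card ι : ℤ) ^ n := by
  induction n with
  | zero => funext x; simp only [Nat.zero_add, pow_one, pow_zero]; rw [act_sum_mono]; exact h x
  | succ n ih =>
    rw [pow_succ' _ (n + 1), act_mul, ih, act_sum_mono_const]
    funext x
    ring

omit [Fintype ι] in
theorem sum_pow_prime {R : Type*} [CommRing R] {p : ℕ} (hp : p.Prime) (s : Finset ι) (f : ι → R) :
    ∃ r, (∑ i ∈ s, f i) ^ p = ∑ i ∈ s, f i ^ p + p * r := by
  classical
  induction s using Finset.induction with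
  | empty => exact ⟨0, by simp [zero_pow hp.ne_zero]⟩
  | insert a s ha ih =>
    obtain ⟨r, hr⟩ := ih
    obtain ⟨r', hr'⟩ := exists_add_pow_prime_eq hp (f a) (∑ i ∈ s, f i)
    exact ⟨r + f a * (∑ i ∈ s, f i) * r', by rw [sum_insert ha, sum_insert ha, hr', hr]; ring⟩

theorem dilate_prime {e : ι → Pt d} {φ : Pt d → ℤ} (hφ : ∀ x, 0 ≤ φ x) (h : Eqn e φ) {p : ℕ}
    (hp : p.Prime) (hpk : ¬ p ∣ Fintype.card ι) : Eqn (fun i => p • e i) φ := by
  obtain ⟨r, hr⟩ := sum_pow_prime hp univ (fun i => mono (e i))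
  simp only [mono_nsmul] at hr
  set b := act (∑ i, mono (p • e i)) φ with hb
  have hk : act ((∑ i, mono (e i)) ^ p) φ = fun _ => (Fintype.card ι : ℤ) ^ (p - 1) := by
    have := act_pow_eqn h (p - 1)
    rwa [Nat.sub_add_cancel hp.one_lt.le] at this
  have hb1 : ∀ x, 1 ≤ b x := by
    intro x
    have hb0 : 0 ≤ b x := by rw [hb, act_sum_mono]; exact sum_nonneg fun i _ => hφ _
    by_contra hc
    have hbx : b x = 0 := by omega
    rw [hr, act_add, act_mul, act_natCast, ← hb] at hk
    have h2 := congrFun hk x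
    simp only [Pi.add_apply, Pi.smul_apply, smul_eq_mul, hbx, zero_add] at h2
    have h3 : (p : ℤ) ∣ (Fintype.card ι : ℤ) ^ (p - 1) := ⟨_, h2.symm⟩
    exact hpk (hp.dvd_of_dvd_pow (Int.natCast_dvd_natCast.1 (by exact_mod_cast h3)))
  intro x
  have hsum : ∀ y, ∑ i, b (y - e i) = Fintype.card ι := by
    intro y
    have h1 : act (∑ i, mono (e i)) b = act (∑ i, mono (p • e i)) (act (∑ i, mono (e i)) φ) := by
      rw [hb, ← act_mul, ← act_mul, mul_comm]
    have h2 : act (∑ i, mono (e i)) φ = fun _ => 1 := by funext z; rw [act_sum_mono]; exact h z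
    rw [h2, act_sum_mono_const] at h1
    simpa [act_sum_mono] using congrFun h1 y
  rcases isEmpty_or_nonempty ι with hι | ⟨⟨i0⟩⟩
  · exact absurd (by simp) hpk
  have hall : ∀ y, b y = 1 := by
    intro y
    have h1 : ∑ i, (b (y + e i0 - e i) - 1) = 0 := by simp [hsum]
    have := (sum_eq_zero_iff_of_nonneg fun i _ => by linarith [hb1 (y + e i0 - e i)]).1 h1 i0
      (mem_univ _)
    rw [add_sub_cancel_right] at this
    linarith
  rw [← hall x, hb, act_sum_mono]

theorem dilate {e : ι → Pt d} {φ : Pt d → ℤ} (hφ : ∀ x, 0 ≤ φ x) (h : Eqn e φ) :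
    ∀ r : ℕ, 0 < r → Nat.Coprime r (Fintype.card ι) → Eqn (fun i => r • e i) φ := by
  intro r
  induction r using induction_on_primes generalizing e with
  | zero => intro h0; omega
  | one => intro _ _; simpa using h
  | prime_mul p a hp ih =>
    intro h0 hc
    have hap : 0 < a := Nat.pos_of_mul_pos_left h0
    have h1 := ih h hap (Nat.Coprime.coprime_mul_left hc)
    have h2 := dilate_prime hφ h1 hp
      ((Nat.Prime.coprime_iff_not_dvd hp).1 (Nat.Coprime.coprime_mul_right hc))
    simpa [mul_smul] using h2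

theorem vandermonde_ann [DecidableEq ι] {e : ι → Pt d} {φ : Pt d → ℤ} (hφ : ∀ x, 0 ≤ φ x)
    (h : Eqn e φ) (w : Pt d) (f : ι) :
    ∏ g ∈ univ.erase f, (mono (Fintype.card ι • (e f - e g)) - 1)
      ∈ ann (act (mono w - 1) φ) := by
  set k := Fintype.card ι
  set U : ι → TR d := fun i => mono (k • e i)
  have hgen : ∀ j : ℕ, ∑ i, mono (e i) * U i ^ j ∈ ann (act (mono w - 1) φ) := by
    intro j
    have e1 : ∀ i, mono (e i) * U i ^ j = mono ((1 + j * k) • e i) := fun i => by
      simp only [U, mono_nsmul, ← mono_add, add_smul, one_smul, mul_smul]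
    simp only [e1]
    rw [mem_ann, ← act_mul, mul_comm, act_mul]
    have h2 : act (∑ i, mono ((1 + j * k) • e i)) φ = fun _ => 1 := by
      funext z
      rw [act_sum_mono]
      exact dilate hφ h _ (by omega) (by simp [k]) z
    rw [h2]
    funext z
    simp [act_sub, act_one, act_mono]
  have hpoly : ∀ q : Polynomial (TR d),
      ∑ i, mono (e i) * q.eval (U i) ∈ ann (act (mono w - 1) φ) := by
    intro q
    induction q using Polynomial.induction_on' with
    | add a b ha hb => simpa [mul_add, sum_add_distrib] using add_mem ha hb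
    | monomial n c =>
      convert (ann _).mul_mem_left c (hgen n) using 1
      rw [mul_sum]
      exact sum_congr rfl fun i _ => by rw [Polynomial.eval_monomial]; ring
  have h3 := hpoly (∏ g ∈ univ.erase f, (Polynomial.X - Polynomial.C (U g)))
  simp only [Polynomial.eval_prod, Polynomial.eval_sub, Polynomial.eval_X, Polynomial.eval_C] at h3
  rw [sum_eq_single f (fun i _ hi => by
    rw [prod_eq_zero (mem_erase.2 ⟨hi, mem_univ i⟩) (sub_self _), mul_zero]) (by simp)] at h3
  have e2 : ∀ g, mono (k • (e f - e g)) - 1 = mono (-(k • e g)) * (U f - U g) := fun g => by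
    rw [mul_sub, ← mono_add, ← mono_add, neg_add_cancel, mono_zero, smul_sub]
    congr 2
    abel
  simp only [e2, prod_mul_distrib]
  have := (ann _).mul_mem_left ((∏ g ∈ univ.erase f, mono (-(k • e g))) * mono (-e f)) h3
  convert this using 1
  rw [mul_assoc, ← mul_assoc (mono (-e f)), ← mono_add, neg_add_cancel, mono_zero, one_mul]

end Vale.Agent.P043
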