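import Mathlib

/-!
Vanishing sums of roots of unity of order a product of two primes.
-/

namespace Vale.Agent.P043

open Finset

/-- The products of powers of primitive roots of two distinct prime orders, with the last powers
left out, are linearly independent over the rationals. -/
theorem linearIndependent_two_prime {P Q : ℕ} (hP : P.Prime) (hQ : Q.Prime) (hne : P ≠ Q)
    {ω η : ℂ} (hω : IsPrimitiveRoot ω P) (hη : IsPrimitiveRoot η Q) :
    LinearIndependent ℚ fun x : Fin (P - 1) × Fin (Q - 1) => ω ^ (x.1 : ℕ) * η ^ (x.2 : ℕ) := by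
  classical
  set v : Fin (P - 1) × Fin (Q - 1) → ℂ := fun x => ω ^ (x.1 : ℕ) * η ^ (x.2 : ℕ) with hv
  have hcop : Nat.Coprime P Q := (Nat.coprime_primes hP hQ).2 hne
  have hζ : IsPrimitiveRoot (ω * η) (P * Q) := by
    have hco : Nat.Coprime (orderOf ω) (orderOf η) := by rwa [← hω.eq_orderOf, ← hη.eq_orderOf]
    rw [show P * Q = orderOf (ω * η) by
      rw [(Commute.all ω η).orderOf_mul_eq_mul_orderOf_of_coprime hco, ← hω.eq_orderOf,
        ← hη.eq_orderOf]]
    exact IsPrimitiveRoot.orderOf _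
  have red : ∀ {R : ℕ} {ρ : ℂ}, R.Prime → IsPrimitiveRoot ρ R → ∀ a,
      ρ ^ a ∈ Submodule.span ℚ (Set.range fun i : Fin (R - 1) => ρ ^ (i : ℕ)) := by
    intro R ρ hR hρ a
    have hmod : ρ ^ a = ρ ^ (a % R) := by
      conv_lhs => rw [← Nat.mod_add_div a R, pow_add, pow_mul, hρ.pow_eq_one, one_pow, mul_one]
    rw [hmod]
    have hlt : a % R < R := Nat.mod_lt _ hR.pos
    by_cases h : a % R < R - 1
    · exact Submodule.subset_span ⟨⟨a % R, h⟩, rfl⟩
    · have e : a % R = R - 1 := by omega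
      have hsum := hρ.geom_sum_eq_zero hR.one_lt
      rw [show R = R - 1 + 1 by have := hR.pos; omega, Finset.sum_range_succ] at hsum
      rw [e, show ρ ^ (R - 1) = -∑ i ∈ Finset.range (R - 1), ρ ^ i by linear_combination hsum]
      exact Submodule.neg_mem _ (Submodule.sum_mem _ fun i hi =>
        Submodule.subset_span ⟨⟨i, Finset.mem_range.1 hi⟩, rfl⟩)
  have hmul : ∀ x ∈ Submodule.span ℚ (Set.range fun i : Fin (P - 1) => ω ^ (i : ℕ)),
      ∀ y ∈ Submodule.span ℚ (Set.range fun i : Fin (Q - 1) => η ^ (i : ℕ)),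
        x * y ∈ Submodule.span ℚ (Set.range v) := by
    intro x hx y hy
    induction hx using Submodule.span_induction with
    | mem x hx =>
      obtain ⟨i, rfl⟩ := hx
      induction hy using Submodule.span_induction with
      | mem y hy => obtain ⟨j, rfl⟩ := hy; exact Submodule.subset_span ⟨(i, j), rfl⟩
      | zero => rw [mul_zero]; exact zero_mem _
      | add y z _ _ hy hz => rw [mul_add]; exact add_mem hy hz
      | smul c y _ hy => rw [mul_smul_comm]; exact Submodule.smul_mem _ c hy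
    | zero => rw [zero_mul]; exact zero_mem _
    | add x z _ _ hx hz => rw [add_mul]; exact add_mem hx hz
    | smul c x _ hx => rw [smul_mul_assoc]; exact Submodule.smul_mem _ c hx
  have hint : IsIntegral ℚ (ω * η) :=
    ((hζ.isIntegral (Nat.mul_pos hP.pos hQ.pos)).tower_top : IsIntegral ℚ (ω * η))
  have hdeg : (minpoly ℚ (ω * η)).natDegree = (P - 1) * (Q - 1) := by
    rw [← Polynomial.cyclotomic_eq_minpoly_rat hζ (Nat.mul_pos hP.pos hQ.pos),
      Polynomial.natDegree_cyclotomic, Nat.totient_mul hcop, Nat.totient_prime hP,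
      Nat.totient_prime hQ]
  have hli := linearIndependent_pow (K := ℚ) (ω * η)
  have hle : Submodule.span ℚ
      (Set.range fun i : Fin (minpoly ℚ (ω * η)).natDegree => (ω * η) ^ (i : ℕ)) ≤
        Submodule.span ℚ (Set.range v) := by
    rw [Submodule.span_le]
    rintro _ ⟨i, rfl⟩
    rw [SetLike.mem_coe]
    beta_reduce
    rw [mul_pow]
    exact hmul _ (red hP hω _) _ (red hQ hη _)
  rw [linearIndependent_iff_card_le_finrank_span]
  have : Module.Finite ℚ (Submodule.span ℚ (Set.range v)) :=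
    Module.Finite.span_of_finite ℚ (Set.finite_range v)
  have h := Submodule.finrank_mono hle
  rw [finrank_span_eq_card hli, Fintype.card_fin, hdeg] at h
  simpa [Set.finrank] using h

/-- A vanishing nonnegative combination of roots of unity of order a product of two primes is a
nonnegative combination of the two kinds of full cycles. -/
theorem two_prime_decomp {P Q : ℕ} (hP : P.Prime) (hQ : Q.Prime) (hne : P ≠ Q)
    {ω η : ℂ} (hω : IsPrimitiveRoot ω P) (hη : IsPrimitiveRoot η Q) (f : Fin P → Fin Q → ℕ)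
    (h : ∑ a, ∑ b, (f a b : ℂ) * (ω ^ (a : ℕ) * η ^ (b : ℕ)) = 0) :
    ∃ (g : Fin P → ℕ) (k : Fin Q → ℕ), ∀ a b, f a b = g a + k b := by
  classical
  set a₁ : Fin P := ⟨P - 1, by have := hP.pos; omega⟩
  set b₁ : Fin Q := ⟨Q - 1, by have := hQ.pos; omega⟩
  let c : Fin P → Fin Q → ℚ := fun a b => (f a b : ℚ) - f a₁ b - f a b₁ + f a₁ b₁
  have hsω : ∑ a : Fin P, ω ^ (a : ℕ) = 0 := by
    rw [Fin.sum_univ_eq_sum_range]; exact hω.geom_sum_eq_zero hP.one_lt
  have hsη : ∑ b : Fin Q, η ^ (b : ℕ) = 0 := by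
    rw [Fin.sum_univ_eq_sum_range]; exact hη.geom_sum_eq_zero hQ.one_lt
  have hc : ∑ a, ∑ b, (c a b : ℂ) * (ω ^ (a : ℕ) * η ^ (b : ℕ)) = 0 := by
    have e1 : ∀ F : Fin Q → ℂ, ∑ a : Fin P, ∑ b : Fin Q, F b * (ω ^ (a : ℕ) * η ^ (b : ℕ)) = 0 := by
      intro F
      rw [Finset.sum_comm]
      refine Finset.sum_eq_zero fun b _ => ?_
      simp only [mul_left_comm (F b), ← Finset.sum_mul, hsω, zero_mul]
    have e2 : ∀ F : Fin P → ℂ, ∑ a : Fin P, ∑ b : Fin Q, F a * (ω ^ (a : ℕ) * η ^ (b : ℕ)) = 0 := by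
      intro F
      refine Finset.sum_eq_zero fun a _ => ?_
      simp only [← mul_assoc, ← Finset.mul_sum, hsη, mul_zero]
    simp only [c, Rat.cast_add, Rat.cast_sub, Rat.cast_natCast, add_mul, sub_mul,
      Finset.sum_add_distrib, Finset.sum_sub_distrib]
    rw [h, e1 (fun b => (f a₁ b : ℂ)), e2 (fun a => (f a b₁ : ℂ)),
      e1 (fun _ => (f a₁ b₁ : ℂ))]
    ring
  have hzero : ∀ a b, c a b = 0 := by
    have hc1 : ∀ b, c a₁ b = 0 := fun b => by simp only [c]; ring
    have hc2 : ∀ a, c a b₁ = 0 := fun a => by simp only [c]; ring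
    let e : Fin (P - 1) × Fin (Q - 1) → Fin P × Fin Q := fun x =>
      (⟨x.1, by omega⟩, ⟨x.2, by omega⟩)
    have he : Function.Injective e := by
      intro x y hxy
      simp only [e, Prod.mk.injEq, Fin.mk.injEq] at hxy
      exact Prod.ext (Fin.ext hxy.1) (Fin.ext hxy.2)
    have hsum : ∑ x : Fin (P - 1) × Fin (Q - 1),
        c (e x).1 (e x).2 • (ω ^ (x.1 : ℕ) * η ^ (x.2 : ℕ)) = 0 := by
      rw [← hc, ← Fintype.sum_prod_type' (fun (a : Fin P) (b : Fin Q) =>
        (c a b : ℂ) * (ω ^ (a : ℕ) * η ^ (b : ℕ)))]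
      refine Finset.sum_bij_ne_zero (fun x _ _ => e x) (fun _ _ _ => Finset.mem_univ _)
        (fun x _ _ y _ _ hxy => he hxy) ?_ (fun x _ _ => ?_)
      · rintro ⟨a, b⟩ _ hne0
        have ha : (a : ℕ) < P - 1 := by
          by_contra hlt
          have hea : a = a₁ := Fin.ext (show (a : ℕ) = P - 1 by omega)
          simp [hea, hc1] at hne0
        have hb : (b : ℕ) < Q - 1 := by
          by_contra hlt
          have heb : b = b₁ := Fin.ext (show (b : ℕ) = Q - 1 by omega)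
          simp [heb, hc2] at hne0
        exact ⟨(⟨a, ha⟩, ⟨b, hb⟩), Finset.mem_univ _, by simpa [e, Rat.smul_def] using hne0, rfl⟩
      · simp [e, Rat.smul_def]
    have hz := Fintype.linearIndependent_iff.1
      (linearIndependent_two_prime hP hQ hne hω hη) _ hsum
    intro a b
    by_cases ha : (a : ℕ) < P - 1
    · by_cases hb : (b : ℕ) < Q - 1
      · exact hz (⟨a, ha⟩, ⟨b, hb⟩)
      · have heb : b = b₁ := Fin.ext (show (b : ℕ) = Q - 1 by omega)
        rw [heb, hc2]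
    · have hea : a = a₁ := Fin.ext (show (a : ℕ) = P - 1 by omega)
      rw [hea, hc1]
  obtain ⟨a₀, -, hmin⟩ := Finset.univ.exists_min_image (fun a => f a b₁)
    ⟨a₁, Finset.mem_univ _⟩
  refine ⟨fun a => f a b₁ - f a₀ b₁, fun b => f a₀ b, fun a b => ?_⟩
  have h1 := hzero a b
  have h2 := hzero a₀ b
  simp only [c] at h1 h2
  have h3 : f a b + f a₀ b₁ = f a b₁ + f a₀ b := by
    exact_mod_cast (by linarith : (f a b : ℚ) + f a₀ b₁ = f a b₁ + f a₀ b)
  have := hmin a (Finset.mem_univ _)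
  change f a b = f a b₁ - f a₀ b₁ + f a₀ b
  omega

/-- If roots of unity of order a product of two primes sum to zero, their number is a nonnegative
combination of the two primes. -/
theorem two_prime_vanishing {P Q : ℕ} (hP : P.Prime) (hQ : Q.Prime) (hne : P ≠ Q) {ζ : ℂ}
    (hζ : IsPrimitiveRoot ζ (P * Q)) {ι : Type*} [Fintype ι] (x : ι → ℕ)
    (h : ∑ i, ζ ^ x i = 0) : ∃ a c : ℕ, a * P + c * Q = Fintype.card ι := by
  classical
  have hcop : Nat.Coprime P Q := (Nat.coprime_primes hP hQ).2 hne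
  have hPQ : 0 < P * Q := Nat.mul_pos hP.pos hQ.pos
  -- split the exponent by the two primes
  obtain ⟨u, hu⟩ := Nat.exists_mul_mod_eq_one_of_coprime hcop hQ.one_lt
  obtain ⟨w, hw⟩ := Nat.exists_mul_mod_eq_one_of_coprime hcop.symm hP.one_lt
  set ω := ζ ^ Q
  set η := ζ ^ P
  have hω : IsPrimitiveRoot ω P := hζ.pow hPQ (mul_comm P Q)
  have hη : IsPrimitiveRoot η Q := hζ.pow hPQ rfl
  have hsplit : ∀ n : ℕ, ζ ^ n = ω ^ (n * w % P) * η ^ (n * u % Q) := by
    intro n
    rw [← pow_mod_of_isPrimitiveRoot hω, ← pow_mod_of_isPrimitiveRoot hη, ← pow_mul, ← pow_mul,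
      ← pow_add]
    refine pow_eq_pow_mod_of_isPrimitiveRoot hζ ?_
    refine Nat.ModEq.symm ((Nat.modEq_and_modEq_iff_modEq_mul hcop).1 ⟨?_, ?_⟩)
    · have h1 : Q * w ≡ 1 [MOD P] := by
        rw [Nat.ModEq, Nat.mod_eq_of_lt hP.one_lt]; exact hw.2
      have h2 : P * (n * u) ≡ 0 [MOD P] := (Nat.modEq_zero_iff_dvd).2 (dvd_mul_right _ _)
      have := (h1.mul_left n).add h2
      rw [mul_one, add_zero] at this
      rwa [show Q * (n * w) = n * (Q * w) by ring]
    · have h1 : P * u ≡ 1 [MOD Q] := by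
        rw [Nat.ModEq, Nat.mod_eq_of_lt hQ.one_lt]; exact hu.2
      have h2 : Q * (n * w) ≡ 0 [MOD Q] := (Nat.modEq_zero_iff_dvd).2 (dvd_mul_right _ _)
      have := h2.add (h1.mul_left n)
      rw [mul_one, zero_add] at this
      rwa [show P * (n * u) = n * (P * u) by ring]
  let cell : ι → Fin P × Fin Q := fun i =>
    (⟨x i * w % P, Nat.mod_lt _ hP.pos⟩, ⟨x i * u % Q, Nat.mod_lt _ hQ.pos⟩)
  let f : Fin P → Fin Q → ℕ := fun a b => (Finset.univ.filter fun i => cell i = (a, b)).card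
  have hf : ∑ a, ∑ b, (f a b : ℂ) * (ω ^ (a : ℕ) * η ^ (b : ℕ)) = 0 := by
    rw [← h, ← Fintype.sum_prod_type' (fun (a : Fin P) (b : Fin Q) =>
      (f a b : ℂ) * (ω ^ (a : ℕ) * η ^ (b : ℕ))), ← Finset.sum_fiberwise Finset.univ cell]
    refine Finset.sum_congr rfl fun ab _ => ?_
    rw [show (f ab.1 ab.2 : ℂ) * (ω ^ (ab.1 : ℕ) * η ^ (ab.2 : ℕ)) =
        ∑ i ∈ Finset.univ.filter (fun i => cell i = ab), ω ^ (ab.1 : ℕ) * η ^ (ab.2 : ℕ) by
      rw [Finset.sum_const, nsmul_eq_mul]]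
    refine Finset.sum_congr rfl fun i hi => ?_
    rw [← (Finset.mem_filter.1 hi).2, hsplit]
  obtain ⟨g, k, hgk⟩ := two_prime_decomp hP hQ hne hω hη f hf
  refine ⟨∑ b, k b, ∑ a, g a, ?_⟩
  have htot : Fintype.card ι = ∑ ab : Fin P × Fin Q, f ab.1 ab.2 :=
    Finset.card_eq_sum_card_fiberwise fun i _ => Finset.mem_univ (cell i)
  rw [htot, Fintype.sum_prod_type]
  simp only [hgk, Finset.sum_add_distrib, Finset.sum_const, Finset.card_univ, Fintype.card_fin,
    smul_eq_mul, ← Finset.mul_sum]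
  ring
where
  pow_mod_of_isPrimitiveRoot {R : ℕ} {ρ : ℂ} (hρ : IsPrimitiveRoot ρ R) {n : ℕ} :
      ρ ^ n = ρ ^ (n % R) := by
    conv_lhs => rw [← Nat.mod_add_div n R, pow_add, pow_mul, hρ.pow_eq_one, one_pow, mul_one]
  pow_eq_pow_mod_of_isPrimitiveRoot {R : ℕ} {ρ : ℂ} (hρ : IsPrimitiveRoot ρ R) {a b : ℕ}
      (hab : a ≡ b [MOD R]) : ρ ^ a = ρ ^ b := by
    rw [pow_mod_of_isPrimitiveRoot hρ (n := a), pow_mod_of_isPrimitiveRoot hρ (n := b), hab]

end Vale.Agent.P043
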