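import Vale.Agent.P043.Mean

/-! Weyl's criterion under the mean. -/

namespace Vale.Agent.P043

open Finset Filter Topology Complex ComplexConjugate

variable {d : ℕ}

/-- `x` and `a` differ by an integer. -/
def Cong (x a : ℝ) : Prop := ∃ z : ℤ, x = a + z

theorem Cong.add {x y a b : ℝ} (h1 : Cong x a) (h2 : Cong y b) : Cong (x + y) (a + b) := by
  obtain ⟨z, rfl⟩ := h1; obtain ⟨w, rfl⟩ := h2
  exact ⟨z + w, by push_cast; ring⟩

theorem Cong.sub {x y a b : ℝ} (h1 : Cong x a) (h2 : Cong y b) : Cong (x - y) (a - b) := by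
  obtain ⟨z, rfl⟩ := h1; obtain ⟨w, rfl⟩ := h2
  exact ⟨z - w, by push_cast; ring⟩

theorem Cong.intMul {x a : ℝ} (h : Cong x a) (n : ℤ) : Cong (n * x) (n * a) := by
  obtain ⟨z, rfl⟩ := h
  exact ⟨n * z, by push_cast; ring⟩

theorem Cong.refl (x : ℝ) : Cong x x := ⟨0, by simp⟩

/-- `exp (2 π i t)`. -/
noncomputable def ev (t : ℝ) : ℂ := Complex.exp (2 * Real.pi * I * t)

theorem ev_add (s t : ℝ) : ev (s + t) = ev s * ev t := by
  simp [ev, mul_add, Complex.exp_add]

theorem norm_ev (t : ℝ) : ‖ev t‖ = 1 := by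
  simp [ev, Complex.norm_exp]

theorem conj_ev (t : ℝ) : conj (ev t) = ev (-t) := by
  rw [ev, ev, ← Complex.exp_conj]
  simp [Complex.conj_ofNat]

theorem ev_int (z : ℤ) : ev z = 1 :=
  Complex.exp_eq_one_iff.2 ⟨z, by push_cast; ring⟩

theorem ev_cong {x a : ℝ} (h : Cong x a) : ev x = ev a := by
  obtain ⟨z, rfl⟩ := h
  rw [ev_add, ev_int, mul_one]

theorem ev_ne_one {a : ℝ} (ha : Irrational a) : ev a ≠ 1 := by
  intro h
  obtain ⟨z, hz⟩ := Complex.exp_eq_one_iff.1 h
  have : (a : ℂ) = z := by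
    have h2 : (2 * Real.pi * I : ℂ) ≠ 0 := Complex.two_pi_I_ne_zero
    exact mul_left_cancel₀ h2 (by rw [hz]; ring)
  exact ha.ne_int z (by exact_mod_cast this)

/-- A bounded complex function. -/
def BddC {α : Type*} (F : α → ℂ) : Prop := ∃ C, ∀ x, ‖F x‖ ≤ C

theorem BddC.re {α : Type*} {F : α → ℂ} (h : BddC F) : Bdd fun x => (F x).re := by
  obtain ⟨C, hC⟩ := h; exact ⟨C, fun x => (Complex.abs_re_le_norm _).trans (hC x)⟩

theorem BddC.im {α : Type*} {F : α → ℂ} (h : BddC F) : Bdd fun x => (F x).im := by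
  obtain ⟨C, hC⟩ := h; exact ⟨C, fun x => (Complex.abs_im_le_norm _).trans (hC x)⟩

theorem BddC.add {α : Type*} {F G : α → ℂ} (hF : BddC F) (hG : BddC G) :
    BddC fun x => F x + G x := by
  obtain ⟨C, hC⟩ := hF; obtain ⟨D, hD⟩ := hG
  exact ⟨C + D, fun x => (norm_add_le _ _).trans (add_le_add (hC x) (hD x))⟩

theorem BddC.const_mul {α : Type*} {F : α → ℂ} (c : ℂ) (hF : BddC F) :
    BddC fun x => c * F x := by
  obtain ⟨C, hC⟩ := hF
  exact ⟨‖c‖ * C, fun x => by rw [norm_mul]; gcongr; exact hC x⟩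

theorem bddC_ev (f : Pt d → ℝ) : BddC fun x => ev (f x) := ⟨1, fun x => (norm_ev _).le⟩

theorem BddC.real_mul {α : Type*} {w : α → ℝ} {F : α → ℂ} (hw : Bdd w) (hF : BddC F) :
    BddC fun x => (w x : ℂ) * F x := by
  obtain ⟨C, hC⟩ := hw; obtain ⟨D, hD⟩ := hF
  refine ⟨C * D, fun x => ?_⟩
  rw [norm_mul, Complex.norm_real]
  exact mul_le_mul (hC x) (hD x) (norm_nonneg _) ((abs_nonneg _).trans (hC x))

theorem BddC.sum {α ι : Type*} (s : Finset ι) {F : ι → α → ℂ} (h : ∀ i ∈ s, BddC (F i)) :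
    BddC fun x => ∑ i ∈ s, F i x := by
  classical
  induction s using Finset.induction with
  | empty => exact ⟨0, fun x => by simp⟩
  | insert i t hi ih =>
    simp only [sum_insert hi]
    exact (h i (mem_insert_self _ _)).add (ih fun j hj => h j (mem_insert_of_mem hj))

/-- The mean of a complex function. -/
noncomputable def meanC (F : Pt d → ℂ) : ℂ :=
  (mean fun x => (F x).re : ℝ) + (mean fun x => (F x).im : ℝ) * I

theorem meanC_re (F : Pt d → ℂ) : (meanC F).re = mean fun x => (F x).re := by simp [meanC]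

theorem meanC_im (F : Pt d → ℂ) : (meanC F).im = mean fun x => (F x).im := by simp [meanC]

theorem meanC_add {F G : Pt d → ℂ} (hF : BddC F) (hG : BddC G) :
    meanC (fun x => F x + G x) = meanC F + meanC G := by
  apply Complex.ext <;> simp only [meanC_re, meanC_im, Complex.add_re, Complex.add_im]
  · exact mean_add hF.re hG.re
  · exact mean_add hF.im hG.im

theorem meanC_const_mul (c : ℂ) {F : Pt d → ℂ} (hF : BddC F) :
    meanC (fun x => c * F x) = c * meanC F := by
  apply Complex.ext <;> simp only [meanC_re, meanC_im, Complex.mul_re, Complex.mul_im]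
  · rw [mean_sub (hF.re.smul _) (hF.im.smul _), mean_smul _ hF.re, mean_smul _ hF.im]
  · rw [mean_add (hF.im.smul _) (hF.re.smul _), mean_smul _ hF.re, mean_smul _ hF.im]

theorem meanC_sum {ι : Type*} (s : Finset ι) {F : ι → Pt d → ℂ} (h : ∀ i ∈ s, BddC (F i)) :
    meanC (fun x => ∑ i ∈ s, F i x) = ∑ i ∈ s, meanC (F i) := by
  apply Complex.ext <;> simp only [meanC_re, meanC_im, Complex.re_sum, Complex.im_sum]
  · exact mean_sum s fun i hi => (h i hi).re
  · exact mean_sum s fun i hi => (h i hi).im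

theorem meanC_shift {F : Pt d → ℂ} (hF : BddC F) (v : Pt d) :
    meanC (fun x => F (x + v)) = meanC F := by
  apply Complex.ext <;> simp only [meanC_re, meanC_im]
  · exact mean_shift hF.re v
  · exact mean_shift hF.im v

theorem normSq_meanC_le {F : Pt d → ℂ} (hF : BddC F) :
    normSq (meanC F) ≤ mean fun x => normSq (F x) := by
  set a := mean fun x => (F x).re with ha
  set b := mean fun x => (F x).im with hb
  have h1 : Bdd fun x => normSq (F x) := (hF.re.mul hF.re).add (hF.im.mul hF.im)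
  have h2 : mean (fun x => 2 * a * (F x).re + 2 * b * (F x).im - (a * a + b * b))
      ≤ mean fun x => normSq (F x) := by
    refine mean_mono (((hF.re.smul _).add (hF.im.smul _)).sub (Bdd.const _)) h1 fun x => ?_
    rw [normSq_apply]
    nlinarith [sq_nonneg ((F x).re - a), sq_nonneg ((F x).im - b)]
  rw [mean_sub ((hF.re.smul _).add (hF.im.smul _)) (Bdd.const _),
    mean_add (hF.re.smul _) (hF.im.smul _), mean_smul _ hF.re, mean_smul _ hF.im, mean_const,
    ← ha, ← hb] at h2
  rw [normSq_apply, meanC_re, meanC_im, ← ha, ← hb]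
  linarith

theorem iter_fwdDiff_sub {M G : Type*} [AddCommMonoid M] [AddCommGroup G] (v : M) (f g : M → G) :
    ∀ n : ℕ, (fwdDiff v)^[n] (fun x => f x - g x)
      = fun x => (fwdDiff v)^[n] f x - (fwdDiff v)^[n] g x
  | 0 => rfl
  | n + 1 => by
    rw [Function.iterate_succ_apply', iter_fwdDiff_sub v f g n, Function.iterate_succ_apply',
      Function.iterate_succ_apply']
    funext x
    simp only [fwdDiff]
    abel

theorem iter_diff_translate (f : Pt d → ℝ) (v : Pt d) (D : ℕ) {a : ℝ}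
    (h : ∀ x, Cong ((fwdDiff v)^[D + 1] f x) a) (x : Pt d) (n : ℕ) :
    Cong ((fwdDiff v)^[D] f (x + n • v)) ((fwdDiff v)^[D] f x + n * a) := by
  induction n with
  | zero => simpa using Cong.refl _
  | succ n ih =>
    have h1 := h (x + n • v)
    rw [Function.iterate_succ_apply', fwdDiff] at h1
    have h2 := h1.add ih
    rw [succ_nsmul, ← add_assoc]
    convert h2 using 1
    · ring
    · push_cast; ring

theorem weyl_one : ∀ (D : ℕ) (f : Pt d → ℝ) (v : Pt d) (a : ℝ), 1 ≤ D → Irrational a →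
    (∀ x, Cong ((fwdDiff v)^[D] f x) a) → meanC (fun x => ev (f x)) = 0 := by
  intro D
  induction D with
  | zero => intro f v a h; omega
  | succ D ih =>
    intro f v a _ ha h
    rcases Nat.eq_zero_or_pos D with rfl | hD
    · have h1 : ∀ x, ev (f (x + v)) = ev a * ev (f x) := fun x => by
        have h2 := (h x).add (Cong.refl (f x))
        simp only [zero_add, Function.iterate_one, fwdDiff, sub_add_cancel] at h2
        rw [ev_cong h2, ev_add]
      have h3 := meanC_shift (bddC_ev f) v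
      rw [funext h1, meanC_const_mul _ (bddC_ev f)] at h3
      by_contra hne
      exact ev_ne_one ha ((mul_eq_right₀ hne).1 h3)
    · have hcross : ∀ i j : ℕ, i ≠ j →
          meanC (fun x => ev (f (x + i • v) - f (x + j • v))) = 0 := by
        intro i j hij
        have hirr : Irrational (((i : ℤ) - (j : ℤ) : ℤ) * a) :=
          ha.intCast_mul (sub_ne_zero.2 (by exact_mod_cast hij))
        refine ih _ v _ hD hirr fun x => ?_
        have h4 := (iter_diff_translate f v D h x i).sub (iter_diff_translate f v D h x j)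
        have h5 : (fwdDiff v)^[D] (fun x => f (x + i • v) - f (x + j • v)) x
            = (fwdDiff v)^[D] f (x + i • v) - (fwdDiff v)^[D] f (x + j • v) := by
          rw [← fwdDiff_iter_comp_add, ← fwdDiff_iter_comp_add]
          rw [iter_fwdDiff_sub]
        rw [h5]
        convert h4 using 1
        push_cast; ring
      have hbound : ∀ H : ℕ, (H : ℝ) ^ 2 * normSq (meanC fun x => ev (f x)) ≤ H := by
        intro H
        set F : Pt d → ℂ := fun x => ∑ i ∈ range H, ev (f (x + i • v)) with hF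
        have hb : ∀ i ∈ range H, BddC fun x : Pt d => ev (f (x + i • v)) :=
          fun i _ => bddC_ev _
        have h6 : meanC F = (H : ℂ) * meanC fun x => ev (f x) := by
          rw [hF, meanC_sum _ hb]
          simp only [meanC_shift (bddC_ev f)]
          simp
        have h7 := normSq_meanC_le (BddC.sum _ hb)
        rw [← hF, h6, map_mul, Complex.normSq_natCast] at h7
        rw [sq]
        refine h7.trans (le_of_eq ?_)
        have h8 : (fun x => normSq (F x)) = fun x =>
            (∑ i ∈ range H, ∑ j ∈ range H, ev (f (x + i • v) - f (x + j • v))).re := by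
          funext x
          rw [← Complex.ofReal_re (normSq (F x)), ← Complex.mul_conj]
          simp only [hF, map_sum, sum_mul_sum, conj_ev, ← ev_add, ← sub_eq_add_neg]
        have hb2 : ∀ i ∈ range H, BddC fun x : Pt d =>
            ∑ j ∈ range H, ev (f (x + i • v) - f (x + j • v)) :=
          fun i _ => BddC.sum _ fun j _ => bddC_ev _
        rw [h8, ← meanC_re, meanC_sum _ hb2, Complex.re_sum]
        have h9 : ∀ i ∈ range H, (meanC fun x : Pt d =>
            ∑ j ∈ range H, ev (f (x + i • v) - f (x + j • v))).re = 1 := by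
          intro i hi
          rw [meanC_sum _ fun j _ => bddC_ev _, sum_eq_single i (fun j _ hj => hcross i j hj.symm)
            (fun h => absurd hi h)]
          simp [meanC_re, ev, mean_const]
        rw [sum_congr rfl h9]
        simp
      have h10 : normSq (meanC fun x => ev (f x)) = 0 := by
        refine le_antisymm ?_ (normSq_nonneg _)
        by_contra hc
        push Not at hc
        obtain ⟨H, hH⟩ := exists_nat_gt (1 / normSq (meanC fun x => ev (f x)))
        rw [div_lt_iff₀ hc] at hH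
        have h11 := hbound H
        nlinarith
      exact normSq_eq_zero.1 h10

theorem weyl {f : Pt d → ℝ} {v : Pt d} {D : ℕ} {a : ℝ} (hD : 1 ≤ D) (ha : Irrational a)
    (h : ∀ x, Cong ((fwdDiff v)^[D] f x) a) {n : ℤ} (hn : n ≠ 0) :
    meanC (fun x => ev (n * f x)) = 0 := by
  refine weyl_one D _ v _ hD (ha.intCast_mul hn) fun x => ?_
  have : (fwdDiff v)^[D] (fun x => (n : ℝ) * f x) = (n : ℝ) • (fwdDiff v)^[D] f :=
    fwdDiff_iter_const_smul v (n : ℝ) f D
  rw [this]
  exact (h x).intMul n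

theorem meanC_periodic {ψ w : Pt d → ℝ} (hw : Bdd w)
    (hh : ∀ n : ℤ, n ≠ 0 → meanC (fun x => (w x : ℂ) * ev (n * ψ x)) = 0)
    (G : C(AddCircle (1 : ℝ), ℂ)) :
    meanC (fun x => (w x : ℂ) * G (ψ x : AddCircle (1 : ℝ))) =
      (∫ t in (0 : ℝ)..1, G (t : AddCircle (1 : ℝ))) * meanC fun x => (w x : ℂ) := by
  have : Fact ((0 : ℝ) < 1) := ⟨one_pos⟩
  have hbd : ∀ H : C(AddCircle (1 : ℝ), ℂ),
      BddC fun x => (w x : ℂ) * H (ψ x : AddCircle (1 : ℝ)) :=
    fun H => BddC.real_mul hw ⟨‖H‖, fun x => H.norm_coe_le_norm _⟩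
  have hint : ∀ H : C(AddCircle (1 : ℝ), ℂ),
      IntervalIntegrable (fun t : ℝ => H (t : AddCircle (1 : ℝ))) MeasureTheory.volume 0 1 :=
    fun H => (H.continuous.comp (AddCircle.continuous_mk' 1)).intervalIntegrable _ _
  let L : C(AddCircle (1 : ℝ), ℂ) →ₗ[ℂ] ℂ :=
    { toFun := fun H => meanC (fun x => (w x : ℂ) * H (ψ x : AddCircle (1 : ℝ))) -
        (∫ t in (0 : ℝ)..1, H (t : AddCircle (1 : ℝ))) * meanC fun x => (w x : ℂ)
      map_add' := fun H K => by
        simp only [ContinuousMap.add_apply, mul_add]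
        rw [meanC_add (hbd H) (hbd K), intervalIntegral.integral_add (hint H) (hint K)]
        ring
      map_smul' := fun c H => by
        simp only [ContinuousMap.smul_apply, smul_eq_mul, RingHom.id_apply]
        rw [intervalIntegral.integral_const_mul]
        have : (fun x => (w x : ℂ) * (c * H (ψ x : AddCircle (1 : ℝ)))) =
            fun x => c * ((w x : ℂ) * H (ψ x : AddCircle (1 : ℝ))) := funext fun x => by ring
        rw [this, meanC_const_mul _ (hbd H)]
        ring }
  obtain ⟨W, hW⟩ := hw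
  have hcont : Continuous L := by
    refine AddMonoidHomClass.continuous_of_bound L (2 * W + ‖meanC fun x => (w x : ℂ)‖) fun H => ?_
    have hW0 : 0 ≤ W := (abs_nonneg _).trans (hW 0)
    have h1 : ∀ x, ‖(w x : ℂ) * H (ψ x : AddCircle (1 : ℝ))‖ ≤ W * ‖H‖ := fun x => by
      rw [norm_mul, Complex.norm_real]
      exact mul_le_mul (hW x) (H.norm_coe_le_norm _) (norm_nonneg _) hW0
    have h2 : ‖meanC (fun x => (w x : ℂ) * H (ψ x : AddCircle (1 : ℝ)))‖ ≤ 2 * W * ‖H‖ := by
      refine (Complex.norm_le_abs_re_add_abs_im _).trans ?_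
      rw [meanC_re, meanC_im]
      have h3 : ∀ g : Pt d → ℝ, (∀ x, |g x| ≤ W * ‖H‖) → |mean g| ≤ W * ‖H‖ := fun g hg => by
        refine abs_le.2 ⟨?_, ?_⟩
        · rw [← mean_const (d := d) (-(W * ‖H‖))]
          exact mean_mono (Bdd.const _) ⟨_, hg⟩ fun x => (abs_le.1 (hg x)).1
        · rw [← mean_const (d := d) (W * ‖H‖)]
          exact mean_mono ⟨_, hg⟩ (Bdd.const _) fun x => (abs_le.1 (hg x)).2
      have h4 := h3 _ fun x => (Complex.abs_re_le_norm _).trans (h1 x)
      have h5 := h3 _ fun x => (Complex.abs_im_le_norm _).trans (h1 x)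
      linarith
    have h6 : ‖∫ t in (0 : ℝ)..1, H (t : AddCircle (1 : ℝ))‖ ≤ ‖H‖ := by
      refine (intervalIntegral.norm_integral_le_of_norm_le_const
        fun t _ => H.norm_coe_le_norm _).trans (le_of_eq ?_)
      norm_num
    calc ‖L H‖ ≤ _ := norm_sub_le _ _
      _ ≤ 2 * W * ‖H‖ + ‖H‖ * ‖meanC fun x => (w x : ℂ)‖ := by
          rw [norm_mul]; gcongr
      _ = _ := by ring
  have hker : Submodule.span ℂ (Set.range (fourier : ℤ → C(AddCircle (1 : ℝ), ℂ))) ≤
      LinearMap.ker L := by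
    rw [Submodule.span_le]
    rintro _ ⟨n, rfl⟩
    show meanC _ - _ = 0
    have he : ∀ t : ℝ, fourier n (t : AddCircle (1 : ℝ)) = ev (n * t) := fun t => by
      rw [fourier_coe_apply]
      simp [ev, mul_assoc, mul_left_comm, mul_comm]
    simp only [he]
    rcases eq_or_ne n 0 with rfl | hn
    · simp [ev]
    · rw [hh n hn]
      have : ∫ t in (0 : ℝ)..1, ev ((n : ℝ) * t) = 0 := by
        have hc : (2 * Real.pi * I * n : ℂ) ≠ 0 :=
          mul_ne_zero Complex.two_pi_I_ne_zero (by exact_mod_cast hn)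
        have e1 : (fun t : ℝ => ev ((n : ℝ) * t)) = fun t : ℝ =>
            Complex.exp ((2 * Real.pi * I * n : ℂ) * t) := funext fun t => by
          simp [ev, mul_assoc]
        rw [e1, integral_exp_mul_complex hc]
        have e2 : Complex.exp ((2 * Real.pi * I * n : ℂ) * (1 : ℝ)) = 1 :=
          Complex.exp_eq_one_iff.2 ⟨n, by push_cast; ring⟩
        rw [e2]; simp
      rw [this]; ring
  have hclosed : IsClosed (LinearMap.ker L : Set C(AddCircle (1 : ℝ), ℂ)) :=
    isClosed_singleton.preimage hcont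
  have htop : (⊤ : Submodule ℂ C(AddCircle (1 : ℝ), ℂ)) ≤ LinearMap.ker L := by
    rw [← span_fourier_closure_eq_top]
    exact Submodule.topologicalClosure_minimal _ hker hclosed
  exact sub_eq_zero.1 (htop (show G ∈ ⊤ from trivial))

theorem mean_periodic {ψ w : Pt d → ℝ} (hw : Bdd w)
    (hh : ∀ n : ℤ, n ≠ 0 → meanC (fun x => (w x : ℂ) * ev (n * ψ x)) = 0)
    {g : ℝ → ℝ} (hg : Continuous g) (hg01 : g 0 = g 1) (hψ : ∀ x, ψ x ∈ Set.Icc (0 : ℝ) 1) :
    mean (fun x => w x * g (ψ x)) = (∫ t in (0 : ℝ)..1, g t) * mean w := by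
  have : Fact ((0 : ℝ) < 1) := ⟨one_pos⟩
  let G : C(AddCircle (1 : ℝ), ℂ) := ⟨AddCircle.liftIco 1 0 (fun t => (g t : ℂ)),
    AddCircle.liftIco_continuous (by simp [hg01])
      (Complex.continuous_ofReal.comp hg).continuousOn⟩
  have hG : ∀ t ∈ Set.Icc (0 : ℝ) 1, G (t : AddCircle (1 : ℝ)) = (g t : ℂ) := by
    intro t ht
    rcases eq_or_lt_of_le ht.2 with h1 | h1
    · subst h1
      rw [AddCircle.coe_period, ← QuotientAddGroup.mk_zero]
      simp only [G, ContinuousMap.coe_mk]
      rw [AddCircle.liftIco_zero_coe_apply (by simp), hg01]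
    · simp only [G, ContinuousMap.coe_mk]
      rw [AddCircle.liftIco_zero_coe_apply ⟨ht.1, h1⟩]
  have h2 := congrArg Complex.re (meanC_periodic hw hh G)
  have h3 : (∫ t in (0 : ℝ)..1, G (t : AddCircle (1 : ℝ))) =
      ((∫ t in (0 : ℝ)..1, g t : ℝ) : ℂ) := by
    rw [← intervalIntegral.integral_ofReal]
    exact intervalIntegral.integral_congr fun t ht => hG t (by rwa [Set.uIcc_of_le zero_le_one] at ht)
  rw [h3, meanC_re, Complex.re_ofReal_mul, meanC_re] at h2
  simpa [hG _ (hψ _), mul_comm] using h2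

theorem mean_equidist {ψ w : Pt d → ℝ} (hw : Bdd w)
    (hh : ∀ n : ℤ, n ≠ 0 → meanC (fun x => (w x : ℂ) * ev (n * ψ x)) = 0)
    (h1 : ∀ n : ℤ, n ≠ 0 → meanC (fun x => ev (n * ψ x)) = 0)
    (hψ : ∀ x, ψ x ∈ Set.Icc (0 : ℝ) 1) (j : ℕ) :
    mean (fun x => w x * ψ x ^ (j + 1)) = mean w / (j + 2) := by
  obtain ⟨W, hW⟩ := hw
  have hW0 : 0 ≤ W := (abs_nonneg _).trans (hW 0)
  have hψb : Bdd ψ := ⟨1, fun x => abs_le.2 ⟨by linarith [(hψ x).1], (hψ x).2⟩⟩
  have hpowb : ∀ k : ℕ, Bdd fun x => ψ x ^ k := fun k => ⟨1, fun x => by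
    rw [abs_pow]; exact pow_le_one₀ (abs_nonneg _) (abs_le.2 ⟨by linarith [(hψ x).1], (hψ x).2⟩)⟩
  have hwb : Bdd w := ⟨W, hW⟩
  have hqb : ∀ k : ℕ, Bdd fun x => (1 - ψ x) ^ k := fun k => ⟨1, fun x => by
    rw [abs_pow]; exact pow_le_one₀ (abs_nonneg _)
      (abs_le.2 ⟨by linarith [(hψ x).2], by linarith [(hψ x).1]⟩)⟩
  have hbp : ∀ n : ℕ, mean (fun x => (1 - ψ x) ^ (n + 1) + ψ x ^ (n + 1)) = 2 / (n + 2) := by
    intro n
    have := mean_periodic (w := fun _ : Pt d => (1 : ℝ)) (ψ := ψ) (Bdd.const 1)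
      (fun k hk => by simpa using h1 k hk)
      (g := fun t => (1 - t) ^ (n + 1) + t ^ (n + 1)) (by fun_prop) (by simp [add_comm]) hψ
    simp only [one_mul, mean_const, mul_one] at this
    rw [this, intervalIntegral.integral_add
      ((by fun_prop : Continuous fun t : ℝ => (1 - t) ^ (n + 1)).intervalIntegrable _ _)
      ((by fun_prop : Continuous fun t : ℝ => t ^ (n + 1)).intervalIntegrable _ _),
      intervalIntegral.integral_comp_sub_left (fun t => t ^ (n + 1)) 1]
    simp only [sub_self, sub_zero, integral_pow]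
    push_cast
    simp [zero_pow]
    ring
  have key : ∀ n : ℕ, |mean (fun x => w x * ψ x ^ (j + 1)) - mean w / (j + 2)|
      ≤ 4 * W / (n + 2) := by
    intro n
    have h2 := mean_periodic hwb hh
      (g := fun t => t ^ (j + 1) - t ^ (j + 1) * t ^ (n + 1)) (by fun_prop) (by simp) hψ
    rw [intervalIntegral.integral_sub
      ((by fun_prop : Continuous fun t : ℝ => t ^ (j + 1)).intervalIntegrable _ _)
      ((by fun_prop : Continuous fun t : ℝ => t ^ (j + 1) * t ^ (n + 1)).intervalIntegrable _ _)]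
      at h2
    simp only [← pow_add, integral_pow, one_pow, zero_pow (Nat.succ_ne_zero _), sub_zero] at h2
    simp only [mul_sub] at h2
    rw [mean_sub (hwb.mul (hpowb _)) (hwb.mul (hpowb _))] at h2
    have h3 : |mean fun x => w x * ψ x ^ (j + 1 + (n + 1))| ≤ W * (2 / (n + 2)) := by
      have hb2 : Bdd fun x => W * ((1 - ψ x) ^ (n + 1) + ψ x ^ (n + 1)) :=
        ((hqb _).add (hpowb _)).smul W
      have hle : ∀ x, |w x * ψ x ^ (j + 1 + (n + 1))| ≤
          W * ((1 - ψ x) ^ (n + 1) + ψ x ^ (n + 1)) := by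
        intro x
        have h0 := (hψ x).1
        have h1' := (hψ x).2
        rw [abs_mul, abs_of_nonneg (pow_nonneg h0 _)]
        refine mul_le_mul (hW x) ?_ (pow_nonneg h0 _) hW0
        calc ψ x ^ (j + 1 + (n + 1)) ≤ ψ x ^ (n + 1) :=
              pow_le_pow_of_le_one h0 h1' (by omega)
          _ ≤ _ := le_add_of_nonneg_left (pow_nonneg (by linarith) _)
      rw [← hbp n, ← mean_smul _ ((hqb _).add (hpowb _))]
      refine abs_le.2 ⟨?_, mean_mono (hwb.mul (hpowb _)) hb2 fun x => (abs_le.1 (hle x)).2⟩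
      rw [neg_le, ← neg_one_mul, ← mean_smul _ (hwb.mul (hpowb _))]
      exact mean_mono ((hwb.mul (hpowb _)).smul _) hb2 fun x => by linarith [(abs_le.1 (hle x)).1]
    have h4 : |mean w| ≤ W := by
      refine abs_le.2 ⟨?_, ?_⟩
      · rw [← mean_const (d := d) (-W)]
        exact mean_mono (Bdd.const _) hwb fun x => (abs_le.1 (hW x)).1
      · rw [← mean_const (d := d) W]
        exact mean_mono hwb (Bdd.const _) fun x => (abs_le.1 (hW x)).2
    set E1 := mean fun x => w x * ψ x ^ (j + 1) with hE1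
    set E2 := mean fun x => w x * ψ x ^ (j + 1 + (n + 1))
    have h5 : E1 - mean w / (j + 2) = E2 - mean w / ((j : ℝ) + n + 3) := by
      have h6 : E1 = E2 + (1 / (((j + 1 : ℕ) : ℝ) + 1) - 1 / (((j + 1 + (n + 1) : ℕ) : ℝ) + 1)) * mean w := by
        linarith
      rw [h6]
      push_cast
      ring
    rw [h5]
    calc |E2 - mean w / ((j : ℝ) + n + 3)| ≤ |E2| + |mean w / ((j : ℝ) + n + 3)| := abs_sub _ _
      _ ≤ W * (2 / (n + 2)) + W / (n + 2) := by
          refine add_le_add h3 ?_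
          rw [abs_div, abs_of_pos (show (0 : ℝ) < (j : ℝ) + n + 3 by positivity)]
          exact div_le_div₀ hW0 h4 (by positivity) (by linarith [(Nat.cast_nonneg j : (0 : ℝ) ≤ j)])
      _ ≤ 4 * W / (n + 2) := by
          rw [mul_div_assoc', ← add_div]
          gcongr
          linarith
  by_contra hne
  have hpos : 0 < |mean (fun x => w x * ψ x ^ (j + 1)) - mean w / (j + 2)| :=
    abs_pos.2 (sub_ne_zero.2 hne)
  obtain ⟨n, hn⟩ := exists_nat_gt (4 * W / |mean (fun x => w x * ψ x ^ (j + 1)) - mean w / (j + 2)|)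
  rw [div_lt_iff₀ hpos] at hn
  have h7 := key n
  rw [le_div_iff₀ (by positivity)] at h7
  nlinarith

end Vale.Agent.P043
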